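import Vale.Agent.P022D.V.Spec
import Vale.Agent.P022.H353.Wd

/-!
# P022D, block TH, part two: from a residual system of eigenvalues to a vector (statements)
-/

set_option linter.all false

open UpperHalfPlane hiding I
open Matrix
open scoped MatrixGroups ModularForm

noncomputable section

namespace Vale.Agent.P022D.Th

open Vale.Agent.P022 Vale.Agent.P027M.M Vale.Agent.P022D.V Vale.Agent.P022.H218.L3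

/-- the expansions of all tuples of forms of weight `k` -/
def XC (M k : ℕ) : Submodule ℂ (FT M ℂ) where
  carrier := {s | ∃ F, IsTp M k F ∧ ∀ g, HS M (s g) (F g)}
  zero_mem' := ⟨0, ⟨fun _ => ⟨Hol.zero_mem, fun γ => by
      rw [Pi.zero_apply, SlashAction.zero_slash]; exact Filter.const_boundedAtFilter _ _⟩,
      fun γ g => by simp⟩, fun g τ => by simpa using hasSum_zero⟩
  add_mem' := by
    rintro w w' ⟨F, h1, h2⟩ ⟨F', h1', h2'⟩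
    refine ⟨F + F', ⟨fun g => (h1.bdd g).add (h1'.bdd g), fun γ g => ?_⟩, fun g τ => ?_⟩
    · rw [Pi.add_apply, Pi.add_apply, SlashAction.add_slash, h1.eqv, h1'.eqv]
    · simpa [add_mul] using (h2 g τ).add (h2' g τ)
  smul_mem' := by
    rintro c w ⟨F, h1, h2⟩
    refine ⟨c • F, ⟨fun g => ?_, fun γ g => ?_⟩, fun g τ => ?_⟩
    · have h := (Bdd.const c).mul (h1.bdd g)
      rw [zero_add] at h
      exact h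
    · rw [Pi.smul_apply, Pi.smul_apply, ModularForm.SL_smul_slash, h1.eqv]
    · have h := (h2 g τ).mul_left c
      refine h.congr_fun fun n => ?_
      rw [Pi.smul_apply, PowerSeries.coeff_smul, smul_eq_mul, mul_assoc]

theorem mem_XC {M k : ℕ} {s : FT M ℂ} :
    s ∈ XC M k ↔ ∃ F, IsTp M k F ∧ ∀ g, HS M (s g) (F g) := Iff.rfl

/-- `σ` raises `e(1 / M)` to the power `a` -/
def Ok (M : ℕ) (σ : ℂ ≃+* ℂ) (a : (ZMod M)ˣ) : Prop := σ (ze M 1) = ze M 1 ^ (a : ZMod M).val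

/-- the conjugate of a tuple -/
def cj {M : ℕ} (σ : ℂ ≃+* ℂ) (a : (ZMod M)ˣ) (s : FT M ℂ) : FT M ℂ :=
  fun g => (s (dg 1 a * g)).map (σ : ℂ →+* ℂ)

/-- the rational tuples -/
def PQ (M : ℕ) : Set (FT M ℂ) := {s | ∀ σ a, Ok M σ a → cj σ a s = s}

/-- the functions of the tuple have no zeros -/
def NVC {M : ℕ} (s : FT M ℂ) : Prop := ∀ g, ∃ f : ℍ → ℂ, HS M (s g) f ∧ ∀ τ, f τ ≠ 0

/-- integral tuples as complex tuples -/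
def toC (O : Type) [CommRing O] [Co O] {M : ℕ} (w : FT M (AA O)) : FT M ℂ :=
  fun g => (w g).map (av O)

/-- the group of `f (τ / N₁)`, `f` of level `Γ₀(N₀)` -/
def H1 (M N₁ N₀ : ℕ) : Set (GM M) :=
  {h | (∃ y : ZMod M, (h : Matrix (Fin 2) (Fin 2) (ZMod M)) 0 1 = (N₁ : ZMod M) * y) ∧
    ∃ y : ZMod M, (N₁ : ZMod M) * (h : Matrix (Fin 2) (Fin 2) (ZMod M)) 1 0 = (N₀ : ZMod M) * y}

/-- the group of `f (τ / N₁)`, `f` of level `Γ₁(N₀)` -/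
def H0 (M N₁ N₀ : ℕ) : Set (GM M) :=
  {h | h ∈ H1 M N₁ N₀ ∧ Cg M N₀ ((h : Matrix (Fin 2) (Fin 2) (ZMod M)) 0 0) 1}

/-- the elements which are `1` at `N₁` and of level `Γ₀(N₀)` at the other primes -/
def H2 (M N₁ N₀ : ℕ) : Set (GM M) := {h | h ∈ Kq M N₁ ∧ h ∈ H1 M N₁ N₀}

/-- calculus of complex tuples -/
structure XB (M : ℕ) : Prop where
  mul : ∀ k l, ∀ s ∈ XC M k, ∀ t ∈ XC M l, s * t ∈ XC M (k + l)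
  one : (1 : FT M ℂ) ∈ XC M 0
  rt : ∀ k h, ∀ s ∈ XC M k, rt ℂ ℂ h s ∈ XC M k
  ng : ∀ k, ∀ s ∈ XC M k, V.rt ℂ ℂ (dg (-1) (-1)) s = (-1 : ℂ) ^ k • s
  div : ∀ k l (u δ : FT M ℂ), u * δ ∈ XC M (k + l) → δ ∈ XC M l → NVC δ → u ∈ XC M k
  unq : ∀ k, ∀ s ∈ XC M k, (∀ a, s (dg 1 a) = 0) → s = 0
  nvm : ∀ s t : FT M ℂ, NVC s → NVC t → NVC (s * t)
  nv1 : NVC (1 : FT M ℂ)
  nv0 : ∀ s : FT M ℂ, NVC s → ∀ g, s g ≠ 0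

/-- row XB -/
def XBS : Prop := ∀ M : ℕ, 0 < M → XB M

/-- bounded denominators, integrality at all cusps, passage to the lattices -/
def BD (O : Type) [CommRing O] [Co O] : Prop := ∀ M k : ℕ, Odd M →
  (∀ s ∈ XC M k, ∃ n : ℕ, ∀ g m, 2 ^ n * (s g).coeff m ∈ (Co.A O : ValuationSubring ℂ)) ∧
  (∀ s ∈ XC M k, (∀ a m, (s (dg 1 a)).coeff m ∈ (Co.A O : ValuationSubring ℂ)) →
    ∀ g m, (s g).coeff m ∈ (Co.A O : ValuationSubring ℂ)) ∧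
  (∀ s ∈ XC M k, (∀ g m, (s g).coeff m ∈ (Co.A O : ValuationSubring ℂ)) →
    (∀ σ a, (∀ x : O, σ (Co.j x) = Co.j x) → Ok M σ a → cj σ a s = s) →
    ∃ w ∈ L O M k, toC O w = s) ∧
  (∀ w ∈ L O M k, toC O w ∈ XC M k) ∧
  (∀ x : ℚ, (x : ℂ) ∈ (Co.A O : ValuationSubring ℂ) → Odd x.den)

/-- level one -/
def LV1 : Prop := ∀ M k : ℕ, 0 < M → ∃ t : Finset (FT M ℂ), (∀ y ∈ t, y ∈ XC M k ∧ y ∈ PQ M) ∧
  ∀ s ∈ XC M k, (∀ h, rt ℂ ℂ h s = s) → s ∈ Submodule.span ℂ (t : Set (FT M ℂ))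

/-- separating rational tuples -/
def GENQ : Prop := ∀ M : ℕ, Odd M → 3 ≤ M →
  (∀ h : GM M, h ≠ 1 → h ≠ dg (-1) (-1) →
    ∃ θ ∈ XC M 2, θ ∈ PQ M ∧ NVC (rt ℂ ℂ h θ - θ)) ∧
  ∃ p ∈ XC M 3, p ∈ PQ M ∧ NVC p

/-- interpolation -/
def SEPX : Prop := ∀ M k : ℕ, Odd M → 3 ≤ M → ∃ (d : ℕ) (δ : FT M ℂ) (t : Finset (FT M ℂ)),
  δ ∈ XC M d ∧ δ ∈ PQ M ∧ NVC δ ∧ (∀ y ∈ t, y ∈ XC M (k + d) ∧ y ∈ PQ M) ∧
  ∀ s ∈ XC M k, s * δ ∈ Submodule.span ℂ (t : Set (FT M ℂ))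

/-- descent for a stable subspace -/
def DSC0 : Prop := ∀ (K X ι : Type) [Field K] [AddCommGroup X] [Module K X] (σ : ι → K →+* K)
  (T : ι → X →+ X), (∀ i (c : K) x, T i (c • x) = σ i c • T i x) →
  ∀ W : Submodule K X, (∀ i, ∀ x ∈ W, T i x ∈ W) →
  ∀ x ∈ W, x ∈ Submodule.span K {y | ∀ i, T i y = y} →
    x ∈ Submodule.span K {y | y ∈ W ∧ ∀ i, T i y = y}

/-- **conjugation, finiteness, rational structure** -/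
def BASQ : Prop := ∀ M k : ℕ, Odd M → 3 ≤ M →
  (∀ σ a, Ok M σ a → ∀ s ∈ XC M k, cj σ a s ∈ XC M k) ∧
  ∀ W : Submodule ℂ (FT M ℂ), W ≤ XC M k → (∀ σ a, Ok M σ a → ∀ s ∈ W, cj σ a s ∈ W) →
    ∃ t : Finset (FT M ℂ), (∀ y ∈ t, y ∈ W ∧ y ∈ PQ M) ∧
      W ≤ Submodule.span ℂ (t : Set (FT M ℂ))

/-- the fixed field of the automorphisms of `ℂ` -/
def AUT : Prop := (∀ z : ℂ, (∀ σ : ℂ ≃+* ℂ, σ z = z) → ∃ x : ℚ, (x : ℂ) = z) ∧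
  ∀ (M : ℕ) (σ : ℂ ≃+* ℂ), 0 < M → ∃ a, Ok M σ a

/-- the tuple `s` belongs to the system `c` -/
def Dic {M : ℕ} (N₁ N₀ i : ℕ) (s : FT M ℂ) (c : ℕ → ℕ → ℂ) : Prop :=
  ∀ (a b : (ZMod M)ˣ) (δ : ℕ), Nat.Coprime δ (2 * N₀) → Cg M N₀ (a : ZMod M) (δ : ZMod M) →
    (δ : ℂ) ^ i • s (dg a b) = Vo (M / N₁) (PowerSeries.mk fun n => c n δ)

/-- from forms to tuples -/
def TUP : Prop := ∀ (M N₁ N₀ i : ℕ) [NeZero N₀], 0 < M → N₁ ∣ M → N₀ ∣ M →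
  ∀ (f : MF N₀ (i + 1)) (c : ℕ → ℕ → ℂ), H353.Rep N₀ i f c →
    ∃ s ∈ XC M (i + 1) ⊓ Iv ℂ ℂ (H0 M N₁ N₀), Dic N₁ N₀ i s c

/-- from tuples to forms -/
def BACK : Prop := ∀ (M N₀ i : ℕ) [NeZero N₀], 0 < M → N₀ ∣ M →
  ∀ s ∈ XC M (i + 1) ⊓ Iv ℂ ℂ (H0 M 1 N₀),
    ∃ (f : MF N₀ (i + 1)) (c : ℕ → ℕ → ℂ), H353.Rep N₀ i f c ∧ Dic 1 N₀ i s c

/-- the forms with rational 2-integral systems of coefficients span -/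
def LATC : Prop := ∀ (N₀ i : ℕ) [NeZero N₀], Odd N₀ → ∃ t : Finset (MF N₀ (i + 1)),
  Submodule.span ℂ (t : Set (MF N₀ (i + 1))) = ⊤ ∧ ∀ f ∈ t, ∃ c : ℕ → ℕ → ℚ,
    H353.Rep N₀ i f (fun n δ => (c n δ : ℂ)) ∧ ∀ n δ, Odd (c n δ).den

/-- finitely many coordinates separate a finite dimensional space of functions -/
def SEPJ : Prop := ∀ (K X I : Type) [Field K] [AddCommGroup X] [Module K X] [FiniteDimensional K X]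
  (φ : I → X →ₗ[K] K), ∃ J : Finset I, ∀ x, (∀ i ∈ J, φ i x = 0) → ∀ i, φ i x = 0

/-- the abstract eigenvector modulo two -/
def EIG : Prop := ∀ (H F : Type) [Ring H] [Field F] [CharP F 2]
  (V : Submodule ℚ (ℕ → ℕ → ℚ)) (ρ : H →+* Module.End ℤ (ℕ → ℕ → ℚ)) (lam : H →+* F)
  (J : Finset (ℕ × ℕ)), (∀ v ∈ V, (∀ i ∈ J, v i.1 i.2 = 0) → v = 0) →
  (∀ X, ∀ v ∈ V, ρ X v ∈ V) → (∀ X Y, ∀ v ∈ V, ρ X (ρ Y v) = ρ Y (ρ X v)) →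
  (∀ X, ∀ v ∈ V, (∀ n δ, Odd (v n δ).den) → ∀ n δ, Odd (ρ X v n δ).den) →
  (∀ X, (∀ v ∈ V, ρ X v = 0) → lam X = 0) →
  ∃ (m : ℕ) (c : Fin m → F) (v : Fin m → ℕ → ℕ → ℚ), (∀ j, v j ∈ V ∧ ∀ n δ, Odd (v j n δ).den) ∧
    (∃ n δ, ∑ j, c j * ((v j n δ).num : F) ≠ 0) ∧
    ∀ X n δ, ∑ j, c j * ((ρ X (v j) n δ).num : F) = lam X * ∑ j, c j * ((v j n δ).num : F)

variable (O : Type) [CommRing O] [Co O]

/-- the residual system `T_ℓ ↦ lam ℓ`, `ℓ S_ℓ ↦ 1` occurs at level `N₀` and is not zero -/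
def Occ {O : Type} [CommRing O] (N₀ : ℕ) [NeZero N₀] (lam : ℕ → O) : Prop :=
  (∃ k : ℕ, ∀ X : G.Wd N₀, (∀ i < k, G.sg N₀ i X = 0) →
    ¬ IsUnit (FreeAlgebra.lift ℤ (Sum.elim (fun ℓ : PA N₀ => lam ℓ.1) fun _ => (1 : O)) X)) ∧
  ∃ ℓ : PA N₀, IsUnit (lam ℓ.1)

/-- a classical form with coefficients in `O` which is an eigenform modulo `π` -/
def EIGC : Prop := ∀ (π : O) (N₀ N₁ : ℕ) [NeZero N₀] (lam : ℕ → O), Unif π → Odd N₀ → Odd N₁ →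
  Occ N₀ lam → ∃ (i : ℕ) (f : MF N₀ (i + 1)) (c : ℕ → ℕ → O),
    H353.Rep N₀ i f (fun n δ => Co.j (c n δ)) ∧
    (∃ n, 0 < n ∧ Nat.Coprime n N₁ ∧ IsUnit (c n 1)) ∧
    (∀ n δ, Nat.Coprime δ (2 * N₀) → π ∣ c n δ - c n 1) ∧
    ∀ (ℓ : PA N₀) n, π ∣ c (ℓ.1 * n) 1 + (if ℓ.1 ∣ n then c (n / ℓ.1) 1 else 0) - lam ℓ.1 * c n 1

/-- the levels -/
structure Lv (M N₁ N₂ N₀ : ℕ) : Prop where
  odd : Odd M
  three : 3 ≤ M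
  eq : M = N₁ * N₂
  cop : Nat.Coprime N₁ N₂
  dvd : N₀ ∣ M

/-- eigenvector of all `T_p`, `p` prime to `2 M` -/
def Ev {O : Type} [CommRing O] [Co O] {M : ℕ} {π : O} (lam : ℕ → O) (v : FT M (RR π)) : Prop :=
  ∀ (p : ℕ) (u : (ZMod M)ˣ), p.Prime → p ≠ 2 → (u : ZMod M) = p → Tf O _ 0 p u v = lam p • v

/-- the vector before the projections -/
def V0 {O : Type} [CommRing O] [Co O] (π : O) (M N₁ N₂ N₀ : ℕ) (lam : ℕ → O) : Prop :=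
  ∃ v ∈ VV M 0 π ⊓ Iv O _ (H1 M N₁ N₀), Ev lam v ∧
    ∃ n, 0 < n ∧ Nat.Coprime n N₁ ∧ (v 1).coeff (N₂ * n) ≠ 0

/-- the vector -/
def V1 {O : Type} [CommRing O] [Co O] (π z : O) (M N₁ N₀ : ℕ) (lam : ℕ → O) : Prop :=
  ∃ v ∈ Vb M π ⊓ Wh O _ M z ⊓ Iv O _ (H2 M N₁ N₀) ⊓ Iv O _ (Set.range fun a => dg a a),
    Ev lam v ∧ v ≠ 0

/-- row VEC0 -/
def VEC0 : Prop := ∀ (π : O) (M N₁ N₂ N₀ : ℕ) [NeZero N₀] (lam : ℕ → O), Unif π →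
  Lv M N₁ N₂ N₀ → Occ N₀ lam → V0 π M N₁ N₂ N₀ lam

/-- row VEC1 -/
def VEC1 : Prop := ∀ (π z : O) (M N₁ N₂ N₀ : ℕ) (lam : ℕ → O), Unif π → Lv M N₁ N₂ N₀ →
  Co.j z = ze N₁ 1 → V0 π M N₁ N₂ N₀ lam → V1 π z M N₁ N₀ lam

/-- **VEC**: the output of the block -/
def VEC : Prop := ∀ (π z : O) (M N₁ N₂ N₀ : ℕ) [NeZero N₀] (lam : ℕ → O), Unif π →
  Lv M N₁ N₂ N₀ → Co.j z = ze N₁ 1 → Occ N₀ lam → V1 π z M N₁ N₀ lam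

theorem vec_of (h0 : VEC0 O) (h1 : VEC1 O) : VEC O :=
  fun π z M N₁ N₂ N₀ _ lam a b c d => h1 π z M N₁ N₂ N₀ lam a b c (h0 π M N₁ N₂ N₀ lam a b d)

end Vale.Agent.P022D.Th
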