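import Vale.Agent.P022D.Th.Spec

/-!
# P022D, block TH, row 1107: conjugation, finiteness, rational structure
-/

set_option linter.all false

noncomputable section

namespace Vale.Agent.P022D.Th

open Vale.Agent.P022 Vale.Agent.P027M.M Vale.Agent.P022D.V

namespace Basq

variable {M : ℕ}

/-- conjugation as an additive map -/
def cjA (σ : ℂ ≃+* ℂ) (a : (ZMod M)ˣ) : FT M ℂ →+ FT M ℂ where
  toFun := cj σ a
  map_zero' := funext fun g => by simp [cj]
  map_add' s t := funext fun g => by simp [cj]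

theorem cj_mul (σ : ℂ ≃+* ℂ) (a : (ZMod M)ˣ) (s t : FT M ℂ) :
    cj σ a (s * t) = cj σ a s * cj σ a t := funext fun g => by simp [cj]

theorem cj_smul (σ : ℂ ≃+* ℂ) (a : (ZMod M)ˣ) (c : ℂ) (s : FT M ℂ) :
    cj σ a (c • s) = σ c • cj σ a s := funext fun g => by
  ext n
  simp [cj]

theorem cj_span (σ : ℂ ≃+* ℂ) (a : (ZMod M)ˣ) {t : Set (FT M ℂ)} (ht : ∀ y ∈ t, cj σ a y = y)
    {x : FT M ℂ} (hx : x ∈ Submodule.span ℂ t) : cj σ a x ∈ Submodule.span ℂ t := by
  induction hx using Submodule.span_induction with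
  | mem y hy => rw [ht y hy]; exact Submodule.subset_span hy
  | zero => rw [show cj σ a 0 = 0 from (cjA σ a).map_zero]; exact Submodule.zero_mem _
  | add y z _ _ hy hz =>
    rw [show cj σ a (y + z) = cj σ a y + cj σ a z from (cjA σ a).map_add y z]
    exact Submodule.add_mem _ hy hz
  | smul c y _ hy => rw [cj_smul]; exact Submodule.smul_mem _ _ hy

end Basq

open Basq

theorem basq (hX : XBS) (hS : SEPX) (hD : DSC0) : BASQ := by
  intro M k hM h3
  have B := hX M (by omega)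
  obtain ⟨d, δ, t, δX, δQ, δN, ht, hs⟩ := hS M k hM h3
  have tX : Submodule.span ℂ (t : Set (FT M ℂ)) ≤ XC M (k + d) :=
    Submodule.span_le.2 fun y hy => (ht y hy).1
  refine ⟨fun σ a ok s h => B.div k d _ δ (tX ?_) δX δN, fun W hW st => ?_⟩
  · have := cj_span σ a (fun y hy => (ht y hy).2 σ a ok) (hs s h)
    rwa [cj_mul, δQ σ a ok] at this
  have inj : Function.Injective (LinearMap.mulRight ℂ δ) := fun x y e => funext fun g =>
    mul_right_cancel₀ (B.nv0 δ δN g) (congrFun e g)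
  set S : Set (FT M ℂ) := {y | y ∈ W ∧ y ∈ PQ M} with hSd
  have h1 : W.map (LinearMap.mulRight ℂ δ) ≤ Submodule.span ℂ (t : Set (FT M ℂ)) := by
    rintro _ ⟨s, h, rfl⟩
    exact hs s (hW h)
  have h2 : W ≤ Submodule.span ℂ S := by
    intro s h
    have key := hD ℂ (FT M ℂ) {p : (ℂ ≃+* ℂ) × (ZMod M)ˣ // Ok M p.1 p.2}
      (fun i => (i.1.1 : ℂ →+* ℂ)) (fun i => cjA i.1.1 i.1.2) (fun i c x => cj_smul _ _ c x)
      (W.map (LinearMap.mulRight ℂ δ)) (by
        rintro i _ ⟨x, hx, rfl⟩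
        refine ⟨cj i.1.1 i.1.2 x, st _ _ i.2 x hx, ?_⟩
        show cj i.1.1 i.1.2 x * δ = cj i.1.1 i.1.2 (x * δ)
        rw [cj_mul, δQ _ _ i.2]) (s * δ) ⟨s, h, rfl⟩
      (Submodule.span_mono (by
        intro y hy i
        exact (ht y hy).2 _ _ i.2) (hs s (hW h)))
    have sub : {y | y ∈ W.map (LinearMap.mulRight ℂ δ) ∧
        ∀ i : {p : (ℂ ≃+* ℂ) × (ZMod M)ˣ // Ok M p.1 p.2}, cjA i.1.1 i.1.2 y = y} ⊆
        LinearMap.mulRight ℂ δ '' S := by
      rintro _ ⟨⟨x, hx, rfl⟩, fx⟩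
      refine ⟨x, ⟨hx, fun σ a ok => inj ?_⟩, rfl⟩
      have e : cj σ a (x * δ) = x * δ := fx ⟨(σ, a), ok⟩
      rw [cj_mul, δQ σ a ok] at e
      exact e
    have k2 := Submodule.span_mono sub key
    rw [← Submodule.map_span] at k2
    obtain ⟨x, hx, e⟩ := k2
    rw [← inj (show LinearMap.mulRight ℂ δ x = LinearMap.mulRight ℂ δ s from e)]
    exact hx
  have h3' : Submodule.span ℂ S = W := le_antisymm (Submodule.span_le.2 fun y hy => hy.1) h2
  have fg : W.FG := by
    refine Submodule.fg_of_fg_map_injective _ inj ?_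
    haveI := FiniteDimensional.span_finset ℂ t
    haveI := Submodule.finiteDimensional_of_le h1
    exact Module.Finite.iff_fg.1 inferInstance
  rw [← h3'] at fg
  obtain ⟨t', a, b⟩ := (Submodule.fg_span_iff_fg_span_finset_subset S).1 fg
  exact ⟨t', fun y hy => a hy, by rw [← b]; exact h2⟩

end Vale.Agent.P022D.Th
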