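import Vale.Agent.P022D.Th.Spec
import Vale.Agent.P022D.V.IrrV

/-!
# P022D, block TH, row BD: bounded denominators and passage to the lattices
-/

set_option linter.all false

open UpperHalfPlane hiding I
open Matrix Function.Periodic CongruenceSubgroup
open scoped MatrixGroups ModularForm

noncomputable section

namespace Vale.Agent.P022D.Th

open Vale.Agent.P022 Vale.Agent.P027M.M Vale.Agent.P022D.V Vale.Agent.P022.H218.L3

namespace Bdd0

theorem tp_mf {M k : ℕ} {F : GM M → ℍ → ℂ} (h : IsTp M k F) (g : GM M) :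
    IsMF (Gamma M) k (F g) := ⟨(h.bdd g).1, fun δ hδ => by
  have := h.eqv δ g
  rwa [IrrV.rd_one hδ, one_mul] at this, (h.bdd g).2⟩

theorem det_dg {M : ℕ} (a : (ZMod M)ˣ) : Matrix.GeneralLinearGroup.det (dg 1 a) = a := by
  apply Units.ext
  rw [Matrix.GeneralLinearGroup.val_det_apply, dg_coe, Matrix.det_fin_two_of]
  simp

variable {O : Type} [CommRing O] [Co O]

theorem inv_odd {n : ℕ} (hn : Odd n) : (n : ℂ)⁻¹ ∈ (Co.A O : ValuationSubring ℂ) := by
  have := Tr.inv_mem (Tr.odd_unit (O := O) hn)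
  rwa [map_natCast] at this

theorem two_mem : (2 : ℂ) ∈ (Co.A O : ValuationSubring ℂ) := by
  have := Co.mem (O := O) 2
  rwa [map_ofNat] at this

theorem one_g {M k : ℕ} (M0 : 0 < M) {f : ℍ → ℂ} (hf : IsMF (Gamma M) k f) {s : PowerSeries ℂ}
    (hs : HS M s f) : ∃ n : ℕ, ∀ m, 2 ^ n * s.coeff m ∈ (Co.A O : ValuationSubring ℂ) := by
  obtain ⟨c, c0, hc⟩ := Irr.bnd (Co.A O) Co.arch M0 hf
  obtain ⟨n, hn⟩ := Co.rk (O := O) c⁻¹
  have e : s = qExpansion (M : ℝ) f := Tr.hs_unique M0 hs (Tr.hs_qExp M0 hf.hol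
    (by simpa using hf.bdd 1) (hf.slash _ (by
      rw [Gamma_mem']
      apply Matrix.SpecialLinearGroup.toGL_injective
      rw [map_one]
      exact Tr.rd_T M)))
  refine ⟨n, fun m => ?_⟩
  have h1 := hc 1 m
  rw [SlashAction.slash_one, ← e] at h1
  have h2 := mul_mem hn h1
  rwa [mul_assoc, inv_mul_cancel_left₀ c0] at h2

end Bdd0

open Bdd0 in
theorem bd (_ : XBS) (O : Type) [CommRing O] [Co O] : BD O := by
  intro M k hM
  have M0 : 0 < M := hM.pos
  haveI : NeZero M := ⟨M0.ne'⟩
  refine ⟨?_, ?_, ?_, ?_, ?_⟩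
  · rintro s ⟨F, f1, f2⟩
    choose n hn using fun g => one_g (O := O) M0 (tp_mf f1 g) (f2 g)
    obtain ⟨N, hN⟩ := (Set.finite_range n).bddAbove
    refine ⟨N, fun g m => ?_⟩
    obtain ⟨d, hd⟩ := Nat.exists_eq_add_of_le (hN ⟨g, rfl⟩)
    rw [hd, add_comm, pow_add, mul_assoc]
    exact mul_mem (pow_mem two_mem d) (hn g m)
  · rintro s ⟨F, f1, f2⟩ h g m
    obtain ⟨γ, hγ⟩ := IrrV.rd_surj M0.ne' (dg 1 (Matrix.GeneralLinearGroup.det g) * g⁻¹)
      (by rw [map_mul, map_inv, det_dg, mul_inv_cancel])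
    have e1 : F (dg 1 (Matrix.GeneralLinearGroup.det g)) ∣[(k : ℤ)] γ = F g := by
      rw [← f1.eqv γ g, hγ, inv_mul_cancel_right]
    exact Irr.irr_hs (Co.A O) Co.arch M0 (inv_odd hM) (tp_mf f1 _) γ (f2 _)
      (by rw [e1]; exact f2 g) (h _) m
  · rintro s ⟨F, f1, f2⟩ h hc
    have e : ∀ g, (PowerSeries.mk fun m => amk ((s g).coeff m) (h g m)).map (av O) = s g := by
      intro g
      ext m
      rw [PowerSeries.coeff_map, PowerSeries.coeff_mk, av_amk]
    refine ⟨fun g => PowerSeries.mk fun m => amk ((s g).coeff m) (h g m),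
      ⟨⟨F, f1, fun g => ?_⟩, fun σ hσ a ha g m => ?_⟩, funext e⟩
    · rw [e]
      exact f2 g
    · rw [PowerSeries.coeff_mk, PowerSeries.coeff_mk, av_amk, av_amk]
      have := congrArg (fun t : FT M ℂ => (t g).coeff m) (hc σ a hσ ha)
      simp only [cj, PowerSeries.coeff_map] at this
      exact this
  · rintro w ⟨⟨F, f1, f2⟩, -⟩
    exact ⟨F, f1, f2⟩
  · intro x hx
    rcases Nat.even_or_odd x.den with he | ho
    · exfalso
      obtain ⟨d, hd⟩ := he
      have hn : Odd x.num.natAbs := by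
        rcases Nat.even_or_odd x.num.natAbs with h2 | h2
        · exfalso
          have h3 : 2 ∣ Nat.gcd x.num.natAbs x.den :=
            Nat.dvd_gcd h2.two_dvd ⟨d, by omega⟩
          rw [x.reduced] at h3
          omega
        · exact h2
      have h1 := inv_odd (O := O) hn
      have n0 : (x.num : ℂ) ≠ 0 := by
        intro e
        have : x.num = 0 := by exact_mod_cast e
        rw [this] at hn
        simp at hn
      have h2 : (x.num : ℂ)⁻¹ ∈ (Co.A O : ValuationSubring ℂ) := by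
        rcases Int.natAbs_eq x.num with e | e
        · rw [e]
          simpa using h1
        · rw [e, Int.cast_neg, inv_neg]
          exact neg_mem (by simpa using h1)
      have d0 : (d : ℂ) ≠ 0 := by
        intro e
        have : d = 0 := by exact_mod_cast e
        have := x.den_pos
        omega
      have h3 := mul_mem (mul_mem hx h2) (natCast_mem (Co.A O : ValuationSubring ℂ) d)
      apply Co.two (O := O)
      have e : (x : ℂ) * (x.num : ℂ)⁻¹ * d = 2⁻¹ := by
        rw [Rat.cast_def, hd]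
        push_cast
        have : (d : ℂ) + d ≠ 0 := by
          rw [← two_mul]
          exact mul_ne_zero two_ne_zero d0
        field_simp
        ring
      rwa [e] at h3
    · exact ho

end Vale.Agent.P022D.Th
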