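import Vale.Agent.P022D.Th.Spec
import Vale.Agent.P022D.V.TrR
import Vale.Agent.P022.H964.L3.Orb

/-!
# P022D, block TH: descent for a stable subspace, separation, the fixed field
-/

set_option linter.all false

noncomputable section

namespace Vale.Agent.P022D.Th

open Vale.Agent.P022

theorem dsc0 : DSC0 := by
  intro K X ι _ _ _ σ T hT W hW x hx hs
  classical
  obtain ⟨f, t, ht, -, rfl⟩ := Submodule.mem_span_iff_exists_finset_subset.1 hs
  clear hs
  induction t using Finset.strongInductionOn generalizing f with | _ t ih => ?_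
  have er : ∀ g : X → K, ∀ j ∈ t, g j = 0 → ∑ a ∈ t, g a • a ∈ W →
      ∑ a ∈ t, g a • a ∈ Submodule.span K {y | y ∈ W ∧ ∀ i, T i y = y} := fun g j hj h0 h => by
    rw [← Finset.sum_erase t (a := j) (by rw [h0, zero_smul])] at h ⊢
    exact ih _ (Finset.erase_ssubset hj) g ((Finset.coe_subset.2 (t.erase_subset j)).trans ht) h
  by_cases c : ∃ g : X → K, ∃ j ∈ t, ∃ k ∈ t, g j ≠ 0 ∧ g k = 0 ∧ ∑ a ∈ t, g a • a ∈ W
  · obtain ⟨g, j, hj, k, hk, g1, g2, g3⟩ := c
    have e : ∑ a ∈ t, (f a - f j / g j * g a) • a =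
        ∑ a ∈ t, f a • a - (f j / g j) • ∑ a ∈ t, g a • a := by
      simp only [sub_smul, mul_smul, Finset.sum_sub_distrib, Finset.smul_sum]
    have h := er _ j hj (show f j - f j / g j * g j = 0 by field_simp; ring)
      (e ▸ W.sub_mem hx (W.smul_mem _ g3))
    rw [e] at h
    simpa using Submodule.add_mem _ h (Submodule.smul_mem _ (f j / g j) (er g k hk g2 g3))
  by_cases d : ∃ j ∈ t, f j ≠ 0
  swap
  · rw [Finset.sum_eq_zero fun a ha => by rw [not_not.1 fun k => d ⟨a, ha, k⟩, zero_smul]]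
    exact Submodule.zero_mem _
  obtain ⟨j, hj, f0⟩ := d
  have e : ∑ a ∈ t, ((f j)⁻¹ * f a) • a = (f j)⁻¹ • ∑ a ∈ t, f a • a := by
    simp only [mul_smul, Finset.smul_sum]
  have h1 := e ▸ W.smul_mem (f j)⁻¹ hx
  rw [← smul_inv_smul₀ f0 (∑ a ∈ t, f a • a), ← e]
  refine Submodule.smul_mem _ _ (Submodule.subset_span ⟨h1, fun i => ?_⟩)
  have e' : T i (∑ a ∈ t, ((f j)⁻¹ * f a) • a) - ∑ a ∈ t, ((f j)⁻¹ * f a) • a =
      ∑ a ∈ t, (σ i ((f j)⁻¹ * f a) - (f j)⁻¹ * f a) • a := by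
    rw [map_sum, ← Finset.sum_sub_distrib]
    exact Finset.sum_congr rfl fun a ha => by rw [hT, ht ha i, sub_smul]
  rw [← sub_eq_zero, e']
  refine Finset.sum_eq_zero fun a ha => ?_
  by_contra k
  exact c ⟨fun a => σ i ((f j)⁻¹ * f a) - (f j)⁻¹ * f a, a, ha, j, hj, left_ne_zero_of_smul k,
    by simp [f0], e' ▸ W.sub_mem (hW i _ h1) h1⟩

theorem sepj : SEPJ := by
  intro K X I _ _ _ _ φ
  classical
  obtain ⟨_, ⟨J, rfl⟩, h⟩ := IsArtinian.set_has_minimal
    (Set.range fun J : Finset I => ⨅ i ∈ J, LinearMap.ker (φ i)) (Set.range_nonempty _)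
  refine ⟨J, fun x hx i => ?_⟩
  have e := (biInf_mono (f := fun i => LinearMap.ker (φ i))
    fun k (hk : k ∈ J) => Finset.mem_insert_of_mem (b := i) hk).eq_of_not_lt (h _ ⟨_, rfl⟩)
  have h1 : x ∈ ⨅ k ∈ insert i J, LinearMap.ker (φ k) := by
    rw [e]
    simpa using hx
  simp only [Submodule.mem_iInf] at h1
  exact h1 i (Finset.mem_insert_self i J)

theorem aut : AUT := by
  refine ⟨fun z hz => ?_, fun M σ hM => ?_⟩
  · have : Algebra.IsAlgebraic ℚ (AlgebraicClosure ℚ) := AlgebraicClosure.isAlgebraic ℚ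
    have : IsAlgClosure ℚ (AlgebraicClosure ℚ) := ⟨inferInstance, inferInstance⟩
    have := IsAlgClosure.isGalois ℚ (AlgebraicClosure ℚ)
    let i : AlgebraicClosure ℚ →ₐ[ℚ] ℂ := IsAlgClosed.lift
    have h1 : z ∈ Set.range i.toRingHom := by
      rw [H964.L3.range_emb]
      exact H964.L3.isAlgebraic_of_finite z ((Set.finite_singleton z).subset (by
        rintro _ ⟨σ, rfl⟩
        exact hz σ.toRingEquiv))
    obtain ⟨x, rfl⟩ := h1
    obtain ⟨q, rfl⟩ := (InfiniteGalois.mem_range_algebraMap_iff_fixed (k := ℚ) x).2 fun τ => by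
      obtain ⟨σ, h⟩ := H964.L3.exists_ext_C i.toRingHom τ
      exact i.toRingHom.injective ((h x).symm.trans (hz σ))
    exact ⟨q, (i.commutes q).symm⟩
  · have : NeZero M := ⟨hM.ne'⟩
    exact V.Tr.exists_exp σ

end Vale.Agent.P022D.Th
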