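import Vale.Agent.P022D.Th.SpecE

/-!
# P022D, block TH: the abstract eigenvector modulo two
-/

set_option linter.all false

open Polynomial

noncomputable section

namespace Vale.Agent.P022D.Th

namespace Eg

/-- relations with integral coefficients are spanned by integral relations -/
theorem rel {F ι I : Type} [Field F] [CharP F 2] (s : Finset ι) (c l : ι → F) (x : ι → I → F)
    (hx : ∀ i a, ∃ z : ℤ, x i a = z) (h0 : ∀ a, ∑ i ∈ s, c i * x i a = 0)
    (h1 : ∀ e : ι → ℕ, (∀ a, ∑ i ∈ s, e i • x i a = 0) → ∑ i ∈ s, e i • l i = 0) :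
    ∑ i ∈ s, c i * l i = 0 := by
  classical
  letI : Algebra (ZMod 2) F := ZMod.algebra F 2
  let β := Module.Basis.ofVectorSpace (ZMod 2) F
  have e1 : ∀ y : ZMod 2, algebraMap (ZMod 2) F y = (y.val : F) := fun y => by
    rw [← map_natCast (algebraMap (ZMod 2) F), ZMod.natCast_zmod_val]
  have h2 : ∀ k, ∑ i ∈ s, β.repr (c i) k • l i = 0 := by
    intro k
    have := h1 (fun i => (β.repr (c i) k).val) fun a => by
      choose z hz using hx
      have h3 := congrArg (fun y => algebraMap (ZMod 2) F (β.coord k y)) (h0 a)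
      simp only [map_sum, map_zero] at h3
      rw [← h3]
      refine Finset.sum_congr rfl fun i _ => ?_
      rw [hz, mul_comm (c i), ← zsmul_eq_mul, map_zsmul, map_zsmul, e1, nsmul_eq_mul, zsmul_eq_mul,
        mul_comm]
      rfl
    rw [← this]
    refine Finset.sum_congr rfl fun i _ => ?_
    rw [Algebra.smul_def, e1, nsmul_eq_mul]
  let t := s.biUnion fun i => (β.repr (c i)).support
  have h4 : ∀ i ∈ s, c i = ∑ k ∈ t, β.repr (c i) k • β k := by
    intro i hi
    conv_lhs => rw [← β.linearCombination_repr (c i)]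
    rw [Finsupp.linearCombination_apply, Finsupp.sum_of_support_subset _
      (Finset.subset_biUnion_of_mem (fun i => (β.repr (c i)).support) hi)]
    intro k _
    exact zero_smul _ _
  rw [Finset.sum_congr rfl fun i hi => by rw [h4 i hi, Finset.sum_mul], Finset.sum_comm]
  refine Finset.sum_eq_zero fun k _ => ?_
  have := congrArg (β k * ·) (h2 k)
  simp only [Finset.mul_sum, mul_zero] at this
  rw [← this]
  refine Finset.sum_congr rfl fun i _ => ?_
  rw [smul_mul_assoc, mul_smul_comm]

theorem aeval_int {R P Q : Type} [CommRing R] [AddCommGroup P] [AddCommGroup Q] [Module R P]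
    [Module R Q] (j : P →ₗ[R] Q) (f : Module.End R P) (g : Module.End R Q)
    (h : ∀ v, j (f v) = g (j v)) (p : R[X]) (v : P) : j (aeval f p v) = aeval g p (j v) := by
  have h1 : ∀ (n : ℕ) v, j ((f ^ n) v) = (g ^ n) (j v) := by
    intro n
    induction n with
    | zero => intro v; rfl
    | succ n ih => intro v; rw [pow_succ, pow_succ, Module.End.mul_apply, ih, h]; rfl
  simp only [aeval_eq_sum_range, LinearMap.sum_apply, LinearMap.smul_apply, map_sum, map_smul, h1]

/-- a character of a commutative algebra of operators has an eigenvector -/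
theorem vec {F G U : Type} [Field F] [Ring G] [Algebra F G] [AddCommGroup U] [Module F U]
    [FiniteDimensional F U] (τ : G →ₐ[F] Module.End F U) (χ : G →ₐ[F] F)
    (hc : ∀ g g' u, τ g (τ g' u) = τ g' (τ g u)) (n : ℕ) :
    ∀ W : Submodule F U, Module.finrank F W = n → (∀ g, ∀ w ∈ W, τ g w ∈ W) →
      (∀ g, (∀ w ∈ W, τ g w = 0) → χ g = 0) → ∃ u, u ≠ 0 ∧ ∀ g, τ g u = χ g • u := by
  induction n using Nat.strong_induction_on with
  | _ n ih =>
  intro W hn hs hP
  by_cases h : ∀ g, χ g = 0 → ∀ w ∈ W, τ g w = 0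
  · have : ¬ ∀ w ∈ W, w = 0 := fun k =>
      one_ne_zero ((map_one χ).symm.trans (hP 1 fun w hw => by rw [k w hw, map_zero]))
    push Not at this
    obtain ⟨u, hu, h0⟩ := this
    refine ⟨u, h0, fun g => ?_⟩
    have := h (g - algebraMap F G (χ g)) (by simp) u hu
    rwa [map_sub, AlgHom.commutes, LinearMap.sub_apply, Module.algebraMap_end_apply,
      sub_eq_zero] at this
  push Not at h
  obtain ⟨g, hg, w, hw, h0⟩ := h
  by_cases hK : ∀ a, (∀ w ∈ W ⊓ LinearMap.ker (τ g), τ a w = 0) → χ a = 0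
  · refine ih _ ?_ (W ⊓ LinearMap.ker (τ g)) rfl (fun a x hx => ⟨hs a x hx.1, ?_⟩) hK
    · rw [← hn]
      exact Submodule.finrank_lt_finrank_of_lt (lt_of_le_of_ne inf_le_left fun e =>
        h0 (show w ∈ W ⊓ LinearMap.ker (τ g) by rw [e]; exact hw).2)
    · change τ g (τ a x) = 0
      rw [hc, show τ g x = 0 from hx.2, map_zero]
  push Not at hK
  obtain ⟨a, ha, ha0⟩ := hK
  have hI : ∀ b, (∀ w ∈ W.map (τ g), τ b w = 0) → χ b = 0 := by
    intro b hb
    have := hP (a * b) fun x hx => by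
      rw [map_mul, Module.End.mul_apply]
      refine ha _ ⟨hs b x hx, ?_⟩
      change τ g (τ b x) = 0
      rw [hc]
      exact hb _ ⟨x, hx, rfl⟩
    rw [map_mul] at this
    exact (mul_eq_zero.1 this).resolve_left ha0
  have hle : W.map (τ g) ≤ W := by
    rintro _ ⟨x, hx, rfl⟩
    exact hs g x hx
  refine ih _ ?_ (W.map (τ g)) rfl ?_ hI
  · rw [← hn]
    refine Submodule.finrank_lt_finrank_of_lt (lt_of_le_of_ne hle fun e => ?_)
    obtain ⟨p, hp, hp0⟩ := LinearMap.exists_monic_and_aeval_eq_zero F (τ g)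
    obtain ⟨q, hq, hq0⟩ := exists_eq_pow_rootMultiplicity_mul_and_not_dvd p hp.ne_zero 0
    have hsur : ∀ k : ℕ, ∀ x ∈ W, ∃ y ∈ W, x = (τ g ^ k) y := by
      intro k
      induction k with
      | zero => exact fun x hx => ⟨x, hx, rfl⟩
      | succ k ik =>
        intro x hx
        obtain ⟨y, hy, rfl⟩ := ik x hx
        rw [← e] at hy
        obtain ⟨z, hz, rfl⟩ := hy
        exact ⟨z, hz, by rw [pow_succ]; rfl⟩
    have := hP (aeval g q) fun x hx => by
      obtain ⟨y, hy, rfl⟩ := hsur (rootMultiplicity 0 p) x hx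
      rw [← aeval_algHom_apply, ← Module.End.mul_apply]
      rw [hq, mul_comm, map_mul, C_0, sub_zero, map_pow, aeval_X] at hp0
      rw [hp0]
      rfl
    rw [← aeval_algHom_apply, hg, coe_aeval_eq_eval] at this
    exact hq0 (dvd_iff_isRoot.2 this)
  · rintro b _ ⟨x, hx, rfl⟩
    exact ⟨_, hs b x hx, hc _ _ _⟩

variable {H F Λ I : Type} [Ring H] [Field F] [CharP F 2] [AddCommGroup Λ]

/-- an operator which is divisible by two has eigenvalue zero -/
theorem half (r : H →+* Module.End ℤ Λ) (lam : H →+* F) (Λ₀ : Submodule ℤ Λ) (hfg : Λ₀.FG)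
    (hodd : ∀ v, ∃ d : ℕ, Odd d ∧ d • v ∈ Λ₀) (tf : ∀ d : ℕ, Odd d → ∀ v : Λ, d • v = 0 → v = 0)
    (hlam : ∀ X, r X = 0 → lam X = 0) (X : H) (hX : ∀ v, ∃ w, r X v = 2 • w) : lam X = 0 := by
  obtain ⟨d, hd, h1⟩ : ∃ d : ℕ, Odd d ∧ ∀ v ∈ Λ₀, ∃ w ∈ Λ₀, r (d • X) v = (2 : ℤ) • w := by
    obtain ⟨S, hS⟩ := hfg
    choose w hw using hX
    choose d hd hd' using hodd
    refine ⟨∏ g ∈ S, d (w g), Finset.prod_induction _ Odd (fun _ _ => Odd.mul) odd_one
      fun g _ => hd _, fun v hv => ?_⟩
    rw [← hS] at hv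
    induction hv using Submodule.span_induction with
    | mem g hg =>
      obtain ⟨k, hk⟩ := Finset.dvd_prod_of_mem (fun g => d (w g)) hg
      refine ⟨(∏ g ∈ S, d (w g)) • w g, ?_, ?_⟩
      · rw [hk, mul_comm, mul_smul]
        exact Submodule.smul_of_tower_mem _ k (hd' _)
      · rw [map_nsmul, LinearMap.smul_apply, hw, smul_comm, two_smul, two_smul]
    | zero => exact ⟨0, zero_mem _, by simp⟩
    | add x y _ _ hx hy =>
      obtain ⟨a, ha, e⟩ := hx
      obtain ⟨b, hb, e'⟩ := hy
      exact ⟨a + b, add_mem ha hb, by rw [map_add, e, e', smul_add]⟩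
    | smul c x _ hx =>
      obtain ⟨a, ha, e⟩ := hx
      exact ⟨c • a, Submodule.smul_mem _ _ ha, by rw [map_smul, e, smul_comm]⟩
  have h2 : ∀ v ∈ Λ₀, r (d • X) v ∈ Λ₀ := fun v hv => by
    obtain ⟨w, hw, e⟩ := h1 v hv
    rw [e]
    exact Submodule.smul_mem _ _ hw
  haveI : Module.Finite ℤ Λ₀ := Module.Finite.iff_fg.2 hfg
  obtain ⟨p, hp, -, hc, h0⟩ :=
    LinearMap.exists_monic_and_natDegree_eq_and_coeff_mem_pow_and_aeval_eq_zero ℤ
      ((r (d • X)).restrict h2) (Ideal.span {2}) (by
        rintro _ ⟨v, rfl⟩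
        obtain ⟨w, hw, e⟩ := h1 v v.2
        have : (r (d • X)).restrict h2 v = (2 : ℤ) • (⟨w, hw⟩ : Λ₀) := Subtype.ext e
        rw [this]
        exact Submodule.smul_mem_smul (Ideal.mem_span_singleton_self _) trivial)
  have h3 : lam (aeval (d • X) p) = 0 := by
    apply hlam
    ext v
    obtain ⟨e, he, hv⟩ := hodd v
    apply tf e he
    have := aeval_int Λ₀.subtype ((r (d • X)).restrict h2) (r (d • X)) (fun v => rfl) p ⟨_, hv⟩
    rw [h0] at this
    have h4 : r (aeval (d • X) p) = aeval (r (d • X)) p :=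
      (aeval_algHom_apply r.toIntAlgHom _ p).symm
    rw [← map_nsmul, h4]
    exact this.symm
  have h5 : lam (aeval (d • X) p) = aeval (lam (d • X)) p :=
    (aeval_algHom_apply lam.toIntAlgHom _ p).symm
  rw [h5, aeval_eq_sum_range, Finset.sum_range_succ, Finset.sum_eq_zero, zero_add,
    hp.coeff_natDegree, one_smul] at h3
  · have h6 := eq_zero_of_pow_eq_zero h3
    obtain ⟨k, rfl⟩ := hd
    rwa [map_nsmul, nsmul_eq_mul, Nat.cast_add, Nat.cast_mul, CharP.cast_eq_zero F 2, zero_mul,
      zero_add, Nat.cast_one, one_mul] at h6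
  · intro k hk
    have h7 := Ideal.pow_le_self (I := Ideal.span {(2 : ℤ)})
      (Nat.sub_ne_zero_of_lt (Finset.mem_range.1 hk)) (hc k)
    rw [zsmul_eq_mul, (CharP.intCast_eq_zero_iff F 2 _).2 (Ideal.mem_span_singleton.1 h7), zero_mul]

/-- the abstract statement -/
theorem core (r : H →+* Module.End ℤ Λ) (lam : H →+* F) (red : Λ →+ I → F)
    (hint : ∀ v a, ∃ z : ℤ, red v a = z) (hker : ∀ v, red v = 0 → ∃ w, v = 2 • w)
    (Λ₀ : Submodule ℤ Λ) (hfg : Λ₀.FG)
    (hodd : ∀ v, ∃ d : ℕ, Odd d ∧ d • v ∈ Λ₀) (tf : ∀ d : ℕ, Odd d → ∀ v : Λ, d • v = 0 → v = 0)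
    (hc : ∀ X Y v, r X (r Y v) = r Y (r X v)) (hlam : ∀ X, r X = 0 → lam X = 0) :
    ∃ u : Λ →₀ F, Finsupp.linearCombination F red u ≠ 0 ∧ ∀ X,
      Finsupp.linearCombination F (fun v => red (r X v)) u =
        lam X • Finsupp.linearCombination F red u := by
  classical
  have two : ∀ w : Λ, red (2 • w) = 0 := fun w => by
    rw [map_nsmul, ← Nat.cast_smul_eq_nsmul F, CharP.cast_eq_zero F 2, zero_smul]
  let ev := Finsupp.linearCombination F red
  let N := LinearMap.ker ev
  let T : H → Module.End F (Λ →₀ F) := fun X => Finsupp.lmapDomain F F (r X)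
  have evT : ∀ X u, ev (T X u) = Finsupp.linearCombination F (fun v => red (r X v)) u :=
    fun X u => Finsupp.linearCombination_mapDomain F (r X) u
  have hN : ∀ X, N ≤ N.comap (T X) := by
    intro X u hu
    change ev (T X u) = 0
    rw [evT]
    funext a
    rw [Finsupp.linearCombination_apply, Finsupp.sum, Finset.sum_apply]
    refine rel u.support u (fun v => red (r X v) a) (fun v => red v) hint (fun b => ?_) fun e he => ?_
    · have := congrFun (show ev u = 0 from hu) b
      rwa [Finsupp.linearCombination_apply, Finsupp.sum, Finset.sum_apply] at this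
    · obtain ⟨w, hw⟩ := hker (∑ v ∈ u.support, e v • v) (by
        funext b
        simpa only [map_sum, map_nsmul, Finset.sum_apply, Pi.smul_apply,
          Pi.zero_apply] using he b)
      have := congrFun (two (r X w)) a
      rw [← map_nsmul, ← hw] at this
      simpa only [map_sum, map_nsmul, Finset.sum_apply, Pi.smul_apply,
        Pi.zero_apply] using this
  let t : H →* Module.End F ((Λ →₀ F) ⧸ N) :=
    { toFun := fun X => N.mapQ N (T X) (hN X)
      map_one' := by
        ext v
        simp [T]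
      map_mul' := fun X Y => by
        ext v
        simp [T] }
  have ht : ∀ X u, t X (N.mkQ u) = N.mkQ (T X u) := fun X u => rfl
  haveI : FiniteDimensional F ((Λ →₀ F) ⧸ N) := by
    obtain ⟨S, hS⟩ := hfg
    have h1 : LinearMap.range ev ≤ Submodule.span F (S.image red : Set (I → F)) := by
      rw [Finsupp.range_linearCombination, Submodule.span_le]
      rintro _ ⟨v, rfl⟩
      obtain ⟨d, ⟨k, rfl⟩, hv⟩ := hodd v
      have h2 : red ((2 * k + 1) • v) = red v := by
        rw [add_smul, mul_smul, map_add, two, zero_add, one_smul]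
      rw [← h2]
      rw [← hS] at hv
      generalize (2 * k + 1) • v = x at hv
      induction hv using Submodule.span_induction with
      | mem g hg => exact Submodule.subset_span (Finset.mem_image_of_mem red hg)
      | zero => rw [map_zero]; exact zero_mem _
      | add x y _ _ hx hy => rw [map_add]; exact add_mem hx hy
      | smul c x _ hx => rw [map_zsmul]; exact zsmul_mem hx c
    haveI := Submodule.finiteDimensional_of_le h1
    exact ev.quotKerEquivRange.symm.finiteDimensional
  let τ := MonoidAlgebra.lift F (Module.End F ((Λ →₀ F) ⧸ N)) H t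
  let χ := MonoidAlgebra.lift F F H lam.toMonoidHom
  have hcT : ∀ X Y, t X * t Y = t Y * t X := fun X Y => by
    ext v
    simp [t, T, hc]
  obtain ⟨u, hu, h⟩ := vec τ χ (fun g g' u => by
      have : Commute (τ g) (τ g') := by
        rw [MonoidAlgebra.lift_apply, MonoidAlgebra.lift_apply]
        exact Commute.sum_left _ _ _ fun X _ => Commute.sum_right _ _ _ fun Y _ =>
          (Commute.smul_left (hcT X Y) _).smul_right _
      exact LinearMap.congr_fun this u) _ ⊤ rfl (fun _ _ _ => trivial) (fun g hg => by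
      rw [MonoidAlgebra.lift_apply]
      refine rel _ _ lam (fun X (a : Λ × I) => red (r X a.1) a.2) (fun X a => hint _ _)
        (fun a => ?_) fun e he => ?_
      · have h1 := hg (N.mkQ (Finsupp.single a.1 1)) trivial
        rw [MonoidAlgebra.lift_apply, Finsupp.sum, LinearMap.sum_apply] at h1
        simp only [LinearMap.smul_apply, ht, ← map_smul, ← map_sum] at h1
        have h2 := congrFun (show ev _ = 0 from (Submodule.Quotient.mk_eq_zero N).1 h1) a.2
        simpa [evT] using h2
      · have := half r lam Λ₀ hfg hodd tf hlam (∑ X ∈ _, e X • X) fun v => hker _ (by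
          funext b
          simpa only [map_sum, map_nsmul, Finset.sum_apply, Pi.smul_apply, LinearMap.sum_apply,
            LinearMap.smul_apply, Pi.zero_apply] using he (v, b))
        simpa only [map_sum, map_nsmul] using this)
  obtain ⟨u, rfl⟩ := N.mkQ_surjective u
  refine ⟨u, fun e => hu ((Submodule.Quotient.mk_eq_zero N).2 e), fun X => ?_⟩
  have h1 := h (MonoidAlgebra.of F H X)
  rw [MonoidAlgebra.lift_of, MonoidAlgebra.lift_of, ht, ← map_smul] at h1
  have h2 : ev _ = 0 := (Submodule.Quotient.eq N).1 h1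
  rw [map_sub, sub_eq_zero, evT, map_smul] at h2
  exact h2

theorem odd_of_dvd {a b : ℕ} (h : a ∣ b) (hb : Odd b) : Odd a := Odd.of_dvd_nat hb h

theorem cast_odd {n : ℕ} (h : Odd n) : (n : F) = 1 := by
  obtain ⟨k, rfl⟩ := h
  rw [Nat.cast_add, Nat.cast_mul, CharP.cast_eq_zero F 2, zero_mul, zero_add, Nat.cast_one]

theorem num_add {x y : ℚ} (hx : Odd x.den) (hy : Odd y.den) :
    ((x + y).num : F) = x.num + y.num := by
  have h := congrArg (Int.cast : ℤ → F) (Rat.add_num_den' x y)
  push_cast at h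
  rwa [cast_odd hx, cast_odd hy, cast_odd (odd_of_dvd (Rat.add_den_dvd x y) (hx.mul hy)), mul_one,
    mul_one, mul_one, mul_one, mul_one] at h

theorem half_den {x : ℚ} (hx : Odd x.den) (h : (2 : ℤ) ∣ x.num) : Odd ((1 / 2 : ℚ) * x).den := by
  obtain ⟨k, hk⟩ := h
  have : (1 / 2 : ℚ) * x = Rat.divInt k x.den := by
    conv_lhs => rw [← Rat.num_div_den x, hk]
    rw [Rat.divInt_eq_div]
    push_cast
    ring
  rw [this]
  exact odd_of_dvd (Int.natCast_dvd_natCast.1 (Rat.den_dvd k x.den)) hx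

/-- the integral vectors -/
def Lam (V : Submodule ℚ (ℕ → ℕ → ℚ)) : Submodule ℤ (ℕ → ℕ → ℚ) where
  carrier := {v | v ∈ V ∧ ∀ n δ, Odd (v n δ).den}
  zero_mem' := ⟨V.zero_mem, fun _ _ => odd_one⟩
  add_mem' := fun {x y} hx hy => ⟨V.add_mem hx.1 hy.1, fun n δ =>
    odd_of_dvd (Rat.add_den_dvd _ _) ((hx.2 n δ).mul (hy.2 n δ))⟩
  smul_mem' := fun c x hx => ⟨V.smul_of_tower_mem c hx.1, fun n δ => by
    have := Rat.mul_den_dvd (c : ℚ) (x n δ)
    rw [Rat.den_intCast, one_mul, ← zsmul_eq_mul] at this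
    exact odd_of_dvd this (hx.2 n δ)⟩

end Eg

open Eg

/-- **the abstract eigenvector modulo two** -/
theorem eig : EIG2 := by
  intro H F _ _ _ V ρ lam J hJ hV hc hI hlam
  classical
  have hs : ∀ X, ∀ v ∈ Lam V, ρ X v ∈ Lam V := fun X v hv => ⟨hV X v hv.1, hI X v hv.1 hv.2⟩
  let r : H →+* Module.End ℤ (Lam V) :=
    { toFun := fun X => (ρ X).restrict (hs X)
      map_one' := by ext v; simp
      map_mul' := fun X Y => by ext v; simp
      map_zero' := by ext v; simp
      map_add' := fun X Y => by ext v; simp }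
  let red : Lam V →+ ℕ × ℕ → F :=
    { toFun := fun v a => ((v.1 a.1 a.2).num : F)
      map_zero' := by funext a; simp
      map_add' := fun x y => funext fun a => num_add (x.2.2 _ _) (y.2.2 _ _) }
  let π : Lam V →ₗ[ℤ] J → ℚ :=
    { toFun := fun v i => v.1 i.1.1 i.1.2
      map_add' := fun _ _ => rfl
      map_smul' := fun _ _ => rfl }
  have hπ : Function.Injective π := by
    rw [injective_iff_map_eq_zero]
    intro v hv
    exact Subtype.ext (hJ v.1 v.2.1 fun i hi => congrFun hv ⟨i, hi⟩)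
  let Z : Submodule ℤ (J → ℚ) := LinearMap.range ((Algebra.linearMap ℤ ℚ).compLeft J)
  have hZ : Z.FG := Submodule.fg_range _
  obtain ⟨u, hu, h⟩ := core r lam red (fun v a => ⟨_, rfl⟩) (fun v hv => by
      refine ⟨⟨(1 / 2 : ℚ) • v.1, V.smul_mem _ v.2.1, fun n δ => half_den (v.2.2 n δ)
        ((CharP.intCast_eq_zero_iff F 2 _).1 (congrFun hv (n, δ)))⟩, Subtype.ext ?_⟩
      change v.1 = 2 • (1 / 2 : ℚ) • v.1
      rw [two_smul, ← add_smul]
      norm_num)
    (Z.comap π) (Submodule.fg_of_fg_map_injective π hπ (hZ.of_le (Submodule.map_comap_le _ _)))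
    (fun v => by
      refine ⟨∏ i : J, (π v i).den, Finset.prod_induction _ Odd (fun _ _ => Odd.mul) odd_one
        fun i _ => v.2.2 _ _, ?_⟩
      have : ∀ i : J, ∃ z : ℤ, (z : ℚ) = (∏ i : J, (π v i).den : ℕ) * π v i := fun i => by
        obtain ⟨k, hk⟩ := Finset.dvd_prod_of_mem (fun i : J => (π v i).den) (Finset.mem_univ i)
        refine ⟨k * (π v i).num, ?_⟩
        rw [hk]
        push_cast
        rw [mul_right_comm, Rat.den_mul_eq_num, mul_comm]
      choose z hz using this
      refine ⟨z, funext fun i => ?_⟩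
      rw [map_nsmul, Pi.smul_apply, nsmul_eq_mul, ← hz]
      rfl)
    (fun d hd v hv => by
      have h1 : (d : ℚ) • v.1 = 0 := by
        rw [Nat.cast_smul_eq_nsmul]
        exact congrArg Subtype.val hv
      exact Subtype.ext ((smul_eq_zero.1 h1).resolve_left (Nat.cast_ne_zero.2 hd.pos.ne')))
    (fun X Y v => Subtype.ext (hc X Y v.1 v.2.1))
    (fun X hX => hlam X fun v hv hv' =>
      congrArg Subtype.val (LinearMap.congr_fun hX ⟨v, hv, hv'⟩))
  let e := u.support.equivFin.symm
  have key : ∀ f : Lam V → ℕ × ℕ → F, ∀ a, Finsupp.linearCombination F f u a =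
      ∑ j, u (e j) * f (e j) a := fun f a => by
    rw [Finsupp.linearCombination_apply, Finsupp.sum, Finset.sum_apply, ← Finset.sum_coe_sort,
      ← e.sum_comp]
    rfl
  refine ⟨_, fun j => u (e j), fun j => (e j).1.1, fun j => (e j).1.2, ?_, fun X n δ => ?_⟩
  · obtain ⟨a, ha⟩ := Function.ne_iff.1 hu
    rw [key] at ha
    exact ⟨a.1, a.2, ha⟩
  · have := congrFun (h X) (n, δ)
    rw [key, Pi.smul_apply, key] at this
    exact this

end Vale.Agent.P022D.Th
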