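import Vale.Agent.P022D.Th.EigcA

/-!
# P022D, block TH, row EIGC: a classical eigenform modulo `π`
-/

set_option linter.all false

open UpperHalfPlane hiding I
open Matrix
open scoped MatrixGroups ModularForm

noncomputable section

namespace Vale.Agent.P022D.Th

open Vale.Agent.P022 Vale.Agent.P027M.M Vale.Agent.P022D.V Vale.Agent.P022.H353

namespace Eigc

variable {O : Type} [CommRing O] [Co O] {N : ℕ} [NeZero N] {i : ℕ}

/-- eigenform modulo `π` -/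
structure Gd (π : O) (lam : ℕ → O) (f : MF N (i + 1)) (c : ℕ → ℕ → O) : Prop where
  rep : Rep N i f fun n δ => Co.j (c n δ)
  dia : ∀ n δ, Nat.Coprime δ (2 * N) → π ∣ c n δ - c n 1
  hk : ∀ (ℓ : PA N) n,
    π ∣ c (ℓ.1 * n) 1 + (if ℓ.1 ∣ n then c (n / ℓ.1) 1 else 0) - lam ℓ.1 * c n 1

theorem Gd.up {π : O} {lam : ℕ → O} {f : MF N (i + 1)} {c : ℕ → ℕ → O} (h : Gd π lam f c) {p : ℕ}
    (hp : p.Prime) (hN : p ∣ N) :
    Gd π lam (H811.L3.Up hp hN (i + 1) f) fun n δ => c (p * n) δ := by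
  refine ⟨rep_Up (c := fun n δ => Co.j (c n δ)) hp hN h.rep, fun n δ k => h.dia _ δ k, fun ℓ n => ?_⟩
  have hc : Nat.Coprime ℓ.1 p := (Nat.coprime_primes ℓ.2.1 hp).2 fun e =>
    ℓ.2.2 (e ▸ hN.mul_left 2)
  have k := h.hk ℓ (p * n)
  rw [mul_left_comm] at k
  by_cases d : ℓ.1 ∣ n
  · rw [if_pos (d.mul_left p), Nat.mul_div_assoc _ d] at k
    rw [if_pos d]
    exact k
  · rw [if_neg fun e => d (hc.dvd_mul_left.1 e)] at k
    rw [if_neg d]
    exact k

theorem desc {π : O} (hπ : Unif π) {lam : ℕ → O} {N₁ : ℕ} (h1 : Odd N₁) (n : ℕ) :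
    ∀ (f : MF N (i + 1)) (c : ℕ → ℕ → O), Gd π lam f c → 0 < n → IsUnit (c n 1) →
      ∃ (f : MF N (i + 1)) (c : ℕ → ℕ → O), Gd π lam f c ∧
        ∃ n, 0 < n ∧ Nat.Coprime n N₁ ∧ IsUnit (c n 1) := by
  induction n using Nat.strong_induction_on with
  | _ n ih =>
    intro f c h n0 u
    by_cases hc : Nat.Coprime n N₁
    · exact ⟨f, c, h, n, n0, hc, u⟩
    obtain ⟨l, lp, ⟨m, rfl⟩, l1⟩ := Nat.Prime.not_coprime_iff_dvd.1 hc
    have m0 : 0 < m := Nat.pos_of_mul_pos_left n0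
    have ml : m < l * m := lt_mul_of_one_lt_left m0 lp.one_lt
    by_cases lN : l ∣ N
    · exact ih m ml _ _ (h.up lp lN) m0 u
    have l2 : ¬ l ∣ 2 * N := fun e => (lp.dvd_mul.1 e).elim (fun e => by
      obtain rfl := (Nat.prime_dvd_prime_iff_eq lp Nat.prime_two).1 e
      exact Nat.not_even_iff_odd.2 h1 (even_iff_two_dvd.2 l1)) lN
    by_cases a1 : IsUnit (c m 1)
    · exact ih m ml f c h m0 a1
    by_cases a2 : l ∣ m ∧ IsUnit (c (m / l) 1)
    · exact ih (m / l) ((Nat.div_le_self m l).trans_lt ml) f c h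
        (Nat.div_pos (Nat.le_of_dvd m0 a2.1) lp.pos) a2.2
    have k := h.hk ⟨l, lp, l2⟩ m
    have k1 : π ∣ (if l ∣ m then c (m / l) 1 else 0) := by
      split_ifs with d
      exacts [hπ.dvd _ fun e => a2 ⟨d, e⟩, dvd_zero _]
    have k2 := (k.add ((hπ.dvd _ a1).mul_left (lam l))).sub k1
    rw [sub_add_cancel, add_sub_cancel_right] at k2
    exact absurd (isUnit_of_dvd_unit k2 u) hπ.nu

omit [Co O] in
theorem one_wt {lam : ℕ → O} (h : Occ N lam) : ∃ i, ∀ X : G.Wd N, G.sg N i X = 0 →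
    ¬ IsUnit (FreeAlgebra.lift ℤ (Sum.elim (fun ℓ : PA N => lam ℓ.1) fun _ => (1 : O)) X) := by
  obtain ⟨⟨k, hk⟩, -⟩ := h
  by_contra hc
  push Not at hc
  have key : ∀ k : ℕ, ∃ X : G.Wd N, (∀ i < k, G.sg N i X = 0) ∧
      IsUnit (FreeAlgebra.lift ℤ (Sum.elim (fun ℓ : PA N => lam ℓ.1) fun _ => (1 : O)) X) := by
    intro k
    induction k with
    | zero => exact ⟨1, fun i hi => absurd hi (Nat.not_lt_zero i), by rw [map_one]; exact isUnit_one⟩
    | succ k ih =>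
      obtain ⟨X, x1, x2⟩ := ih
      obtain ⟨Y, y1, y2⟩ := hc k
      refine ⟨X * Y, fun i hi => ?_, by rw [map_mul]; exact x2.mul y2⟩
      rw [map_mul]
      rcases Nat.lt_succ_iff_lt_or_eq.1 hi with e | rfl
      · rw [x1 i e, zero_mul]
      · rw [y1, mul_zero]
  obtain ⟨X, x1, x2⟩ := key k
  exact hk X x1 x2

theorem lift_rat {F : Type} [Field F] [CharP F 2] (φ : O →+* F) (q : ℚ) (hq : Odd q.den) :
    ∃ a : O, Co.j a = (q : ℂ) ∧ φ a = (q.num : F) := by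
  obtain ⟨b, hb⟩ := (Tr.odd_unit' (O := O) hq).exists_right_inv
  have d1 : (q.den : F) = 1 := by
    obtain ⟨k, hk⟩ := hq
    rw [hk]
    push_cast
    rw [CharTwo.two_eq_zero, zero_mul, zero_add]
  refine ⟨q.num * b, ?_, ?_⟩
  · have := congrArg (Co.j : O →+* ℂ) hb
    rw [map_mul, map_one, map_natCast] at this
    rw [map_mul, map_intCast, eq_inv_of_mul_eq_one_right this, Rat.cast_def, div_eq_mul_inv]
  · have := congrArg φ hb
    rw [map_mul, map_one, map_natCast, d1, one_mul] at this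
    rw [map_mul, map_intCast, this, mul_one]

theorem start (hL : LATC) (hS : SEPJ) (hE : EIG2) {π : O} {F : Type} [Field F] [CharP F 2]
    (φ : O →+* F) (sj : Function.Surjective φ) (ker : ∀ a, φ a = 0 ↔ π ∣ a)
    (nu : ∀ a, ¬ IsUnit a → φ a = 0) {lam : ℕ → O} (hN : Odd N) (h : Occ N lam) :
    ∃ (i : ℕ) (f : MF N (i + 1)) (c : ℕ → ℕ → O), Gd π lam f c ∧ ∃ n, 0 < n ∧ φ (c n 1) ≠ 0 := by
  obtain ⟨i, hi⟩ := one_wt h
  obtain ⟨J, hJ⟩ := VQ_sep (i := i) hL hS hN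
  obtain ⟨m, c, v, v1, ⟨n₀, δ₀, v2⟩, v3⟩ := hE (G.Wd N) F (VQ N i) (H761.Wd ℚ N).toRingHom
    (φ.comp (FreeAlgebra.lift ℤ (Sum.elim (fun ℓ : PA N => lam ℓ.1) fun _ => (1 : O))).toRingHom)
    J hJ (fun X v hv => VQ_wd X hv) (fun X Y v hv => VQ_comm X Y hv)
    (fun X v _ k n δ => wd_inv Z2 (fun _ => True) (fun _ _ _ => trivial) X v
      (fun n δ _ => k n δ) n δ trivial)
    fun X k => nu _ (hi X (VQ_kill hL hN X k))
  choose! oq q1 q2 using lift_rat φ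
  choose b hb using fun j => sj (c j)
  choose f hf using fun j => (v1 j).1.1
  let C : ℕ → ℕ → O := fun n δ => ∑ j, b j * oq (v j n δ)
  have e : ∀ n δ, φ (C n δ) = ∑ j, c j * ((v j n δ).num : F) := fun n δ => by
    rw [map_sum]
    exact Finset.sum_congr rfl fun j _ => by rw [map_mul, hb, q2 _ ((v1 j).2 n δ)]
  have ad : ∀ x y : ℚ, Odd x.den → Odd y.den → ((x + y).num : F) = x.num + y.num :=
    fun x y hx hy => by
      have hxy : Odd (x + y).den := Z2.add_mem hx hy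
      rw [← q2 _ hxy, ← q2 _ hx, ← q2 _ hy, ← map_add]
      exact congrArg φ (Co.inj (O := O) (by rw [map_add, q1 _ hxy, q1 _ hx, q1 _ hy, Rat.cast_add]))
  have s1 : ∀ (ℓ : PA N) n δ, φ (C n (ℓ.1 * δ)) = φ (C n δ) := fun ℓ n δ => by
    have k := v3 (FreeAlgebra.ι ℤ (Sum.inr ℓ)) n δ
    simp only [AlgHom.toRingHom_eq_coe, RingHom.coe_coe, RingHom.comp_apply, H761.Wd,
      FreeAlgebra.lift_ι_apply, Sum.elim_inr, map_one, one_mul] at k
    rw [e, e]
    exact k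
  have s2 : ∀ n δ, Nat.Coprime δ (2 * N) → φ (C n δ) = φ (C n 1) := fun n δ => by
    induction δ using induction_on_primes with
    | zero =>
      intro k
      rw [Nat.coprime_zero_left] at k
      omega
    | one => exact fun _ => rfl
    | prime_mul p a hp ih =>
      intro k
      exact (s1 ⟨p, hp, hp.coprime_iff_not_dvd.1 (Nat.Coprime.coprime_mul_right k)⟩ n a).trans
        (ih (Nat.Coprime.coprime_mul_left k))
  have s3 : ∀ (ℓ : PA N) n, φ (C (ℓ.1 * n) 1) + (if ℓ.1 ∣ n then φ (C (n / ℓ.1) 1) else 0) =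
      φ (lam ℓ.1) * φ (C n 1) := fun ℓ n => by
    have k := v3 (FreeAlgebra.ι ℤ (Sum.inl ℓ)) n 1
    simp only [AlgHom.toRingHom_eq_coe, RingHom.coe_coe, RingHom.comp_apply, H761.Wd,
      FreeAlgebra.lift_ι_apply, Sum.elim_inl] at k
    rw [← s1 ℓ (n / ℓ.1) 1, e, e, e, ← k]
    change _ = ∑ j, c j * (((v j (ℓ.1 * n) 1 +
      (if ℓ.1 ∣ n then v j (n / ℓ.1) (ℓ.1 * 1) else 0) : ℚ).num : ℤ) : F)
    split_ifs
    · rw [← Finset.sum_add_distrib]
      exact Finset.sum_congr rfl fun j _ => by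
        rw [ad _ _ ((v1 j).2 _ _) ((v1 j).2 _ _), mul_add]
    · simp only [add_zero]
  have d₀ : Nat.Coprime δ₀ (2 * N) := by
    by_contra k
    exact v2 (Finset.sum_eq_zero fun j _ => by rw [(v1 j).1.2 n₀ δ₀ k]; simp)
  rw [← e, s2 n₀ δ₀ d₀] at v2
  refine ⟨i, ∑ j, (Co.j (b j) : ℂ) • f j, C, ⟨?_, fun n δ k => ?_, fun ℓ n => ?_⟩, n₀, ?_, v2⟩
  · refine rep_congr (rep_sum Finset.univ fun j => rep_smul (Co.j (b j)) (hf j)) fun n δ _ => ?_
    rw [map_sum, Finset.sum_apply, Finset.sum_apply]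
    exact Finset.sum_congr rfl fun j _ => by rw [map_mul, q1 _ ((v1 j).2 n δ)]; rfl
  · rw [← ker, map_sub, s2 n δ k, sub_self]
  · rw [← ker, map_sub, map_add, map_mul, ← s3, apply_ite φ, map_zero, sub_self]
  · refine Nat.pos_of_ne_zero ?_
    rintro rfl
    obtain ⟨ℓ, hℓ⟩ := h.2
    have k := s3 ℓ 0
    rw [if_pos (dvd_zero _), mul_zero, Nat.zero_div, CharTwo.add_self_eq_zero] at k
    exact mul_ne_zero (hℓ.map φ).ne_zero v2 k.symm

end Eigc

open Eigc in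
theorem eigc (hL : LATC) (hS : SEPJ) (hE : EIG2) (O : Type) [CommRing O] [Co O] : EIGC O := by
  intro π N₀ N₁ _ lam hπ h0 h1 h
  have ker : ∀ a, Ideal.Quotient.mk (Ideal.span {π}) a = 0 ↔ π ∣ a := fun a => by
    rw [Ideal.Quotient.eq_zero_iff_mem, Ideal.mem_span_singleton]
  haveI : (Ideal.span {π}).IsMaximal := Ideal.isMaximal_iff.2
    ⟨fun k => hπ.nu (isUnit_of_dvd_one (Ideal.mem_span_singleton.1 k)), fun J x _ k hx =>
      (Ideal.eq_top_iff_one J).1 (J.eq_top_of_isUnit_mem hx (by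
        by_contra u
        exact k (Ideal.mem_span_singleton.2 (hπ.dvd x u))))⟩
  letI : Field (O ⧸ Ideal.span {π}) := Ideal.Quotient.field _
  haveI : CharP (O ⧸ Ideal.span {π}) 2 := (CharP.charP_iff_prime_eq_zero Nat.prime_two).2 (by
    rw [← map_natCast (Ideal.Quotient.mk (Ideal.span {π})), ker]
    exact hπ.dvd _ fun k => Tr.two_nonunit (O := O) (by
      simpa [map_ofNat] using k.map (algebraMap O (AA O))))
  obtain ⟨i, f, c, g, n, n0, u⟩ := start hL hS hE (Ideal.Quotient.mk (Ideal.span {π}))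
    Ideal.Quotient.mk_surjective ker (fun a k => (ker a).2 (hπ.dvd a k)) h0 h
  obtain ⟨f', c', g', k⟩ := desc hπ h1 n f c g n0 (by
    by_contra k
    exact u ((ker _).2 (hπ.dvd _ k)))
  exact ⟨i, f', c', g'.rep, k, g'.dia, g'.hk⟩

end Vale.Agent.P022D.Th
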