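import Vale.Agent.P022D.V.TrG
import Vale.Agent.P027M.M.Ser0

/-!
# P022D: the weight three forms `(2πi)⁻³ ℘'(v / N)`

The expansion is `X_v + 2 Y_v` in the Tate coordinates.
-/

set_option autoImplicit false
set_option linter.all false

open UpperHalfPlane hiding I
open Matrix Filter Topology Function.Periodic
open scoped MatrixGroups Manifold ModularForm Real

noncomputable section

namespace Vale.Agent.P022D.Th

open Vale.Agent.P022 Vale.Agent.P022.H218.L3 Vale.Agent.P022.H231.L3 Vale.Agent.P022.H236.L3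
  Vale.Agent.P022.H542.L3 Vale.Agent.P027H Vale.Agent.P027M.M Vale.Agent.P027M.M.A3
  Vale.Agent.P022D.V

open Complex (I)

/-- `-2 ∑ 1 / (y + n) ^ 3` -/
def cb (y : ℂ) : ℂ := -2 * ∑' n : ℤ, 1 / (y + n) ^ 3

theorem cb_summable (y : ℂ) : Summable fun n : ℤ => 1 / (y + n) ^ 3 := by
  have := EisensteinSeries.linear_right_summable y 1 (k := 3) (by norm_num)
  simpa [zpow_ofNat] using this

theorem cb_neg (y : ℂ) : cb (-y) = -cb y := by
  rw [cb, cb, ← (Equiv.neg ℤ).tsum_eq, ← mul_neg, ← tsum_neg]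
  congr 1
  refine tsum_congr fun n => ?_
  simp only [Equiv.neg_apply, Int.cast_neg]
  rw [← neg_add, Odd.neg_pow (by decide), div_neg]

theorem cb_pnat {y : ℂ} (hy : 0 < y.im) :
    cb y = (2 * π * I) ^ 3 *
      ∑' j : ℕ+, (j : ℂ) ^ 2 * Complex.exp (2 * π * I * y) ^ (j : ℕ) := by
  have h := EisensteinSeries.qExpansion_identity_pnat (k := 2) (by norm_num) ⟨y, hy⟩
  have h' : ∑' n : ℤ, 1 / (y + n) ^ (2 + 1) = ((-2 * π * I) ^ (2 + 1) / (Nat.factorial 2)) *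
      ∑' n : ℕ+, (n : ℂ) ^ 2 * Complex.exp (2 * π * I * y) ^ (n : ℕ) := h
  rw [cb, show (3 : ℕ) = 2 + 1 from rfl, h']
  simp only [Nat.factorial_two, Nat.cast_ofNat]
  ring

theorem tsum_sq {q : ℂ} (hq : ‖q‖ < 1) :
    ∑' n : ℕ, (n : ℂ) ^ 2 * q ^ n = q * (1 + q) / (1 - q) ^ 3 := by
  have h2 := hasSum_choose_mul_geometric_of_norm_lt_one 2 hq
  have h1 := hasSum_choose_mul_geometric_of_norm_lt_one 1 hq
  have h0 := hasSum_geometric_of_norm_lt_one hq
  have hne : 1 - q ≠ 0 := by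
    intro h
    rw [← sub_eq_zero.1 h] at hq
    simp at hq
  have h3 := ((h2.mul_left 2).sub (h1.mul_left 3)).add h0
  have h4 : HasSum (fun n : ℕ => (n : ℂ) ^ 2 * q ^ n)
      (2 * (1 / (1 - q) ^ (2 + 1)) - 3 * (1 / (1 - q) ^ (1 + 1)) + (1 - q)⁻¹) := by
    refine h3.congr_fun fun n => ?_
    rw [Nat.cast_choose_two, Nat.choose_one_right]
    push_cast
    ring
  rw [h4.tsum_eq]
  field_simp
  ring

theorem cb_up {y : ℂ} (hy : 0 < y.im) : cb y = (2 * π * I) ^ 3 *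
    (Complex.exp (2 * π * I * y) * (1 + Complex.exp (2 * π * I * y)) /
      (1 - Complex.exp (2 * π * I * y)) ^ 3) := by
  have h := EisensteinSeries.qExpansion_identity (k := 2) (by norm_num) ⟨y, hy⟩
  have h' : ∑' n : ℤ, 1 / (y + n) ^ (2 + 1) = ((-2 * π * I) ^ (2 + 1) / (Nat.factorial 2)) *
      ∑' n : ℕ, (n : ℂ) ^ 2 * Complex.exp (2 * π * I * y) ^ n := h
  have hq : ‖Complex.exp (2 * π * I * y)‖ < 1 := norm_exp_two_pi_I_lt_one ⟨y, hy⟩
  rw [cb, show (3 : ℕ) = 2 + 1 from rfl, h', tsum_sq hq]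
  simp only [Nat.factorial_two, Nat.cast_ofNat]
  ring

theorem cb_real {y : ℝ} (hy : ∀ n : ℤ, y + n ≠ 0) : cb y = (2 * π * I) ^ 3 *
    (Complex.exp (2 * π * I * y) * (1 + Complex.exp (2 * π * I * y)) /
      (1 - Complex.exp (2 * π * I * y)) ^ 3) := by
  have hne : ∀ (e : ℝ) (n : ℤ), ((y : ℂ) + e * I + n) ≠ 0 := by
    intro e n h
    have := congrArg Complex.re h
    simp at this
    exact hy n this
  have h1 : Continuous fun e : ℝ => cb (y + e * I) := by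
    refine continuous_const.mul (continuous_tsum (u := fun n : ℤ => ‖1 / ((y : ℂ) + n) ^ 3‖)
      (fun n => ?_) (cb_summable y).norm (fun n e => ?_))
    · exact continuous_const.div (by fun_prop) fun e => pow_ne_zero _ (hne e n)
    · rw [norm_div, norm_div, norm_pow, norm_pow]
      have h0 : 0 < ‖(y : ℂ) + n‖ := by
        have := hne 0 n
        simp only [Complex.ofReal_zero, zero_mul, add_zero] at this
        exact norm_pos_iff.2 this
      have h2 : ‖(y : ℂ) + n‖ ≤ ‖(y : ℂ) + e * I + n‖ := by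
        have h3 := Complex.abs_re_le_norm ((y : ℂ) + e * I + n)
        have h4 : ((y : ℂ) + n) = ((y + n : ℝ) : ℂ) := by push_cast; rfl
        rw [h4, Complex.norm_real, Real.norm_eq_abs]
        simpa using h3
      gcongr
  have hw : 1 - Complex.exp (2 * π * I * y) ≠ 0 := by
    intro h
    obtain ⟨n, hn⟩ := Complex.exp_eq_one_iff.1 (sub_eq_zero.1 h).symm
    have h2 : (y : ℂ) = n := by
      have := Complex.two_pi_I_ne_zero
      exact mul_left_cancel₀ this (by rw [hn]; ring)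
    apply hy (-n)
    have h3 : y = n := by exact_mod_cast h2
    rw [h3]
    simp
  have h2 : ContinuousAt (fun e : ℝ => (2 * π * I) ^ 3 * (Complex.exp (2 * π * I * (y + e * I)) *
      (1 + Complex.exp (2 * π * I * (y + e * I))) /
      (1 - Complex.exp (2 * π * I * (y + e * I))) ^ 3)) 0 := by
    refine continuousAt_const.mul (ContinuousAt.div (by fun_prop) (by fun_prop) ?_)
    simpa using hw
  have h3 := tendsto_nhds_unique_of_eventuallyEq
    (h1.continuousAt.tendsto.mono_left (nhdsWithin_le_nhds (s := Set.Ioi (0 : ℝ))))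
    (h2.tendsto.mono_left nhdsWithin_le_nhds) (by
      filter_upwards [self_mem_nhdsWithin] with e he
      exact cb_up (by simpa using he))
  simpa using h3

theorem hasSum_div2 (a : ℕ → ℕ → ℂ) (ha : ∀ c j, ‖a c j‖ ≤ (j : ℝ) ^ 2) {Q : ℂ} (hQ : ‖Q‖ < 1) :
    ∃ s, HasSum (fun n : ℕ => (∑ j ∈ n.divisors, a (n / j) j) * Q ^ n) s ∧
      HasSum (fun c : ℕ => ∑' j : ℕ+, a (c + 1) j * Q ^ ((c + 1) * j : ℕ)) s := by
  have hS : Summable fun c : ℕ+ × ℕ+ => a c.1 c.2 * Q ^ (c.1 * c.2 : ℕ) := by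
    refine Summable.of_norm_bounded (summable_prod_mul_pow 2 hQ).norm fun c => ?_
    rw [norm_mul, norm_mul]
    refine mul_le_mul_of_nonneg_right ?_ (norm_nonneg _)
    simpa using ha _ _
  refine ⟨∑' c : ℕ+ × ℕ+, a c.1 c.2 * Q ^ (c.1 * c.2 : ℕ), ?_, ?_⟩
  · have h1 := (sigmaAntidiagonalEquivProd.hasSum_iff).2 hS.hasSum
    have h2 := h1.sigma (g := fun n : ℕ+ =>
      (∑ j ∈ (n : ℕ).divisors, a (n / j) j) * Q ^ (n : ℕ))
      (fun n => by
        have : (∑ j ∈ (n : ℕ).divisors, a (n / j) j) * Q ^ (n : ℕ)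
            = ∑ x : (n : ℕ).divisorsAntidiagonal, a x.1.1 x.1.2 * Q ^ (x.1.1 * x.1.2 : ℕ) := by
          rw [Finset.sum_coe_sort (n : ℕ).divisorsAntidiagonal
            (fun x : ℕ × ℕ => a x.1 x.2 * Q ^ (x.1 * x.2 : ℕ)), ← Nat.sum_divisorsAntidiagonal' a,
            Finset.sum_mul]
          refine Finset.sum_congr rfl fun x hx => ?_
          rw [(Nat.mem_divisorsAntidiagonal.1 hx).1]
        rw [this]
        exact hasSum_fintype _)
    rw [← PNat.coe_injective.hasSum_iff]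
    · exact h2
    · intro n hn
      have : n = 0 := by
        by_contra h
        exact hn ⟨⟨n, Nat.pos_of_ne_zero h⟩, rfl⟩
      subst this
      simp
  · have h1 := hS.hasSum.prod_fiberwise fun c => (hS.prod_factor c).hasSum
    exact (Equiv.pnatEquivNat.symm.hasSum_iff).2 h1

theorem cb_div {N : ℕ} (hN : 0 < N) (τ : ℍ) (b : ℤ) (c : ℕ) :
    ((2 * π * I) ^ 3)⁻¹ * cb (((c + 1 : ℕ) * (τ : ℂ) + b) / N) =
      ∑' j : ℕ+, ((j : ℕ) : ℂ) ^ 2 * ze N (b * (j : ℕ)) * qParam N τ ^ ((c + 1) * j : ℕ) := by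
  have hr : (0 : ℝ) < N := by exact_mod_cast hN
  have him : 0 < (((c + 1 : ℕ) * (τ : ℂ) + b) / N).im := by
    rw [show ((N : ℕ) : ℂ) = ((N : ℝ) : ℂ) by push_cast; rfl, Complex.div_ofReal_im]
    refine div_pos ?_ hr
    have : (0 : ℝ) < (c : ℝ) + 1 := by positivity
    simpa using mul_pos this τ.im_pos
  rw [cb_pnat him, ← mul_assoc, inv_mul_cancel₀ (pow_ne_zero _ Complex.two_pi_I_ne_zero), one_mul]
  refine tsum_congr fun j => ?_
  rw [mul_assoc (((j : ℕ) : ℂ) ^ 2), ze, qParam, ← Complex.exp_nat_mul, ← Complex.exp_nat_mul,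
    ← Complex.exp_add]
  congr 2
  push_cast
  ring

/-- the coefficients of the expansion of `(2πi)⁻³ ℘'((a τ + b) / N)` in `u = e(τ / N)` -/
def Pc (N : ℕ) (v : Fin 2 → ℤ) (k : ℕ) : ℂ :=
  if k = 0 then
    (if (N : ℤ) ∣ v 0 then ze N (v 1) * (1 + ze N (v 1)) / (1 - ze N (v 1)) ^ 3 else 0)
  else ∑ j ∈ k.divisors,
    ((if (N : ℤ) ∣ ((k / j : ℕ) : ℤ) - v 0 then (j : ℂ) ^ 2 * ze N (v 1 * j) else 0) +
      (if (N : ℤ) ∣ ((k / j : ℕ) : ℤ) + v 0 then -((j : ℂ) ^ 2 * ze N (-(v 1 * j))) else 0))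

theorem hasSum_P {N : ℕ} (hN : 0 < N) {v : Fin 2 → ℤ} (hv : NZ N v) (τ : ℍ) :
    ∃ s, HasSum (fun k : ℕ => Pc N v k * qParam N τ ^ k) s ∧
      HasSum (fun m : ℤ => ((2 * π * I) ^ 3)⁻¹ * cb (zt N v τ - m * τ)) s := by
  have hr : (0 : ℝ) < N := by exact_mod_cast hN
  have hC : (N : ℂ) ≠ 0 := by exact_mod_cast hN.ne'
  have hQ : ‖qParam N τ‖ < 1 := norm_qParam_lt_one hr τ.im_pos
  obtain ⟨s1, h1, h1'⟩ := hasSum_div2
    (fun c j => if (N : ℤ) ∣ (c : ℤ) - v 0 then (j : ℂ) ^ 2 * ze N (v 1 * j) else 0)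
    (fun c j => by split_ifs <;> simp [norm_ze]) hQ
  obtain ⟨s2, h2, h2'⟩ := hasSum_div2
    (fun c j => if (N : ℤ) ∣ (c : ℤ) + v 0 then -((j : ℂ) ^ 2 * ze N (-(v 1 * j))) else 0)
    (fun c j => by split_ifs <;> simp [norm_ze]) hQ
  refine ⟨s1 + Pc N v 0 + s2, ?_, ?_⟩
  · have h3 := (h1.add (hasSum_ite_eq 0 (Pc N v 0))).add h2
    refine h3.congr_fun fun k => ?_
    by_cases hk : k = 0
    · subst hk
      simp
    · rw [if_neg hk, add_zero, ← add_mul, ← Finset.sum_add_distrib, Pc, if_neg hk]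
  · obtain ⟨H, hH⟩ : ∃ H : ℤ → ℂ, H = fun c => if (N : ℤ) ∣ c - v 0 then
        ((2 * π * I) ^ 3)⁻¹ * cb ((c * (τ : ℂ) + v 1) / N) else 0 := ⟨_, rfl⟩
    have hp : HasSum (fun n : ℕ => H (n + 1)) s1 := by
      refine h1'.congr_fun fun c => ?_
      rw [hH]
      simp only [Nat.cast_add, Nat.cast_one]
      split_ifs with hc
      · have := cb_div hN τ (v 1) c
        push_cast at this ⊢
        exact this
      · simp
    have hm : HasSum (fun n : ℕ => H (-(n + 1))) s2 := by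
      refine h2'.congr_fun fun c => ?_
      rw [hH]
      simp only [Nat.cast_add, Nat.cast_one]
      have e : (N : ℤ) ∣ -((c : ℤ) + 1) - v 0 ↔ (N : ℤ) ∣ (c : ℤ) + 1 + v 0 := by
        rw [← dvd_neg, show -(-((c : ℤ) + 1) - v 0) = (c : ℤ) + 1 + v 0 by ring]
      simp only [e]
      split_ifs with hc
      · have := cb_div hN τ (-v 1) c
        simp only [neg_mul] at this ⊢
        rw [tsum_neg, ← this, ← mul_neg, ← cb_neg]
        congr 2
        push_cast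
        ring
      · simp
    have h0 : H 0 = Pc N v 0 := by
      rw [hH, Pc, if_pos rfl]
      simp only [zero_sub, dvd_neg]
      split_ifs with hc
      · have hy : ∀ n : ℤ, ((v 1 : ℝ) / N) + n ≠ 0 := by
          intro n hn
          apply hv
          rw [Fin.forall_fin_two]
          refine ⟨hc, -n, ?_⟩
          have h4 : (v 1 : ℝ) = N * (-n) := by
            field_simp at hn
            linarith
          exact_mod_cast h4
        have h5 := cb_real hy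
        have e1 : (((0 : ℤ) : ℂ) * (τ : ℂ) + v 1) / N = (((v 1 : ℝ) / N : ℝ) : ℂ) := by
          push_cast
          ring
        have e2 : Complex.exp (2 * π * I * (((v 1 : ℝ) / N : ℝ) : ℂ)) = ze N (v 1) := by
          rw [ze]
          congr 1
          push_cast
          ring
        rw [e1, h5, e2, ← mul_assoc, inv_mul_cancel₀ (pow_ne_zero _ Complex.two_pi_I_ne_zero),
          one_mul]
      · rfl
    have h4 := hp.of_add_one_of_neg_add_one hm
    rw [h0] at h4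
    have hinj : Function.Injective fun m : ℤ => v 0 - N * m := by
      intro m n h
      have h5 : (N : ℤ) * m = N * n := by simpa using h
      exact mul_left_cancel₀ (by exact_mod_cast hN.ne') h5
    have h6 := (hinj.hasSum_iff (f := H) (a := s1 + Pc N v 0 + s2) (by
      intro c hc
      rw [hH]
      refine if_neg ?_
      rintro ⟨m, hm⟩
      exact hc ⟨-m, by linarith⟩)).2 h4
    refine h6.congr_fun fun m => ?_
    rw [Function.comp_apply, hH]
    simp only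
    rw [if_pos ⟨-m, by ring⟩, zt]
    congr 2
    push_cast
    field_simp
    ring

theorem hasSum_dwp (τ : ℍ) (z : ℂ) :
    HasSum (fun m : ℤ => cb (z - m * τ)) (dwp (lat τ) z) := by
  have h1 := (pp τ).hasSum_derivWeierstrassP z
  have h2 := ((pp τ).latticeEquivProd.symm.toEquiv.hasSum_iff).2 h1
  refine h2.prod_fiberwise fun m => ?_
  have h3 := (cb_summable (z - m * τ)).hasSum.mul_left (-2)
  have h4 := ((Equiv.neg ℤ).hasSum_iff).2 h3
  refine h4.congr_fun fun n => ?_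
  have e : (((pp τ).latticeEquivProd.symm.toEquiv (m, n) : (pp τ).lattice) : ℂ) = m * τ + n := by
    exact ((pp τ).latticeEquiv_symm_apply (m, n)).trans (by simp [pp])
  simp only [Function.comp_apply, e, Equiv.neg_apply, Int.cast_neg]
  ring

/-- the weight three form -/
def Pf (N : ℕ) (v : Fin 2 → ℤ) : ℍ → ℂ := fun τ =>
  ((2 * π * I) ^ 3)⁻¹ * dwp (lat τ) (zt N v τ)

/-- its expansion -/
def Ps (N : ℕ) (v : Fin 2 → ℤ) : PowerSeries ℂ := PowerSeries.mk (Pc N v)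

theorem Pf_hasSum {N : ℕ} (hN : 0 < N) {v : Fin 2 → ℤ} (hv : NZ N v) (τ : ℍ) :
    HasSum (fun k : ℕ => (Ps N v).coeff k * qParam N τ ^ k) (Pf N v τ) := by
  obtain ⟨s, h1, h2⟩ := hasSum_P hN hv τ
  have h3 := (hasSum_dwp τ (zt N v τ)).mul_left ((2 * π * I) ^ 3)⁻¹
  rw [Pf, h3.unique h2]
  simpa only [Ps, PowerSeries.coeff_mk] using h1

theorem Pf_smul (N : ℕ) (v : Fin 2 → ℤ) (γ : SL(2, ℤ)) (τ : ℍ) :
    Pf N v (γ • τ) = ((γ 1 0 : ℂ) * τ + γ 1 1) ^ 3 * Pf N (v ᵥ* (γ : M2)) τ := by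
  have hd : ((γ 1 0 : ℂ) * τ + γ 1 1) ≠ 0 := by
    have := denom_ne_zero (γ : GL (Fin 2) ℝ) τ
    rwa [ModularGroup.denom_apply] at this
  have e : ((γ • τ : ℍ) : ℂ) = ((γ 0 0 : ℂ) * τ + γ 0 1) / ((γ 1 0 : ℂ) * τ + γ 1 1) := by
    rw [specialLinearGroup_apply]
    simp
  have hdet : (γ 0 0 : ℂ) * γ 1 1 - γ 0 1 * γ 1 0 = 1 := by exact_mod_cast det_eq γ
  have hom : Hom ((γ 1 0 : ℂ) * τ + γ 1 1)⁻¹ (lat τ) (lat (γ • τ)) := by
    refine ⟨inv_ne_zero hd, fun z => ?_⟩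
    rw [mem_lat, mem_lat, e]
    constructor
    · rintro ⟨m, n, rfl⟩
      refine ⟨m * γ 1 1 - n * γ 1 0, n * γ 0 0 - m * γ 0 1, ?_⟩
      push_cast
      field_simp
      linear_combination ((m : ℂ) * τ + n) * hdet
    · rintro ⟨m, n, h⟩
      refine ⟨m * γ 0 0 + n * γ 1 0, m * γ 0 1 + n * γ 1 1, ?_⟩
      push_cast
      have h3 := mul_inv_cancel₀ hd
      rw [div_eq_mul_inv] at h
      generalize ((γ 1 0 : ℂ) * τ + γ 1 1)⁻¹ = y at h h3
      linear_combination ((γ 1 0 : ℂ) * τ + γ 1 1) * h +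
        (z - m * ((γ 0 0 : ℂ) * τ + γ 0 1)) * h3
  have hz : zt N v (γ • τ) = ((γ 1 0 : ℂ) * τ + γ 1 1)⁻¹ * zt N (v ᵥ* (γ : M2)) τ := by
    rw [zt, zt, e, vm0, vm1]
    push_cast
    have h3 := mul_inv_cancel₀ hd
    simp only [div_eq_mul_inv]
    generalize ((γ 1 0 : ℂ) * τ + γ 1 1)⁻¹ = y at h3
    linear_combination (-(v 1 : ℂ) * (N : ℂ)⁻¹) * h3
  rw [Pf, Pf, hz, hom.dwp, inv_inv]
  ring

theorem Pf_slash (N : ℕ) (v : Fin 2 → ℤ) (γ : SL(2, ℤ)) :
    Pf N v ∣[(3 : ℤ)] γ = Pf N (v ᵥ* (γ : M2)) := by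
  funext τ
  have hd : ((γ 1 0 : ℂ) * τ + γ 1 1) ≠ 0 := by
    have := denom_ne_zero (γ : GL (Fin 2) ℝ) τ
    rwa [ModularGroup.denom_apply] at this
  rw [ModularForm.SL_slash_apply, ModularGroup.denom_apply, Pf_smul, _root_.zpow_neg, zpow_ofNat]
  field_simp

theorem Pf_congr {N : ℕ} (hN : 0 < N) {v w : Fin 2 → ℤ} (h : ¬ NZ N (v - w)) :
    Pf N v = Pf N w := by
  funext τ
  rw [Pf, Pf, (isLat τ).dwp_congr (z := zt N v τ) (w := zt N w τ)]
  rw [← zt_sub]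
  exact (zt_mem hN).2 h

theorem Pf_congr' {N : ℕ} (hN : 0 < N) {v w : Fin 2 → ℤ} (h : ¬ NZ N (v + w)) :
    Pf N v = -Pf N w := by
  funext τ
  rw [Pi.neg_apply, Pf, Pf, (isLat τ).dwp_congr' (z := zt N v τ) (w := zt N w τ), mul_neg]
  rw [← zt_add]
  exact (zt_mem hN).2 h

theorem Pf_hol {N : ℕ} (hN : 0 < N) {v : Fin 2 → ℤ} (hv : NZ N v) : Pf N v ∈ Hol :=
  hol_of_hasSum hN (Pf_hasSum hN hv)

theorem Pf_bdd {N : ℕ} (hN : 0 < N) {v : Fin 2 → ℤ} (hv : NZ N v) : Bdd 3 (Pf N v) := by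
  have hr : (0 : ℝ) < N := by exact_mod_cast hN
  refine ⟨Pf_hol hN hv, fun γ => ?_⟩
  rw [Pf_slash]
  exact isBoundedAtImInfty_of_hasSum_qExpansion hr (Pf_hasSum hN (hv.vecMul γ))

/-- no zero for points which are not of order two -/
theorem Pf_ne {N : ℕ} (hN : 0 < N) {v : Fin 2 → ℤ} (hv : NZ N (v + v)) (τ : ℍ) : Pf N v τ ≠ 0 := by
  have h1 : zt N v τ ∉ lat τ := fun h => (zt_mem hN).1 (zt_add N v v τ ▸ add_mem h h) hv
  refine mul_ne_zero (inv_ne_zero (pow_ne_zero _ Complex.two_pi_I_ne_zero)) fun h => ?_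
  have := ((isLat τ).dwp_eq_zero h1).1 h
  rw [two_mul, ← zt_add] at this
  exact (zt_mem hN).1 this hv

theorem half_mem (S : Subring ℂ) (j : ℕ) : ((j : ℂ) ^ 2 - j) / 2 ∈ S ∧ ((j : ℂ) ^ 2 + j) / 2 ∈ S := by
  have h : ((j : ℂ) ^ 2 - j) / 2 = (j.choose 2 : ℕ) := by
    rw [Nat.cast_choose_two]
    ring
  refine ⟨h ▸ natCast_mem S _, ?_⟩
  rw [show ((j : ℂ) ^ 2 + j) / 2 = ((j : ℂ) ^ 2 - j) / 2 + j by ring, h]
  exact S.add_mem (natCast_mem S _) (natCast_mem S _)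

theorem Pc_sub_mem {N : ℕ} (hN : 0 < N) (S : Subring ℂ) (hζ : ze N 1 ∈ S) (hi : (N : ℂ)⁻¹ ∈ S)
    {v : Fin 2 → ℤ} (hv : NZ N v) (k : ℕ) : (Pc N v k - Xc N v k) / 2 ∈ S := by
  have hC : (N : ℂ) ≠ 0 := by exact_mod_cast hN.ne'
  by_cases hk : k = 0
  · rw [Pc, Xc, if_pos hk, if_pos hk]
    split_ifs with h0
    · have h2 : ¬ (N : ℤ) ∣ v 1 := fun h => hv (Fin.forall_fin_two.2 ⟨h0, h⟩)
      have h3 := Ser0Aux.zne hN h2
      have h4 := Ser0Aux.quo (Ser0Aux.zmem hN hζ _) h3 (Ser0Aux.zpowN hN _)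
      have h5 : 1 - ze N (v 1) ≠ 0 := sub_ne_zero.2 h3.symm
      have e : (ze N (v 1) * (1 + ze N (v 1)) / (1 - ze N (v 1)) ^ 3 -
          ze N (v 1) / (1 - ze N (v 1)) ^ 2) / 2 =
          ze N (v 1) ^ 2 * ((N : ℂ)⁻¹ * (N / (1 - ze N (v 1)))) ^ 3 := by
        field_simp
        ring
      rw [e]
      exact S.mul_mem (S.pow_mem (Ser0Aux.zmem hN hζ _) _) (S.pow_mem (S.mul_mem hi h4) _)
    · simpa using S.zero_mem
  · rw [Pc, Xc, if_neg hk, if_neg hk, ← Finset.sum_sub_distrib, Finset.sum_div]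
    refine S.sum_mem fun j _ => ?_
    have h1 := S.mul_mem (half_mem S j).1 (Ser0Aux.zmem hN hζ (v 1 * j))
    have h2 := S.neg_mem (S.mul_mem (half_mem S j).2 (Ser0Aux.zmem hN hζ (-(v 1 * j))))
    have hm : ∀ {x y : ℂ}, x ∈ S → x = y → y ∈ S := fun h e => e ▸ h
    split_ifs
    · exact hm (S.add_mem h1 h2) (by ring)
    · exact hm h1 (by ring)
    · exact hm h2 (by ring)
    · simpa using S.zero_mem

theorem Xc_zero_half (N : ℕ) (S : Subring ℂ) (k : ℕ) : Xc N 0 k / 2 ∈ S := by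
  by_cases hk : k = 0
  · rw [hk, Xc_zero, zero_div]
    exact S.zero_mem
  · rw [Xc, if_neg hk, Finset.sum_div]
    refine S.sum_mem fun j _ => ?_
    simp only [Pi.zero_apply, sub_zero, add_zero, zero_mul, neg_zero]
    split_ifs
    · simpa [ze] using natCast_mem S j
    · simpa using S.zero_mem

/-- `P_v = X_v + 2 Y_v` -/
theorem Ps_int {N : ℕ} (hN : 0 < N) (S : Subring ℂ) (hζ : ze N 1 ∈ S) (hi : (N : ℂ)⁻¹ ∈ S)
    {v : Fin 2 → ℤ} (hv : NZ N v) :
    ∃ Y : PowerSeries S, Ps N v = Xt N v + 2 * Y.map S.subtype := by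
  refine ⟨PowerSeries.mk fun k => ⟨(Pc N v k - Xc N v k) / 2 + Xc N 0 k / 2,
    S.add_mem (Pc_sub_mem hN S hζ hi hv k) (Xc_zero_half N S k)⟩, ?_⟩
  ext k
  rw [two_mul, map_add, map_add, PowerSeries.coeff_map, PowerSeries.coeff_mk, Ps, Xt,
    PowerSeries.coeff_mk, PowerSeries.coeff_mk, Subring.subtype_apply]
  ring

theorem Xt_int {N : ℕ} (hN : 0 < N) (S : Subring ℂ) (hζ : ze N 1 ∈ S) (hi : (N : ℂ)⁻¹ ∈ S)
    {v : Fin 2 → ℤ} (hv : NZ N v) : ∃ X : PowerSeries S, X.map S.subtype = Xt N v := by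
  have hC : (N : ℂ) ≠ 0 := by exact_mod_cast hN.ne'
  have h : ∀ k, Xc N v k - Xc N 0 k ∈ S := by
    intro k
    refine S.sub_mem ?_ ?_
    · by_cases hk : k = 0
      · rw [Xc, if_pos hk]
        split_ifs with h0
        · have h2 : ¬ (N : ℤ) ∣ v 1 := fun h => hv (Fin.forall_fin_two.2 ⟨h0, h⟩)
          have h3 := Ser0Aux.zne hN h2
          have h4 := Ser0Aux.quo (Ser0Aux.zmem hN hζ _) h3 (Ser0Aux.zpowN hN _)
          have h5 : 1 - ze N (v 1) ≠ 0 := sub_ne_zero.2 h3.symm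
          have e : ze N (v 1) / (1 - ze N (v 1)) ^ 2 =
              ze N (v 1) * ((N : ℂ)⁻¹ * (N / (1 - ze N (v 1)))) ^ 2 := by
            field_simp
          rw [e]
          exact S.mul_mem (Ser0Aux.zmem hN hζ _) (S.pow_mem (S.mul_mem hi h4) _)
        · exact S.zero_mem
      · exact Ser0Aux.Xc_mem hN hζ v hk
    · rw [show Xc N 0 k = Xc N 0 k / 2 + Xc N 0 k / 2 by ring]
      exact S.add_mem (Xc_zero_half N S k) (Xc_zero_half N S k)
  refine ⟨PowerSeries.mk fun k => ⟨_, h k⟩, ?_⟩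
  ext k
  rw [PowerSeries.coeff_map, PowerSeries.coeff_mk, Xt, PowerSeries.coeff_mk, Subring.subtype_apply]

/-- `P_v ≡ G_v` modulo two -/
theorem Ps_sub_Gs {N : ℕ} (hN : 0 < N) (S : Subring ℂ) (hζ : ze N 1 ∈ S) (hi : (N : ℂ)⁻¹ ∈ S)
    {v : Fin 2 → ℤ} (hv : NZ N v) :
    ∃ T : PowerSeries S, Ps N v = Gs N v + 2 * T.map S.subtype := by
  obtain ⟨Y, hY⟩ := Ps_int hN S hζ hi hv
  obtain ⟨X, hX⟩ := Xt_int hN S hζ hi hv
  have hs : (PowerSeries.mk fun k => if N ∣ k then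
      (ArithmeticFunction.sigma 3 (k / N) : S) else 0).map S.subtype = s3 N := by
    ext k
    simp only [s3, PowerSeries.coeff_map, PowerSeries.coeff_mk]
    split_ifs <;> simp
  refine ⟨Y - (3 * X ^ 2 - 5 * PowerSeries.mk fun k => if N ∣ k then
      (ArithmeticFunction.sigma 3 (k / N) : S) else 0), ?_⟩
  simp only [map_sub, map_mul, map_pow, map_ofNat, hX, hs, hY, Gs]
  ring

end Vale.Agent.P022D.Th
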