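import Vale.Agent.P022D.Th.Spec
import Vale.Agent.P022D.Th.P3
import Vale.Agent.P022D.V.TrY

/-!
# P022D, block TH: separating rational tuples
-/

set_option autoImplicit false
set_option linter.all false

open UpperHalfPlane hiding I
open Matrix Filter Topology Function.Periodic
open scoped MatrixGroups Manifold ModularForm

noncomputable section

namespace Vale.Agent.P022D.Th

open Vale.Agent.P022 Vale.Agent.P022.H218.L3 Vale.Agent.P022.H236.L3 Vale.Agent.P022.H542.L3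
  Vale.Agent.P027M.M Vale.Agent.P022D.V Vale.Agent.P022D.V.Tr

namespace Genq

variable {M : ℕ}

theorem map_ze (σ : ℂ ≃+* ℂ) {m : ℕ} (h : σ (ze M 1) = ze M 1 ^ m) (b : ℤ) :
    (σ : ℂ →+* ℂ) (ze M b) = ze M (m * b) := by
  rw [ze_zpow M b, ze_zpow M (m * b), map_zpow₀, RingEquiv.coe_toRingHom, h, ← zpow_natCast,
    ← _root_.zpow_mul]

theorem map_Ps (σ : ℂ ≃+* ℂ) {m : ℕ} (h : σ (ze M 1) = ze M 1 ^ m) (a : Fin 2 → ℤ) :
    (Ps M a).map (σ : ℂ →+* ℂ) = Ps M ![a 0, m * a 1] := by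
  have e := map_ze σ h
  ext k
  rw [PowerSeries.coeff_map, Ps, Ps, PowerSeries.coeff_mk, PowerSeries.coeff_mk]
  simp only [Pc, apply_ite (σ : ℂ →+* ℂ), map_sum, map_add, map_mul, map_natCast, map_div₀, map_pow,
    map_sub, map_one, map_zero, map_neg, e, Matrix.cons_val_zero, Matrix.cons_val_one, mul_neg,
    mul_assoc]
  rfl

theorem map_Xc (σ : ℂ ≃+* ℂ) {m : ℕ} (h : σ (ze M 1) = ze M 1 ^ m) (a : Fin 2 → ℤ) (k : ℕ) :
    (σ : ℂ →+* ℂ) (Xc M a k) = Xc M ![a 0, m * a 1] k := by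
  have e := map_ze σ h
  simp only [Xc, apply_ite (σ : ℂ →+* ℂ), map_sum, map_add, map_mul, map_natCast, map_div₀, map_pow,
    map_sub, map_one, map_zero, map_neg, e, Matrix.cons_val_zero, Matrix.cons_val_one, mul_neg,
    mul_assoc]
  rfl

theorem map_Xt (σ : ℂ ≃+* ℂ) {m : ℕ} (h : σ (ze M 1) = ze M 1 ^ m) (a : Fin 2 → ℤ) :
    (Xt M a).map (σ : ℂ →+* ℂ) = Xt M ![a 0, m * a 1] := by
  have e : (![(0 : Fin 2 → ℤ) 0, m * (0 : Fin 2 → ℤ) 1] : Fin 2 → ℤ) = 0 := by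
    funext i
    fin_cases i <;> simp
  ext k
  rw [PowerSeries.coeff_map, Xt, Xt, PowerSeries.coeff_mk, PowerSeries.coeff_mk, map_sub,
    map_Xc σ h, map_Xc σ h, e]

variable [NeZero M]

theorem Pf_cs {a b : Fin 2 → ℤ} (h : cs M a = cs M b) : Pf M a = Pf M b := by
  refine Pf_congr (NeZero.pos M) ?_
  rw [nz_iff, not_not]
  funext i
  simpa [cs, sub_eq_zero] using congrFun h i

theorem cs_dg (u : Fin 2 → ZMod M) (a : (ZMod M)ˣ) :
    cs M ![lf (vg u (dg 1 a)) 0, ((a : ZMod M).val : ℤ) * lf (vg u (dg 1 a)) 1] = cs M (lf u) := by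
  have e : ((dg 1 a)⁻¹ : GM M) = dg 1 a⁻¹ := by
    rw [inv_eq_iff_mul_eq_one, dg_mul, mul_one, mul_inv_cancel, dg_one]
  rw [cs_lf, vg, e, V.dg_coe]
  funext i
  fin_cases i <;> simp [cs, lf, Matrix.vecMul, dotProduct, mul_comm (u 1), ← mul_assoc]

theorem cs_rd (v : Fin 2 → ZMod M) (γ : SL(2, ℤ)) (g : GM M) :
    cs M (lf (vg v (rd M γ * g)) ᵥ* (γ : M2)) = cs M (lf (vg v g)) := by
  rw [cs_mul, cs_lf, cs_lf, vg_mul, vg, Matrix.vecMul_vecMul, Units.inv_mul, Matrix.vecMul_one]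

/-- the weight two tuple -/
def th (v : Fin 2 → ZMod M) : FT M ℂ := fun g => 1 + 12 * Xt M (lf (vg v g))

/-- the weight three tuple -/
def pt (v : Fin 2 → ZMod M) : FT M ℂ := fun g => Ps M (lf (vg v g))

theorem th_mem {v : Fin 2 → ZMod M} (hv : v ≠ 0) : th v ∈ XC M 2 := by
  refine ⟨fun g => (12 : ℂ) • xv M (lf (vg v g)), ⟨fun g => ⟨?_, fun γ => ?_⟩, fun γ g => ?_⟩,
    fun g => hs_Y (nz_lf (vg_ne hv g))⟩
  · exact hol_of_hasSum (NeZero.pos M) (hs_Y (nz_lf (vg_ne hv g)))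
  · rw [ModularForm.SL_smul_slash, Nat.cast_ofNat, xv_slash]
    exact hs_bdd (NeZero.pos M) (hs_Y ((nz_lf (vg_ne hv g)).vecMul γ))
  · rw [ModularForm.SL_smul_slash, Nat.cast_ofNat, xv_slash, xv_cs (cs_rd v γ g)]

theorem th_pq {v : Fin 2 → ZMod M} (hv : v ≠ 0) : th v ∈ PQ M := by
  intro σ a ha
  funext g
  have h2 := vg_ne hv g
  rw [cj, th, th, map_add, map_mul, map_one, map_ofNat, map_Xt σ ha, vg_mul]
  generalize vg v g = u at h2
  refine hs_unique (NeZero.pos M) (hs_Y ?_) ((xv_cs (cs_dg u a)).symm ▸ hs_Y (nz_lf h2))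
  rwa [nz_iff, cs_dg, cs_lf]

theorem th_nv {v : Fin 2 → ZMod M} {h : GM M} (hv : v ≠ 0) (h1 : vg v h ≠ v) (h2 : vg v h ≠ -v) :
    NVC (rt ℂ ℂ h (th v) - th v) := by
  intro g
  have a1 := nz_lf (vg_ne (vg_ne hv h) g)
  have a2 := nz_lf (vg_ne hv g)
  refine ⟨fun τ => 12 * Wf M (lf (vg (vg v h) g)) (lf (vg v g)) τ, fun τ => ?_,
    fun τ => mul_ne_zero (by norm_num) (Wf_ne (NeZero.pos M) a1 a2 ?_ ?_ τ)⟩
  · have e : ∀ τ, 12 * Wf M (lf (vg (vg v h) g)) (lf (vg v g)) τ =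
        ((12 : ℂ) • xv M (lf (vg (vg v h) g))) τ - ((12 : ℂ) • xv M (lf (vg v g))) τ := fun τ => by
      rw [Wf, Pi.smul_apply, Pi.smul_apply, smul_eq_mul, smul_eq_mul, mul_sub]
    rw [Pi.sub_apply, rt_apply, th, th, vg_mul]
    show HasSum _ (12 * Wf M (lf (vg (vg v h) g)) (lf (vg v g)) τ)
    rw [e]
    refine ((hs_Y a1 τ).sub (hs_Y a2 τ)).congr_fun fun n => ?_
    rw [map_sub, sub_mul]
  · rw [NZ_iff, red_sub, red_lf, red_lf, sub_ne_zero]
    exact fun e => h1 (vg_inj g (pr_inj e))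
  · rw [NZ_iff, red_add, red_lf, red_lf, Ne, add_eq_zero_iff_eq_neg]
    exact fun e => h2 (vg_inj g ((pr_inj (v := -vg v g) e).trans (vg_neg v g).symm))

theorem pt_mem {v : Fin 2 → ZMod M} (hv : v ≠ 0) : pt v ∈ XC M 3 := by
  refine ⟨fun g => Pf M (lf (vg v g)), ⟨fun g => Pf_bdd (NeZero.pos M) (nz_lf (vg_ne hv g)),
    fun γ g => ?_⟩, fun g => Pf_hasSum (NeZero.pos M) (nz_lf (vg_ne hv g))⟩
  rw [Nat.cast_ofNat, Pf_slash]
  exact Pf_cs (cs_rd v γ g)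

theorem pt_pq {v : Fin 2 → ZMod M} (hv : v ≠ 0) : pt v ∈ PQ M := by
  intro σ a ha
  funext g
  have h2 := vg_ne hv g
  rw [cj, pt, pt, map_Ps σ ha, vg_mul]
  generalize vg v g = u at h2
  refine hs_unique (NeZero.pos M) (Pf_hasSum (NeZero.pos M) ?_)
    ((Pf_cs (cs_dg u a)).symm ▸ Pf_hasSum (NeZero.pos M) (nz_lf h2))
  rwa [nz_iff, cs_dg, cs_lf]

theorem pt_nv {v : Fin 2 → ZMod M} (hv : v ≠ 0) (h2 : v ≠ -v) : NVC (pt v) := by
  intro g
  refine ⟨Pf M (lf (vg v g)), Pf_hasSum (NeZero.pos M) (nz_lf (vg_ne hv g)),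
    Pf_ne (NeZero.pos M) ?_⟩
  rw [NZ_iff, red_add, red_lf, Ne, add_eq_zero_iff_eq_neg]
  exact fun e => h2 (vg_inj g ((pr_inj (v := -vg v g) e).trans (vg_neg v g).symm))

omit [NeZero M] in
theorem moved {h : GM M} (h1 : h ≠ 1) (h2 : h ≠ dg (-1) (-1)) :
    ∃ v : Fin 2 → ZMod M, v ≠ 0 ∧ vg v h ≠ v ∧ vg v h ≠ -v := by
  have key : ∀ B B' : Matrix (Fin 2) (Fin 2) (ZMod M), (∀ v, v ᵥ* B = v ᵥ* B') → B = B' := by
    intro B B' hB
    ext i j
    have := congrFun (hB (Pi.single i 1)) j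
    rwa [Matrix.single_one_vecMul, Matrix.single_one_vecMul] at this
  have k1 : ∃ v : Fin 2 → ZMod M, vg v h ≠ v := by
    by_contra hc
    apply h1
    rw [← inv_eq_one]
    refine Units.ext (key _ _ fun v => ?_)
    rw [Units.val_one, Matrix.vecMul_one]
    exact not_not.1 fun e => hc ⟨v, e⟩
  have k2 : ∃ v : Fin 2 → ZMod M, vg v h ≠ -v := by
    by_contra hc
    apply h2
    have e : (dg (-1) (-1) : GM M) * dg (-1) (-1) = 1 := by
      rw [dg_mul, neg_mul_neg, mul_one, dg_one]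
    rw [← _root_.inv_inj, inv_eq_of_mul_eq_one_right e]
    refine Units.ext (key _ _ fun v => ?_)
    have e2 : v ᵥ* ((dg (-1) (-1) : GM M) : Matrix (Fin 2) (Fin 2) (ZMod M)) = -v := by
      rw [V.dg_coe]
      funext i
      fin_cases i <;> simp [Matrix.vecMul, dotProduct]
    rw [e2]
    exact not_not.1 fun e => hc ⟨v, e⟩
  have hz : vg (0 : Fin 2 → ZMod M) h = 0 := Matrix.zero_vecMul _
  have hadd : ∀ v w : Fin 2 → ZMod M, vg (v + w) h = vg v h + vg w h := fun v w =>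
    Matrix.add_vecMul _ _ _
  obtain ⟨v, hv, hw⟩ : ∃ v : Fin 2 → ZMod M, vg v h ≠ v ∧ vg v h ≠ -v := by
    obtain ⟨v, hv⟩ := k1
    obtain ⟨w, hw⟩ := k2
    by_cases a : vg v h = -v
    · by_cases b : vg w h = w
      · refine ⟨v + w, fun e => hv ?_, fun e => hw ?_⟩
        · rw [hadd, b] at e
          exact add_right_cancel e
        · rw [hadd, a, neg_add] at e
          exact add_left_cancel e
      · exact ⟨w, b, hw⟩
    · exact ⟨v, hv, a⟩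
  exact ⟨v, fun e => hv (by rw [e, hz]), hv, hw⟩

end Genq

theorem genq : GENQ := by
  intro M hM h3
  haveI : NeZero M := ⟨by omega⟩
  haveI : Fact (1 < M) := ⟨by omega⟩
  refine ⟨fun h h1 h2 => ?_, ?_⟩
  · obtain ⟨v, hv, k1, k2⟩ := Genq.moved h1 h2
    exact ⟨Genq.th v, Genq.th_mem hv, Genq.th_pq hv, Genq.th_nv hv k1 k2⟩
  · have v0 : (![1, 0] : Fin 2 → ZMod M) ≠ 0 := fun e => by simpa using congrFun e 0
    refine ⟨Genq.pt ![1, 0], Genq.pt_mem v0, Genq.pt_pq v0, Genq.pt_nv v0 fun e => ?_⟩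
    have e1 : (1 : ZMod M) = -1 := by simpa using congrFun e 0
    have e2 : ((2 : ℕ) : ZMod M) = 0 := by
      push_cast
      linear_combination e1
    have e3 := Nat.le_of_dvd two_pos ((ZMod.natCast_eq_zero_iff 2 M).1 e2)
    omega

end Vale.Agent.P022D.Th
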