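import Vale.Agent.P022D.Th.Spec

/-!
# P022D, block TH: the forms with rational 2-integral systems of coefficients span
-/

set_option linter.all false

open UpperHalfPlane hiding I
open Matrix
open scoped MatrixGroups ModularForm

noncomputable section

namespace Vale.Agent.P022D.Th

open Vale.Agent.P022 Vale.Agent.P027M.M Vale.Agent.P022D.V

namespace Latc

theorem dic_coeff {M N₀ i : ℕ} (hM : 0 < M) {s : FT M ℂ} {c : ℕ → ℕ → ℂ} (h : Dic 1 N₀ i s c)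
    (a b : (ZMod M)ˣ) {δ : ℕ} (hδ : Nat.Coprime δ (2 * N₀))
    (ha : Cg M N₀ (a : ZMod M) (δ : ZMod M)) (n : ℕ) :
    c n δ = (δ : ℂ) ^ i * (s (dg a b)).coeff (M * n) := by
  have := congrArg (PowerSeries.coeff (M * n)) (h a b δ hδ ha)
  rw [PowerSeries.coeff_smul, smul_eq_mul, Nat.div_one, Vo, PowerSeries.coeff_mk,
    if_pos (dvd_mul_right _ _), Nat.mul_div_cancel_left _ hM, PowerSeries.coeff_mk] at this
  exact this.symm

theorem ex_unit {M N₀ δ : ℕ} [NeZero M] (h : N₀ ∣ M) (hδ : Nat.Coprime δ N₀) :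
    ∃ a : (ZMod M)ˣ, Cg M N₀ (a : ZMod M) (δ : ZMod M) := by
  obtain ⟨a, ha⟩ := ZMod.unitsMap_surjective h (ZMod.unitOfCoprime δ hδ)
  have e := congrArg Units.val ha
  rw [ZMod.unitsMap_def, Units.coe_map, ZMod.coe_unitOfCoprime,
    ← ZMod.natCast_zmod_val (a : ZMod M)] at e
  have e2 : (((a : ZMod M).val : ℕ) : ZMod N₀) = δ :=
    (map_natCast (ZMod.castHom h (ZMod N₀)) _).symm.trans e
  obtain ⟨t, ht⟩ := Nat.modEq_iff_dvd.1 ((ZMod.natCast_eq_natCast_iff _ _ _).1 e2.symm)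
  refine ⟨a, t, ?_⟩
  have := congrArg (Int.cast : ℤ → ZMod M) ht
  push_cast at this
  rw [ZMod.natCast_zmod_val] at this
  exact eq_add_of_sub_eq' this

/-- the form `f` has the expansion read off from `s` -/
def Rd (M N₀ i : ℕ) (s : FT M ℂ) (f : MF N₀ (i + 1)) : Prop :=
  H353.Hs ((f : ℍ → ℂ) ∣[((i + 1 : ℕ) : ℤ)] gd N₀ 1 (Nat.coprime_one_left _))
    fun n => (s (dg 1 1)).coeff (M * n)

theorem rd_of {M N₀ i : ℕ} (hM : 0 < M) {s : FT M ℂ} {c : ℕ → ℕ → ℂ} {f : MF N₀ (i + 1)}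
    (h : Dic 1 N₀ i s c) (hf : H353.Rep N₀ i f c) : Rd M N₀ i s f :=
  (hf 1 (Nat.coprime_one_left _)).congr (fun τ => by simp) fun n => by
    rw [dic_coeff hM h 1 1 (Nat.coprime_one_left _) ⟨0, by simp⟩ n]
    simp

theorem rd_inj {M N₀ i : ℕ} {s : FT M ℂ} {f f' : MF N₀ (i + 1)} (h : Rd M N₀ i s f)
    (h' : Rd M N₀ i s f') : f = f' := by
  have e := congrArg (fun F => F ∣[((i + 1 : ℕ) : ℤ)] (gd N₀ 1 (Nat.coprime_one_left _))⁻¹)
    (funext fun τ => (h τ).unique (h' τ))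
  simp only [← SlashAction.slash_mul, mul_inv_cancel, SlashAction.slash_one] at e
  exact DFunLike.coe_injective e

theorem rd_smul {M N₀ i : ℕ} {s : FT M ℂ} {f : MF N₀ (i + 1)} (z : ℂ) (h : Rd M N₀ i s f) :
    Rd M N₀ i (z • s) (z • f) :=
  (H353.Hs.smul z h).congr (fun τ => by
    rw [FunLike.coe_smul, ModularForm.SL_smul_slash]
    rfl) fun n => by rw [Pi.smul_apply, PowerSeries.coeff_smul, smul_eq_mul]

theorem rd_add {M N₀ i : ℕ} {s s' : FT M ℂ} {f f' : MF N₀ (i + 1)} (h : Rd M N₀ i s f)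
    (h' : Rd M N₀ i s' f') : Rd M N₀ i (s + s') (f + f') :=
  (H353.Hs.add h h').congr (fun τ => by
    rw [FunLike.coe_add, SlashAction.add_slash]
    rfl) fun n => by rw [Pi.add_apply, map_add]

theorem rd_zero {M N₀ i : ℕ} : Rd M N₀ i 0 0 :=
  H353.Hs.zero.congr (fun τ => by
    rw [ModularForm.coe_zero, SlashAction.zero_slash]
    rfl) fun n => by simp

end Latc

open Latc in
theorem latc (hB : BASQ) (hA : AUT) (hT : TUP) (hK : BACK) (O : Type) [CommRing O] [Co O]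
    (hD : BD O) : LATC := by
  classical
  intro N₀ i _ hN
  have N0 := NeZero.pos N₀
  have hM : Odd (3 * N₀) := (by decide : Odd 3).mul hN
  have M0 : 0 < 3 * N₀ := hM.pos
  haveI : NeZero (3 * N₀) := ⟨M0.ne'⟩
  have dM : N₀ ∣ 3 * N₀ := dvd_mul_left _ _
  obtain ⟨b1, b2⟩ := hB (3 * N₀) (i + 1) hM (by omega)
  obtain ⟨d1, -, -, -, d5⟩ := hD (3 * N₀) (i + 1) hM
  obtain ⟨t, t1, t2⟩ := b2 (XC (3 * N₀) (i + 1) ⊓ Iv ℂ ℂ (H0 (3 * N₀) 1 N₀)) inf_le_left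
    fun σ a ha s hs => ⟨b1 σ a ha s hs.1, fun h hh => by
      funext g
      have e := congrFun (hs.2 h hh) (dg 1 a * g)
      rw [one_smul, rt_apply, mul_assoc] at e
      rw [one_smul, rt_apply, cj, cj, e]⟩
  have key : ∀ y : FT (3 * N₀) ℂ, ∃ f : MF N₀ (i + 1), y ∈ t → (∃ z : ℂ, Rd _ N₀ i y (z • f)) ∧
      ∃ c : ℕ → ℕ → ℚ, H353.Rep N₀ i f (fun n δ => (c n δ : ℂ)) ∧ ∀ n δ, Odd (c n δ).den := by
    intro y
    by_cases hy : y ∈ t
    swap
    · exact ⟨0, fun h => (hy h).elim⟩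
    obtain ⟨y1, y2⟩ := t1 y hy
    obtain ⟨m, hm⟩ := d1 y y1.1
    obtain ⟨f, c, r1, r2⟩ := hK (3 * N₀) N₀ i M0 dM _ (Submodule.smul_mem _ ((2 : ℂ) ^ m) y1)
    refine ⟨f, fun _ => ⟨⟨((2 : ℂ) ^ m)⁻¹, ?_⟩, ?_⟩⟩
    · have := rd_smul ((2 : ℂ) ^ m)⁻¹ (rd_of M0 r2 r1)
      rwa [inv_smul_smul₀ (pow_ne_zero _ two_ne_zero)] at this
    have k : ∀ n δ, ∃ x : ℚ, (Nat.Coprime δ (2 * N₀) → (x : ℂ) = c n δ) ∧ Odd x.den := by
      intro n δ
      by_cases hδ : Nat.Coprime δ (2 * N₀)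
      swap
      · exact ⟨0, fun h => (hδ h).elim, by simp⟩
      obtain ⟨a, ha⟩ := ex_unit dM (hδ.coprime_dvd_right (dvd_mul_left _ _))
      have e := fun b => dic_coeff M0 r2 a b hδ ha n
      simp only [Pi.smul_apply, PowerSeries.coeff_smul, smul_eq_mul] at e
      obtain ⟨x, hx⟩ := hA.1 (c n δ) fun σ => by
        obtain ⟨a₁, h₁⟩ := hA.2 (3 * N₀) σ M0
        have e2 := congrArg (PowerSeries.coeff (3 * N₀ * n)) (congrFun (y2 σ a₁ h₁) (dg a 1))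
        rw [cj, dg_mul, one_mul, mul_one, PowerSeries.coeff_map] at e2
        rw [e a₁, map_mul, map_mul, map_pow, map_pow, map_natCast, map_ofNat, ← e a₁, e 1, ← e2]
        rfl
      refine ⟨x, fun _ => hx, d5 x ?_⟩
      rw [hx, e 1]
      exact mul_mem (pow_mem (natCast_mem _ δ) i) (hm _ _)
    choose x x1 x2 using k
    exact ⟨x, fun δ hδ => (r1 δ hδ).congr (fun _ => rfl) fun n => x1 n δ hδ, x2⟩
  choose F hF using key
  refine ⟨t.image F, eq_top_iff.2 fun f _ => ?_, fun f hf => ?_⟩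
  · obtain ⟨c, hc⟩ := H353.exists_rep f
    obtain ⟨s, s1, s2⟩ := hT (3 * N₀) 1 N₀ i M0 (one_dvd _) dM f c hc
    have k : ∀ s ∈ Submodule.span ℂ (t : Set (FT (3 * N₀) ℂ)),
        ∃ f' ∈ Submodule.span ℂ ((t.image F : Finset _) : Set (MF N₀ (i + 1))), Rd _ N₀ i s f' := by
      intro s hs
      induction hs using Submodule.span_induction with
      | mem y hy =>
        obtain ⟨z, hz⟩ := (hF y hy).1
        exact ⟨_, Submodule.smul_mem _ z (Submodule.subset_span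
          (Finset.mem_coe.2 (Finset.mem_image_of_mem F hy))), hz⟩
      | zero => exact ⟨0, zero_mem _, rd_zero⟩
      | add a b _ _ ha hb =>
        obtain ⟨f1, m1, r1⟩ := ha
        obtain ⟨f2, m2, r2⟩ := hb
        exact ⟨_, add_mem m1 m2, rd_add r1 r2⟩
      | smul z a _ ha =>
        obtain ⟨f1, m1, r1⟩ := ha
        exact ⟨_, Submodule.smul_mem _ z m1, rd_smul z r1⟩
    obtain ⟨f', m, r⟩ := k s (t2 s1)
    rwa [rd_inj (rd_of M0 s2 hc) r]
  · obtain ⟨y, hy, rfl⟩ := Finset.mem_image.1 hf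
    exact (hF y hy).2

end Vale.Agent.P022D.Th
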