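import Vale.Agent.P022D.Th.Spec
import Vale.Agent.P022D.V.TrL
import Vale.Agent.P022D.Pur.St1
import Vale.Agent.P022.H218.L3.Deg

/-!
# P022D, block TH: forms of level one are spanned by finitely many integral ones
-/

set_option linter.all false

open UpperHalfPlane hiding I
open scoped MatrixGroups ModularForm

noncomputable section

namespace Vale.Agent.P022D.Th

open Vale.Agent.P022 Vale.Agent.P022D.V Vale.Agent.P022.H218.L3 Vale.Agent.P022D.V.Tr

theorem span_one (n : ℕ) : ∀ k : ℤ, k < 12 * n → ∃ T : Finset (PowerSeries ℤ),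
    (∀ Z ∈ T, ∃ f, IsMF ⊤ k f ∧ HS 1 (H790.A.toC Z) f) ∧ ∀ f : ModularForm 𝒮ℒ k,
      qExpansion 1 f ∈ Submodule.span ℂ (H790.A.toC '' (T : Set (PowerSeries ℤ))) := by
  classical
  have hz : ∀ k : ℤ, (∀ f : ModularForm 𝒮ℒ k, (f : ℍ → ℂ) = 0) → ∃ T : Finset (PowerSeries ℤ),
      (∀ Z ∈ T, ∃ f, IsMF ⊤ k f ∧ HS 1 (H790.A.toC Z) f) ∧ ∀ f : ModularForm 𝒮ℒ k,
        qExpansion 1 f ∈ Submodule.span ℂ (H790.A.toC '' (T : Set (PowerSeries ℤ))) :=
    fun k h => ⟨∅, by simp, fun f => by rw [h f, qExpansion_zero]; exact zero_mem _⟩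
  induction n with
  | zero =>
    intro k hk
    exact hz k fun f => ModularFormClass.levelOne_neg_weight_eq_zero (by simpa using hk) f
  | succ n ih =>
    intro k hk
    by_cases h0 : k < 0
    · exact hz k fun f => ModularFormClass.levelOne_neg_weight_eq_zero h0 f
    by_cases h1 : Odd k
    · exact hz k fun f => by rw [ModularForm.levelOne_odd_weight_eq_zero h1 f]; rfl
    by_cases h2 : k = 2
    · subst h2
      exact hz 2 fun f => by
        rw [rank_zero_iff_forall_zero.1 ModularForm.levelOne_weight_two_rank_zero f]; rfl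
    obtain ⟨E, Z, hE, hZ⟩ := Pur.exists_eis (not_lt.1 h0) h2 (Int.not_odd_iff_even.1 h1)
    obtain ⟨T, hT, sp⟩ := ih (k - 12) (by push_cast at hk; omega)
    have hΔ := H790.A.qExp_disc
    rw [CuspForm.coe_discriminant] at hΔ
    refine ⟨insert Z (T.image (H790.A.DZ * ·)), fun Y hY => ?_, fun f => ?_⟩
    · rcases Finset.mem_insert.1 hY with rfl | hY
      · exact ⟨E, isMF_top E, hE ▸ hs_top (isMF_top E)⟩
      · obtain ⟨W, hW, rfl⟩ := Finset.mem_image.1 hY
        obtain ⟨g, g1, g2⟩ := hT W hW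
        have m := isMF_disc.mul g1
        rw [add_sub_cancel] at m
        exact ⟨_, m, by rw [map_mul, ← hΔ]; exact hs_mul (hs_top isMF_disc) g2⟩
    · set a := (qExpansion 1 f).coeff 0 with ha
      have hq : qExpansion 1 (f - a • E : ModularForm 𝒮ℒ k) =
          qExpansion 1 f - a • H790.A.toC Z := by
        rw [FunLike.coe_sub, ModularForm.qExpansion_sub one_pos one_mem_strictPeriods_SL,
          FunLike.coe_smul, ModularForm.qExpansion_smul one_pos one_mem_strictPeriods_SL, hE]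
      have hcusp : (qExpansion 1 (f - a • E : ModularForm 𝒮ℒ k)).coeff 0 = 0 := by
        rw [hq, map_sub, PowerSeries.coeff_smul, H790.A.toC, PowerSeries.coeff_map, hZ, map_one,
          smul_eq_mul, mul_one, sub_self]
      have hm := ModularForm.qExpansion_eq_qExpansion_discriminant_mul _ hcusp
      rw [hq, hΔ, sub_eq_iff_eq_add] at hm
      rw [hm]
      refine add_mem ?_ (Submodule.smul_mem _ _ (Submodule.subset_span ⟨Z, by simp, rfl⟩))
      have h3 := Submodule.mem_map_of_mem (f := LinearMap.mulLeft ℂ (H790.A.toC H790.A.DZ))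
        (sp (CuspForm.discriminantEquiv (ModularForm.toCuspForm _ hcusp)))
      rw [Submodule.map_span] at h3
      refine Submodule.span_mono ?_ h3
      rintro _ ⟨_, ⟨W, hW, rfl⟩, rfl⟩
      exact ⟨H790.A.DZ * W, by
        simp only [Finset.coe_insert, Finset.coe_image]
        exact Or.inr ⟨W, hW, rfl⟩, map_mul _ _ _⟩

/-- constant tuples -/
def ctL (M : ℕ) : PowerSeries ℂ →ₗ[ℂ] FT M ℂ where
  toFun := ct M
  map_add' s t := by
    ext g n
    simp only [ct, Vo, Pi.add_apply, PowerSeries.coeff_mk, map_add]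
    split_ifs <;> simp
  map_smul' c s := by
    ext g n
    simp only [ct, Vo, Pi.smul_apply, PowerSeries.coeff_mk, PowerSeries.coeff_smul,
      RingHom.id_apply]
    split_ifs <;> simp

theorem lv1 : LV1 := by
  classical
  intro M k hM
  obtain ⟨T, hT, sp⟩ := span_one (k + 1) k (by push_cast; omega)
  refine ⟨T.image fun Z => ct M (H790.A.toC Z), fun y hy => ?_, fun s hs hi => ?_⟩
  · obtain ⟨Z, hZ, rfl⟩ := Finset.mem_image.1 hy
    obtain ⟨f, hf, h⟩ := hT Z hZ
    refine ⟨⟨fun _ => f, ⟨fun _ => hf.toBdd, fun γ _ => hf.slash γ trivial⟩,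
      fun _ => hs_up hM h⟩, fun σ a _ => funext fun g => ?_⟩
    rw [cj, ct, ct, map_Vo, H790.A.toC, map_int]
  · obtain ⟨F, k1, k2⟩ := hs
    have h3 : ∀ g, s g = s 1 := fun g => by
      have := congrFun (hi g) 1
      rwa [rt_apply, one_mul] at this
    have h5 : ∀ g, F g = F 1 := fun g => hs_fun (k2 g) (by rw [h3]; exact k2 1)
    have h6 : IsMF ⊤ k (F 1) := (k1.bdd 1).isMF fun γ _ => by
      have := k1.eqv γ 1
      rwa [h5] at this
    have h7 := hs_unique hM (k2 1) (hs_up hM (hs_top h6))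
    have h8 : s = ctL M (qExpansion 1 (toMF1 h6)) := funext fun g => (h3 g).trans h7
    have h9 := Submodule.mem_map_of_mem (f := ctL M) (sp (toMF1 h6))
    rw [Submodule.map_span, ← h8] at h9
    refine Submodule.span_mono ?_ h9
    rintro _ ⟨_, ⟨W, hW, rfl⟩, rfl⟩
    rw [Finset.coe_image]
    exact ⟨W, hW, rfl⟩

end Vale.Agent.P022D.Th
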