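import Vale.Agent.P022D.Th.Spec

/-!
# P022D, block TH: interpolation (row SEPX)
-/

set_option linter.all false

noncomputable section

namespace Vale.Agent.P022D.Th

open Vale.Agent.P022D.V Finset

namespace Sepx

/-- the rational tuples form a ring -/
def PR (M : ℕ) : Subring (FT M ℂ) where
  carrier := PQ M
  mul_mem' {s t} hs ht σ a h := funext fun g =>
    (map_mul (PowerSeries.map _) _ _).trans (congrArg₂ (· * ·) (congrFun (hs σ a h) g)
      (congrFun (ht σ a h) g))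
  one_mem' σ a h := funext fun g => map_one (PowerSeries.map _)
  add_mem' {s t} hs ht σ a h := funext fun g =>
    (map_add (PowerSeries.map _) _ _).trans (congrArg₂ (· + ·) (congrFun (hs σ a h) g)
      (congrFun (ht σ a h) g))
  zero_mem' σ a h := funext fun g => map_zero (PowerSeries.map _)
  neg_mem' {s} hs σ a h := funext fun g =>
    (map_neg (PowerSeries.map _) _).trans (congrArg (-·) (congrFun (hs σ a h) g))

theorem pq_rt {M : ℕ} (h : GM M) {s : FT M ℂ} (hs : s ∈ PR M) : rt ℂ ℂ h s ∈ PR M :=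
  fun σ a e => funext fun g => by
    have := congrFun (hs σ a e) (g * h)
    rw [cj, ← mul_assoc] at this
    exact this

variable {M : ℕ} [NeZero M]

theorem ind (B : XB M) (h1 : LV1) (θ : GM M → FT M ℂ) (hθ : ∀ h, θ h ∈ XC M 2 ∧ θ h ∈ PR M)
    (S : Finset (GM M)) : ∀ k, ∃ t : Finset (FT M ℂ),
    (∀ y ∈ t, y ∈ XC M (k + 2 * S.card) ∧ y ∈ PQ M) ∧ ∀ x ∈ XC M k,
      ∑ g, rt ℂ ℂ g x * ∏ h ∈ S, (rt ℂ ℂ h (θ h) - rt ℂ ℂ g (θ h)) ∈
        Submodule.span ℂ (t : Set (FT M ℂ)) := by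
  classical
  induction S using Finset.induction_on with
  | empty =>
    intro k
    obtain ⟨t, a, b⟩ := h1 M k (NeZero.pos M)
    refine ⟨t, a, fun x hx => ?_⟩
    simp only [prod_empty, mul_one]
    refine b _ (sum_mem fun g _ => B.rt k g x hx) fun h => ?_
    rw [map_sum]
    exact Fintype.sum_equiv (Equiv.mulLeft h) _ _ fun g => by
      rw [Equiv.coe_mulLeft, map_mul]; rfl
  | insert h S hS ih =>
    intro k
    obtain ⟨t, a, b⟩ := ih k
    obtain ⟨t', a', b'⟩ := ih (k + 2)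
    refine ⟨t.image (rt ℂ ℂ h (θ h) * ·) ∪ t', fun y hy => ?_, fun x hx => ?_⟩
    · rw [card_insert_of_notMem hS]
      rcases mem_union.1 hy with hy | hy
      · obtain ⟨z, hz, rfl⟩ := mem_image.1 hy
        refine ⟨?_, (PR M).mul_mem (pq_rt h (hθ h).2) (a z hz).2⟩
        rw [show k + 2 * (S.card + 1) = 2 + (k + 2 * S.card) by ring]
        exact B.mul _ _ _ (B.rt 2 h _ (hθ h).1) _ (a z hz).1
      · rw [show k + 2 * (S.card + 1) = k + 2 + 2 * S.card by ring]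
        exact a' y hy
    have e := Submodule.apply_mem_span_image_of_mem_span (LinearMap.mulLeft ℂ (rt ℂ ℂ h (θ h)))
      (b x hx)
    rw [coe_union, coe_image]
    have := sub_mem (Submodule.span_mono Set.subset_union_left e)
      (Submodule.span_mono Set.subset_union_right (b' _ (B.mul _ _ _ hx _ (hθ h).1)))
    rw [LinearMap.mulLeft_apply, mul_sum, ← sum_sub_distrib] at this
    rw [sum_congr rfl fun g _ => ?_]
    · exact this
    rw [prod_insert hS, map_mul]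
    ring

theorem del (B : XB M) (θ : GM M → FT M ℂ) (S : Finset (GM M))
    (hθ : ∀ h ∈ S, θ h ∈ XC M 2 ∧ NVC (θ h)) :
    ∏ h ∈ S, θ h ∈ XC M (2 * S.card) ∧ NVC (∏ h ∈ S, θ h) := by
  classical
  induction S using Finset.induction_on with
  | empty => exact ⟨B.one, B.nv1⟩
  | insert h S hS ih =>
    obtain ⟨a, b⟩ := ih fun g hg => hθ g (mem_insert_of_mem hg)
    obtain ⟨c, d⟩ := hθ h (mem_insert_self h S)
    rw [prod_insert hS, card_insert_of_notMem hS, mul_add, add_comm]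
    exact ⟨B.mul _ _ _ c _ a, B.nvm _ _ d b⟩

theorem even (B : XB M) (h1 : LV1) (h2 : ∀ h : GM M, h ≠ 1 → h ≠ dg (-1) (-1) →
    ∃ θ ∈ XC M 2, θ ∈ PQ M ∧ NVC (rt ℂ ℂ h θ - θ)) {k : ℕ} (hk : Even k) :
    ∃ (d : ℕ) (δ : FT M ℂ) (t : Finset (FT M ℂ)),
      δ ∈ XC M d ∧ δ ∈ PQ M ∧ NVC δ ∧ (∀ y ∈ t, y ∈ XC M (k + d) ∧ y ∈ PQ M) ∧
      ∀ s ∈ XC M k, s * δ ∈ Submodule.span ℂ (t : Set (FT M ℂ)) := by
  classical
  have : ∀ h : GM M, ∃ θ, (θ ∈ XC M 2 ∧ θ ∈ PR M) ∧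
      (¬ (h = 1 ∨ h = dg (-1) (-1)) → NVC (rt ℂ ℂ h θ - θ)) := fun h => by
    by_cases e : h = 1 ∨ h = dg (-1) (-1)
    · exact ⟨0, ⟨zero_mem _, zero_mem _⟩, fun n => (n e).elim⟩
    · obtain ⟨θ, a, b, c⟩ := h2 h (fun x => e (Or.inl x)) fun x => e (Or.inr x)
      exact ⟨θ, ⟨a, b⟩, fun _ => c⟩
  choose θ a b using this
  let S := univ.filter fun h : GM M => ¬ (h = 1 ∨ h = dg (-1) (-1))
  obtain ⟨t, c, d⟩ := ind B h1 θ a S k
  obtain ⟨e, f⟩ := del B (fun h => rt ℂ ℂ h (θ h) - θ h) S fun h hh =>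
    ⟨sub_mem (B.rt 2 h _ (a h).1) (a h).1, b h (mem_filter.1 hh).2⟩
  refine ⟨_, _, t, e, prod_mem (S := PR M) fun h _ => sub_mem (pq_rt h (a h).2) (a h).2, f, c,
    fun x hx => ?_⟩
  have fx : ∀ {l : ℕ} {y : FT M ℂ}, Even l → y ∈ XC M l → ∀ g : GM M,
      (g = 1 ∨ g = dg (-1) (-1)) → rt ℂ ℂ g y = y := fun {l y} hl hy g hg => by
    rcases hg with rfl | rfl
    · rw [map_one]; rfl
    · rw [B.ng l y hy, hl.neg_one_pow, one_smul]
  let T := univ.filter fun h : GM M => h = 1 ∨ h = dg (-1) (-1)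
  have e1 : ∀ g ∈ T, rt ℂ ℂ g x * ∏ h ∈ S, (rt ℂ ℂ h (θ h) - rt ℂ ℂ g (θ h)) =
      x * ∏ h ∈ S, (rt ℂ ℂ h (θ h) - θ h) := fun g hg => by
    rw [fx hk hx g (mem_filter.1 hg).2]
    exact congrArg _ (prod_congr rfl fun h _ => by
      rw [fx even_two (a h).1 g (mem_filter.1 hg).2])
  have e2 : ∑ g, rt ℂ ℂ g x * ∏ h ∈ S, (rt ℂ ℂ h (θ h) - rt ℂ ℂ g (θ h)) =
      (T.card : ℂ) • (x * ∏ h ∈ S, (rt ℂ ℂ h (θ h) - θ h)) := by
    rw [Nat.cast_smul_eq_nsmul, ← sum_const, ← sum_congr rfl e1]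
    refine (sum_subset (subset_univ T) fun g _ hg => ?_).symm
    have : g ∈ S := mem_filter.2 ⟨mem_univ g, fun n => hg (mem_filter.2 ⟨mem_univ g, n⟩)⟩
    rw [prod_eq_zero this (sub_self _), mul_zero]
  have t1 : (1 : GM M) ∈ T := mem_filter.2 ⟨mem_univ _, Or.inl rfl⟩
  exact (Submodule.smul_mem_iff _ (Nat.cast_ne_zero.2 (card_ne_zero_of_mem t1))).1 (e2 ▸ d x hx)

end Sepx

theorem sepx (h0 : XBS) (h1 : LV1) (h2 : GENQ) : SEPX := by
  intro M k hM h3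
  have : NeZero M := ⟨by omega⟩
  have B := h0 M (by omega)
  obtain ⟨a, p, p1, p2, p3⟩ := h2 M hM h3
  rcases Nat.even_or_odd k with hk | hk
  · exact Sepx.even B h1 a hk
  obtain ⟨d, δ, t, b, c, e, f, g⟩ := Sepx.even B h1 a (hk.add_odd (show Odd 3 by decide))
  refine ⟨3 + d, p * δ, t, B.mul _ _ _ p1 _ b, (Sepx.PR M).mul_mem p2 c, B.nvm _ _ p3 e, ?_,
    fun s hs => ?_⟩
  · rwa [← add_assoc]
  · rw [← mul_assoc]
    exact g _ (B.mul _ _ _ hs _ p1)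

end Vale.Agent.P022D.Th
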