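import Vale.Agent.P022D.Th.Spec
import Vale.Agent.P022D.V.IrrV

/-!
# P022D, block TH: forms and tuples
-/

set_option linter.all false

open UpperHalfPlane hiding I
open Matrix Function.Periodic CongruenceSubgroup
open scoped MatrixGroups ModularForm

noncomputable section

namespace Vale.Agent.P022D.Th

open Vale.Agent.P022 Vale.Agent.P027M.M Vale.Agent.P022D.V Vale.Agent.P022.H218.L3

namespace Tup

/-- `diag (1, N)` -/
def DD (N : ℕ) (h : N ≠ 0) : GL (Fin 2) ℚ := tri 1 0 N (by simpa using h)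

/-- `u (τ / N)` -/
def sc (N : ℕ) (h : N ≠ 0) (k : ℤ) (u : ℍ → ℂ) : ℍ → ℂ :=
  (N : ℂ) • u ∣[k] ((DD N h).map (algebraMap ℚ ℝ))

theorem sc_val {N : ℕ} (h : N ≠ 0) (k : ℤ) (u : ℍ → ℂ) (τ : ℍ) :
    ∃ τ' : ℍ, (τ' : ℂ) = τ / N ∧ sc N h k u τ = u τ' := by
  obtain ⟨τ', h1, h2⟩ := H783.slash_tri (f := u) (a := 1) (b := 0) (d := N) (by simpa using h)
    one_pos (by exact_mod_cast Nat.pos_of_ne_zero h) k τ
  have n0 : (N : ℂ) ≠ 0 := by exact_mod_cast h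
  refine ⟨τ', by simpa using h1, ?_⟩
  rw [sc, Pi.smul_apply, smul_eq_mul, DD, h2]
  push_cast
  rw [one_mul, zpow_sub_one₀ n0, _root_.zpow_neg]
  have := zpow_ne_zero k n0
  field_simp

theorem sc_one (k : ℤ) (u : ℍ → ℂ) : sc 1 one_ne_zero k u = u := funext fun τ => by
  obtain ⟨τ', h1, h2⟩ := sc_val one_ne_zero k u τ
  rw [h2, show τ' = τ from UpperHalfPlane.ext (by simpa using h1)]

theorem sc_slash {N : ℕ} (h : N ≠ 0) (k : ℤ) (u : ℍ → ℂ) {β β' : SL(2, ℤ)} (e0 : β' 0 0 = β 0 0)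
    (e1 : β 0 1 = N * β' 0 1) (e2 : β' 1 0 = N * β 1 0) (e3 : β' 1 1 = β 1 1) :
    sc N h k u ∣[k] β = sc N h k (u ∣[k] β') := by
  have e : (DD N h).map (algebraMap ℚ ℝ) * SpecialLinearGroup.mapGL ℝ β =
      SpecialLinearGroup.mapGL ℝ β' * (DD N h).map (algebraMap ℚ ℝ) := by
    apply Units.ext
    rw [Units.val_mul, Units.val_mul, DD, H783.tri_coe, H783.mapGL_coe', H783.mapGL_coe', e0, e1,
      e2, e3]
    ext i j
    fin_cases i <;> fin_cases j <;> simp [Matrix.mul_apply, Fin.sum_univ_two, mul_comm]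
  have sl : ∀ (v : ℍ → ℂ) (γ : SL(2, ℤ)), v ∣[k] γ = v ∣[k] SpecialLinearGroup.mapGL ℝ γ :=
    fun v γ => rfl
  rw [sc, sc, ModularForm.SL_smul_slash, sl, sl, ← SlashAction.slash_mul, ← SlashAction.slash_mul,
    e]

theorem sc_bdd {N N₀ k : ℕ} [NeZero N₀] (h : N ≠ 0) (f : MF N₀ k) : Bdd k (sc N h k f) := by
  have h1 : Bdd (k : ℤ) ((f : ℍ → ℂ) ∣[(k : ℤ)] ((DD N h).map (algebraMap ℚ ℝ))) := by
    refine ⟨f.holo'.slash _ _, fun γ => ?_⟩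
    have hc : IsCusp ((Matrix.SpecialLinearGroup.mapGL ℝ γ) • OnePoint.infty) (Gam N₀) := by
      rw [Subgroup.IsArithmetic.isCusp_iff_isCusp_SL2Z, isCusp_SL2Z_iff']
      exact ⟨γ, rfl⟩
    exact OnePoint.IsBoundedAt.smul_iff.1
      (f.bdd_at_cusps' (Vale.Agent.P004H.H181.isCusp_smul_rat hc (DD N h))) _ rfl
  have h2 := (Bdd.const (N : ℂ)).mul h1
  rw [zero_add] at h2
  exact h2

theorem dvd_of {M N : ℕ} (h : N ∣ M) {x : ℤ} {y : ZMod M} (e : (x : ZMod M) = N * y) :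
    (N : ℤ) ∣ x := by
  have := congrArg (ZMod.castHom h (ZMod N)) e
  rw [map_intCast, map_mul, map_natCast, ZMod.natCast_self, zero_mul] at this
  exact (ZMod.intCast_zmod_eq_zero_iff_dvd _ _).1 this

theorem sc_eq {N N₀ k : ℕ} (h : N ≠ 0) (f : MF N₀ k) {β t : SL(2, ℤ)} (h1 : (N : ℤ) ∣ β 0 1)
    (h2 : (N₀ : ℤ) ∣ N * β 1 0) (ht : t ∈ Gamma0 N₀)
    (h3 : ((β 1 1 : ℤ) : ZMod N₀) = ((t 1 1 : ℤ) : ZMod N₀)) :
    sc N h k f ∣[(k : ℤ)] β = sc N h k (f ∣[(k : ℤ)] t) := by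
  obtain ⟨q, hq⟩ := h1
  have hd := β.det_coe
  rw [Matrix.det_fin_two] at hd
  let β' : SL(2, ℤ) := ⟨!![β 0 0, q; N * β 1 0, β 1 1], by
    rw [Matrix.det_fin_two_of]
    linear_combination hd + β 1 0 * hq⟩
  rw [sc_slash h k f (β := β) (β' := β') rfl hq rfl rfl, H353.slash_eq_of (s := β')
    (Gamma0_mem.2 ((ZMod.intCast_zmod_eq_zero_iff_dvd _ _).2 h2)) ht h3]

theorem sc_inv {M N N₀ k : ℕ} (h : N ≠ 0) (d1 : N ∣ M) (d0 : N₀ ∣ M) (f : MF N₀ k)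
    {β : SL(2, ℤ)} (hβ : rd M β ∈ H0 M N N₀) : sc N h k f ∣[(k : ℤ)] β = sc N h k f := by
  obtain ⟨⟨⟨y, h1⟩, y', h2⟩, t, h3⟩ := hβ
  rw [rd_apply] at h1 h2 h3
  have k1 := dvd_of d1 h1
  have k2 : (N₀ : ℤ) ∣ N * β 1 0 := dvd_of d0 (y := y') (by push_cast; exact h2)
  have k3 : (N₀ : ℤ) ∣ β 0 0 - 1 := dvd_of d0 (y := t) (by push_cast; linear_combination h3)
  have hd := β.det_coe
  rw [Matrix.det_fin_two] at hd
  rw [sc_eq h f k1 k2 (Gamma0 N₀).one_mem, SlashAction.slash_one]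
  obtain ⟨q, hq⟩ := k1
  obtain ⟨a, ha⟩ := k2
  obtain ⟨b, hb⟩ := k3
  have : β 1 1 = 1 + N₀ * (q * a - b * β 1 1) := by
    linear_combination hd + β 1 0 * hq + q * ha - β 1 1 * hb
  rw [this]
  simp

theorem det_dg {M : ℕ} (a d : (ZMod M)ˣ) : GeneralLinearGroup.det (dg a d) = a * d :=
  Units.ext (by rw [GeneralLinearGroup.val_det_apply, dg_coe, Matrix.det_fin_two_of]; simp)

theorem dg_inv {M : ℕ} (a d : (ZMod M)ˣ) : (dg a d)⁻¹ = dg a⁻¹ d⁻¹ :=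
  inv_eq_of_mul_eq_one_right (by rw [dg_mul, mul_inv_cancel, mul_inv_cancel, dg_one])

theorem dg_mem {M N N₀ : ℕ} (d : (ZMod M)ˣ) : dg 1 d ∈ H0 M N N₀ :=
  ⟨⟨⟨0, by simp [dg_coe]⟩, 0, by simp [dg_coe]⟩, 0, by simp [dg_coe]⟩

theorem cj_mem {M N N₀ : ℕ} (d d' : (ZMod M)ˣ) {h : GM M} (hh : h ∈ H0 M N N₀) :
    dg 1 d * h * dg 1 d' ∈ H0 M N N₀ := by
  obtain ⟨⟨⟨y, h1⟩, y', h2⟩, t, h3⟩ := hh
  refine ⟨⟨⟨y * d', ?_⟩, d * y', ?_⟩, t, ?_⟩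
  · simp [dg_coe, Matrix.mul_apply, Fin.sum_univ_two, h1, mul_assoc]
  · simp [dg_coe, Matrix.mul_apply, Fin.sum_univ_two, Matrix.vecMul, dotProduct]
    linear_combination (d : ZMod M) * h2
  · simp [dg_coe, Matrix.mul_apply, Fin.sum_univ_two, Matrix.vecMul, dotProduct, h3]

theorem ex_ga {M : ℕ} (hM : 0 < M) (g : GM M) :
    ∃ γ : SL(2, ℤ), rd M γ = g * (dg 1 (GeneralLinearGroup.det g))⁻¹ :=
  IrrV.rd_surj hM.ne' _ (by rw [map_mul, map_inv, det_dg, one_mul, mul_inv_cancel])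

theorem at_dg {M N N₀ k : ℕ} (h : N ≠ 0) (d1 : N ∣ M) (d0 : N₀ ∣ M) (f : MF N₀ k)
    {γ : SL(2, ℤ)} {a b : (ZMod M)ˣ}
    (hγ : rd M γ = dg a b * (dg 1 (GeneralLinearGroup.det (dg a b)))⁻¹) {δ : ℕ}
    (hδ : Nat.Coprime δ N₀) (ha : Cg M N₀ (a : ZMod M) (δ : ZMod M)) :
    sc N h k f ∣[(k : ℤ)] γ⁻¹ = sc N h k (f ∣[(k : ℤ)] gd N₀ δ hδ) := by
  have e : rd M γ⁻¹ = dg a⁻¹ a := by
    rw [map_inv, hγ, det_dg, dg_inv, dg_mul, dg_inv]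
    congr 1
    · simp
    · simp [mul_comm]
  have e1 : ((γ⁻¹ 0 1 : ℤ) : ZMod M) = 0 := by rw [← rd_apply, e, dg_coe]; rfl
  have e2 : ((γ⁻¹ 1 0 : ℤ) : ZMod M) = 0 := by rw [← rd_apply, e, dg_coe]; rfl
  have e3 : ((γ⁻¹ 1 1 : ℤ) : ZMod M) = a := by rw [← rd_apply, e, dg_coe]; rfl
  obtain ⟨t, ht⟩ := ha
  obtain ⟨z, hz⟩ : (N₀ : ℤ) ∣ γ⁻¹ 1 1 - δ :=
    dvd_of d0 (y := t) (by push_cast; linear_combination e3 + ht)
  refine sc_eq h f (dvd_of d1 (y := 0) (by rw [e1, mul_zero]))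
    ((dvd_of d0 (y := 0) (by rw [e2, mul_zero])).mul_left _) (H783.gd_mem hδ) ?_
  rw [H353.gd11, show γ⁻¹ 1 1 = δ + N₀ * z by linear_combination hz]
  simp

theorem fin {M N N₀ i : ℕ} (hM : 0 < M) (h : N ≠ 0) (d1 : N ∣ M) {f : MF N₀ (i + 1)}
    {c : ℕ → ℕ → ℂ} (hc : H353.Rep N₀ i f c) {δ : ℕ} (hδ : Nat.Coprime δ (2 * N₀))
    {t : PowerSeries ℂ} (ht : HS M t (sc N h (i + 1 : ℕ)
      (f ∣[((i + 1 : ℕ) : ℤ)] gd N₀ δ (H353.cop_N hδ)))) :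
    (δ : ℂ) ^ i • t = Vo (M / N) (PowerSeries.mk fun n => c n δ) := by
  obtain ⟨e, rfl⟩ := d1
  have e0 : 0 < e := Nat.pos_of_mul_pos_left hM
  rw [Nat.mul_div_cancel_left _ (Nat.pos_of_ne_zero h)]
  refine Tr.hs_unique hM (f := fun τ => (δ : ℂ) ^ i * sc N h (i + 1 : ℕ)
    (f ∣[((i + 1 : ℕ) : ℤ)] gd N₀ δ (H353.cop_N hδ)) τ) (fun τ => ?_) fun τ => ?_
  · exact ((ht τ).mul_left _).congr_fun fun m => by
      rw [PowerSeries.coeff_smul, smul_eq_mul, mul_assoc]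
  · obtain ⟨τ', h1, h2⟩ := sc_val h (i + 1 : ℕ) (f ∣[((i + 1 : ℕ) : ℤ)] gd N₀ δ (H353.cop_N hδ)) τ
    have n0 : (N : ℂ) ≠ 0 := by exact_mod_cast h
    have n1 : (e : ℂ) ≠ 0 := by exact_mod_cast e0.ne'
    have hinj : Function.Injective fun m : ℕ => e * m :=
      fun a b h => Nat.eq_of_mul_eq_mul_left e0 h
    show HasSum _ ((δ : ℂ) ^ i * sc N h (i + 1 : ℕ) _ τ)
    rw [h2]
    refine (hinj.hasSum_iff ?_).1 ((hc δ hδ τ').congr_fun fun m => ?_)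
    · intro k hk
      rw [Vo, PowerSeries.coeff_mk, if_neg, zero_mul]
      rintro ⟨m, rfl⟩
      exact hk ⟨m, rfl⟩
    · rw [Function.comp_apply, Vo, PowerSeries.coeff_mk, if_pos ⟨m, rfl⟩,
        Nat.mul_div_cancel_left _ e0, PowerSeries.coeff_mk, qParam, ← Complex.exp_nat_mul, h1]
      congr 2
      push_cast
      field_simp

end Tup

open Tup in
theorem tup : TUP := by
  intro M N₁ N₀ i _ hM d1 d0 f c hc
  have h : N₁ ≠ 0 := fun e => hM.ne' (by rwa [e, zero_dvd_iff] at d1)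
  choose γ hγ using ex_ga hM
  let F : GM M → ℍ → ℂ := fun g => sc N₁ h (i + 1 : ℕ) f ∣[((i + 1 : ℕ) : ℤ)] (γ g)⁻¹
  have key : ∀ (β : SL(2, ℤ)) (g : GM M), ∀ x ∈ H0 M N₁ N₀,
      F g ∣[((i + 1 : ℕ) : ℤ)] β⁻¹ = F (rd M β * g * x) := fun β g x hx => by
    have m : rd M ((γ g)⁻¹ * β⁻¹ * γ (rd M β * g * x)) ∈ H0 M N₁ N₀ := by
      have := cj_mem (GeneralLinearGroup.det g) (GeneralLinearGroup.det (rd M β * g * x))⁻¹ hx
      rw [← inv_one, ← dg_inv, inv_one] at this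
      rw [map_mul, map_mul, map_inv, map_inv, hγ, hγ]
      refine (congrArg (· ∈ H0 M N₁ N₀) ?_).mpr this
      group
    show (_ ∣[((i + 1 : ℕ) : ℤ)] (γ g)⁻¹) ∣[((i + 1 : ℕ) : ℤ)] β⁻¹ =
      _ ∣[((i + 1 : ℕ) : ℤ)] (γ (rd M β * g * x))⁻¹
    nth_rewrite 2 [← sc_inv h d1 d0 f m]
    rw [← SlashAction.slash_mul, ← SlashAction.slash_mul, mul_inv_cancel_right]
  have tp : IsTp M (i + 1) F := ⟨fun g => (sc_bdd h f).slash _, fun β g => by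
    have := key β g 1 (dg_one (M := M) ▸ dg_mem 1)
    rw [mul_one] at this
    rw [← this, ← SlashAction.slash_mul, inv_mul_cancel, SlashAction.slash_one]⟩
  have hs : ∀ g, HS M (qExpansion (M : ℝ) (F g)) (F g) := fun g =>
    Tr.hs_qExp hM (tp.bdd g).1 (by simpa using (tp.bdd g).2 1) (by
      have := tp.eqv (ModularGroup.T ^ (M : ℤ)) g
      rwa [Tr.rd_T, one_mul] at this)
  refine ⟨fun g => qExpansion (M : ℝ) (F g), ⟨⟨F, tp, hs⟩, fun x hx => funext fun g => ?_⟩,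
    fun a b δ hδ ha => fin hM h d1 hc hδ ?_⟩
  · have := key 1 g x hx
    rw [inv_one, SlashAction.slash_one, map_one, one_mul] at this
    rw [one_smul, rt_apply, ← this]
  · rw [← at_dg h d1 d0 f (hγ (dg a b)) _ ha]
    exact hs _

open Tup in
theorem back : BACK := by
  rintro M N₀ i _ hM d0 s ⟨⟨F, tp, hs⟩, hi⟩
  have iv : ∀ x ∈ H0 M 1 N₀, F x = F 1 := fun x hx => by
    have := congrFun (hi x hx) 1
    rw [one_smul, rt_apply, one_mul] at this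
    exact Tr.hs_fun (hs x) (this ▸ hs 1)
  let f : MF N₀ (i + 1) :=
    { toFun := F 1
      slash_action_eq' := by
        rintro _ ⟨β, hβ, rfl⟩
        obtain ⟨b1, -, b3⟩ := (Gamma1_mem N₀ β).1 hβ
        obtain ⟨y, hy⟩ := (ZMod.intCast_zmod_eq_zero_iff_dvd _ _).1 b3
        obtain ⟨z, hz⟩ := (ZMod.intCast_zmod_eq_zero_iff_dvd (β 0 0 - 1) N₀).1
          (by push_cast; rw [b1, sub_self])
        have := tp.eqv β 1
        rw [mul_one, iv _ ⟨⟨⟨_, by rw [Nat.cast_one, one_mul]⟩, y, by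
          rw [rd_apply, hy]; simp⟩, z, by
          rw [rd_apply, show β 0 0 = 1 + N₀ * z by linear_combination hz]; simp⟩] at this
        exact this
      holo' := (tp.bdd 1).1
      bdd_at_cusps' := fun {c} hc => by
        rw [Subgroup.IsArithmetic.isCusp_iff_isCusp_SL2Z] at hc
        rw [OnePoint.isBoundedAt_iff_forall_SL2Z hc]
        exact fun γ _ => (tp.bdd 1).2 γ }
  obtain ⟨c, hc⟩ := H353.exists_rep f
  refine ⟨f, c, hc, fun a b δ hδ ha => fin hM one_ne_zero (one_dvd M) hc hδ ?_⟩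
  obtain ⟨γ, hγ⟩ := ex_ga hM (dg a b)
  rw [← at_dg one_ne_zero (one_dvd M) d0 f hγ _ ha, sc_one]
  have := tp.eqv γ (dg 1 (GeneralLinearGroup.det (dg a b)))
  rw [hγ, inv_mul_cancel_right, iv _ (dg_mem _)] at this
  show HS M _ (F 1 ∣[((i + 1 : ℕ) : ℤ)] γ⁻¹)
  rw [← this, ← SlashAction.slash_mul, mul_inv_cancel, SlashAction.slash_one]
  exact hs _

end Vale.Agent.P022D.Th
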