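import Vale.Agent.P022D.Th.Spec

/-!
# P022D, block TH, part two: the vector before the projections
-/

set_option linter.all false

open Matrix
open scoped MatrixGroups

noncomputable section

namespace Vale.Agent.P022D.Th

open Vale.Agent.P022 Vale.Agent.P027M.M Vale.Agent.P022D.V

namespace Vec0P

variable {O : Type} [CommRing O] [Co O]

theorem kap_zero {π x : O} (h : π ∣ x) : algebraMap O (RR π) x = 0 := by
  obtain ⟨y, rfl⟩ := h
  have h0 : algebraMap O (RR π) π = 0 :=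
    Ideal.Quotient.eq_zero_iff_mem.2 (Ideal.mem_span_singleton_self _)
  rw [map_mul, h0, zero_mul]

theorem kap_ne {π x : O} (hπ : Unif π) (hx : IsUnit x) : algebraMap O (RR π) x ≠ 0 := by
  intro h
  have h1 : (1 : RR π) = 0 := by
    obtain ⟨y, hy⟩ := hx.exists_right_inv
    rw [← map_one (algebraMap O (RR π)), ← hy, map_mul, h, zero_mul]
  obtain ⟨b, hb⟩ := Ideal.mem_span_singleton'.1
    (Ideal.Quotient.eq_zero_iff_mem.1 (show Ideal.Quotient.mk _ (1 : AA O) = 0 from h1))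
  have h2 : av O b * Co.j π = 1 := by rw [← av_alg, ← map_mul, hb, map_one]
  obtain ⟨a, ha⟩ := Co.fix (O := O) (av O b) (av_mem b) fun σ hσ => by
    have h3 := congrArg σ h2
    rw [map_mul, hσ, map_one] at h3
    calc σ (av O b) = σ (av O b) * (av O b * Co.j π) := by rw [h2, mul_one]
      _ = av O b * (σ (av O b) * Co.j π) := by ring
      _ = av O b := by rw [h3, mul_one]
  refine hπ.nu (IsUnit.of_mul_eq_one a (Co.inj ?_))
  rw [map_mul, ha, map_one, mul_comm, h2]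

theorem odd_rep {M : ℕ} (hM : Odd M) (a : (ZMod M)ˣ) :
    ∃ δ : ℕ, Nat.Coprime δ (2 * M) ∧ (δ : ZMod M) = a := by
  haveI : NeZero M := ⟨hM.pos.ne'⟩
  have hc := ZMod.val_coe_unit_coprime a
  have hv : (((a : ZMod M).val : ℕ) : ZMod M) = a := ZMod.natCast_zmod_val _
  rcases Nat.even_or_odd (a : ZMod M).val with h | h
  · refine ⟨(a : ZMod M).val + M, Nat.Coprime.mul_right
      (Nat.coprime_two_right.2 (h.add_odd hM)) (by rwa [Nat.coprime_add_self_left]), ?_⟩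
    rw [Nat.cast_add, ZMod.natCast_self, add_zero, hv]
  · exact ⟨_, Nat.Coprime.mul_right (Nat.coprime_two_right.2 h) hc, hv⟩

theorem det_dg {M : ℕ} (b : (ZMod M)ˣ) : Matrix.GeneralLinearGroup.det (dg 1 b : GM M) = b := by
  apply Units.ext
  rw [Matrix.GeneralLinearGroup.val_det_apply, dg_coe, Matrix.det_fin_two_of]
  simp

theorem split {M N₁ N₀ : ℕ} (hM : Odd M) (hN : N₀ ∣ M) {h : GM M} (hh : h ∈ H1 M N₁ N₀) :
    ∃ a : (ZMod M)ˣ, ∃ k ∈ H0 M N₁ N₀, h = dg a 1 * k := by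
  haveI : NeZero M := ⟨hM.pos.ne'⟩
  obtain ⟨⟨y, hy⟩, y', hy'⟩ := hh
  let φ := ZMod.castHom hN (ZMod N₀)
  have hd : ((Matrix.GeneralLinearGroup.det h : (ZMod M)ˣ) : ZMod M) =
      (h : Matrix (Fin 2) (Fin 2) (ZMod M)) 0 0 * (h : Matrix (Fin 2) (Fin 2) (ZMod M)) 1 1 -
        N₀ * (y * y') := by
    rw [Matrix.GeneralLinearGroup.val_det_apply, Matrix.det_fin_two, hy]
    linear_combination -y * hy'
  have hu : IsUnit (φ ((h : Matrix (Fin 2) (Fin 2) (ZMod M)) 0 0)) := by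
    have h1 := (Matrix.GeneralLinearGroup.det h).isUnit.map φ
    rw [hd, map_sub, map_mul, map_mul, map_natCast, ZMod.natCast_self, zero_mul, sub_zero] at h1
    exact isUnit_of_mul_isUnit_left h1
  obtain ⟨a, ha⟩ := ZMod.unitsMap_surjective hN hu.unit
  have ha' : φ (a : ZMod M) = φ ((h : Matrix (Fin 2) (Fin 2) (ZMod M)) 0 0) :=
    congrArg Units.val ha
  have hk : ∃ t : ZMod M, (h : Matrix (Fin 2) (Fin 2) (ZMod M)) 0 0 - a = N₀ * t := by
    have h0 : φ ((h : Matrix (Fin 2) (Fin 2) (ZMod M)) 0 0 - a) = 0 := by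
      rw [map_sub, ha', sub_self]
    rw [← ZMod.natCast_zmod_val ((h : Matrix (Fin 2) (Fin 2) (ZMod M)) 0 0 - (a : ZMod M))] at h0 ⊢
    rw [map_natCast, ZMod.natCast_eq_zero_iff] at h0
    obtain ⟨t, ht⟩ := h0
    exact ⟨t, by rw [ht, Nat.cast_mul]⟩
  obtain ⟨t, ht⟩ := hk
  have e : ∀ j, ((dg a⁻¹ 1 * h : GM M) : Matrix (Fin 2) (Fin 2) (ZMod M)) 0 j =
      ((a⁻¹ : (ZMod M)ˣ) : ZMod M) * (h : Matrix (Fin 2) (Fin 2) (ZMod M)) 0 j ∧
      ((dg a⁻¹ 1 * h : GM M) : Matrix (Fin 2) (Fin 2) (ZMod M)) 1 j =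
      (h : Matrix (Fin 2) (Fin 2) (ZMod M)) 1 j := fun j => by
    rw [Units.val_mul, dg_coe, Matrix.mul_apply, Matrix.mul_apply, Fin.sum_univ_two,
      Fin.sum_univ_two]
    simp
  refine ⟨a, dg a⁻¹ 1 * h, ⟨⟨⟨((a⁻¹ : (ZMod M)ˣ) : ZMod M) * y, ?_⟩, y', ?_⟩,
    ((a⁻¹ : (ZMod M)ˣ) : ZMod M) * t, ?_⟩, ?_⟩
  · rw [(e 1).1, hy]
    ring
  · rw [(e 0).2, hy']
  · rw [(e 0).1]
    have h3 : ((a⁻¹ : (ZMod M)ˣ) : ZMod M) * (a : ZMod M) = 1 := Units.inv_mul a
    linear_combination ((a⁻¹ : (ZMod M)ˣ) : ZMod M) * ht + h3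
  · rw [← mul_assoc, dg_mul, mul_inv_cancel, mul_one, dg_one, one_mul]

theorem uv {R : Type} [CommRing R] {p N : ℕ} (hp : 0 < p) (hN : 0 < N) (hc : Nat.Coprime N p)
    (c : ℕ → R) (l : R)
    (h : ∀ n, c (p * n) + (if p ∣ n then c (n / p) else 0) = l * c n) (n : ℕ) :
    (Uo p (Vo N (PowerSeries.mk c))).coeff n + (Vo p (Vo N (PowerSeries.mk c))).coeff n =
      l * (Vo N (PowerSeries.mk c)).coeff n := by
  simp only [Uo, Vo, PowerSeries.coeff_mk]
  by_cases h1 : N ∣ n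
  · obtain ⟨m, rfl⟩ := h1
    rw [if_pos (Dvd.intro m rfl), mul_left_comm p N m, if_pos (Dvd.intro _ rfl),
      Nat.mul_div_cancel_left _ hN, Nat.mul_div_cancel_left _ hN, ← h m]
    by_cases h2 : p ∣ m
    · obtain ⟨k, rfl⟩ := h2
      rw [if_pos (Dvd.intro k rfl), if_pos ((Dvd.intro k rfl).mul_left N), mul_left_comm N p k,
        Nat.mul_div_cancel_left _ hp, Nat.mul_div_cancel_left _ hp, if_pos (Dvd.intro k rfl),
        Nat.mul_div_cancel_left _ hN]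
    · rw [if_neg h2, if_neg fun h3 => h2 (hc.symm.dvd_of_dvd_mul_left h3)]
  · rw [if_neg h1, if_neg fun h3 => h1 (hc.dvd_of_dvd_mul_left h3), mul_zero, zero_add]
    by_cases h2 : p ∣ n
    · obtain ⟨k, rfl⟩ := h2
      rw [if_pos (Dvd.intro k rfl), Nat.mul_div_cancel_left _ hp,
        if_neg fun h3 => h1 (h3.mul_left p)]
    · rw [if_neg h2]

end Vec0P

open Vec0P

theorem vec0 (O : Type) [CommRing O] [Co O] (hX : XBS) (hB : BD O) (hQ : BASQ) (hT : TUP)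
    (hE : EIGC O) (h1 : VS1 O) (h3 : VS3 O) (hP : PAR O) (hH : HKV O) (hI : IRR O)
    (hR : ROOT O) : VEC0 O := by
  intro π M N₁ N₂ N₀ _ lam hπ lv oc
  have hM := lv.odd
  have d1 : N₁ ∣ M := ⟨N₂, lv.eq⟩
  have d2 : N₂ ∣ M := ⟨N₁, by rw [lv.eq, mul_comm]⟩
  have p1 : 0 < N₁ := Nat.pos_of_dvd_of_pos d1 hM.pos
  have p2 : 0 < N₂ := Nat.pos_of_dvd_of_pos d2 hM.pos
  have hq : M / N₁ = N₂ := by rw [lv.eq, Nat.mul_div_cancel_left _ p1]
  have two : π ∣ 2 := hπ.dvd 2 (hR M hM).2.2.2.2.2.2.2.2.1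
  obtain ⟨i, f, c, hf, ⟨n₀, hn0, hn1, hn2⟩, hc, hl⟩ :=
    hE π N₀ N₁ lam hπ (hM.of_dvd_nat lv.dvd) (hM.of_dvd_nat d1) oc
  obtain ⟨s, ⟨hs, hsI⟩, hD⟩ := hT M N₁ N₀ i hM.pos d1 lv.dvd f _ hf
  have hs1 : ∀ b, s (dg 1 b) = Vo N₂ (PowerSeries.mk fun n => Co.j (c n 1)) := fun b => by
    have h := hD 1 b 1 (Nat.coprime_one_left _) ⟨0, by simp⟩
    rwa [Nat.cast_one, one_pow, one_smul, hq] at h
  obtain ⟨-, b2, b3, -, -⟩ := hB M (i + 1) hM
  obtain ⟨w, hw, hws⟩ := b3 s hs (b2 s hs fun a m => by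
    rw [hs1, Vo, PowerSeries.coeff_mk]
    split_ifs
    · rw [PowerSeries.coeff_mk]
      exact Co.mem _
    · exact zero_mem _) fun σ a hσ ha => by
      refine sub_eq_zero.1 ((hX M hM.pos).unq (i + 1) _
        (Submodule.sub_mem _ ((hQ M (i + 1) hM lv.three).1 σ a ha s hs) hs) fun b => ?_)
      rw [Pi.sub_apply, sub_eq_zero, cj, dg_mul, mul_one, hs1, hs1]
      ext n
      rw [PowerSeries.coeff_map, Vo, PowerSeries.coeff_mk]
      split_ifs
      · rw [PowerSeries.coeff_mk]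
        exact hσ _
      · exact map_zero _
  have hco : ∀ g n, av O ((w g).coeff n) = (s g).coeff n := fun g n => by
    rw [← hws, toC, PowerSeries.coeff_map]
  let v : FT M (RR π) := red M π w
  have hv : ∀ g n, (v g).coeff n = Ideal.Quotient.mk _ ((w g).coeff n) := fun g n =>
    PowerSeries.coeff_map (Ideal.Quotient.mk (Ideal.span {algebraMap O (AA O) π})) n (w g)
  have par := (hP M hM lv.three).2
  have hvV : v ∈ VV M 0 π := by
    rw [← par (i + 1) π two]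
    exact ((h1 M 2 π hM le_rfl (two.trans (dvd_pow_self 2 (by norm_num)))).2 _ _).2
      ⟨i + 1, Nat.ModEq.refl _, w, hw, rfl⟩
  have hz : ∀ x ∈ VV M 0 π, ∀ y ∈ VV M 0 π, (∀ b, x (dg 1 b) = y (dg 1 b)) → x = y := by
    intro x hx y hy h
    refine sub_eq_zero.1 (funext fun g => ?_)
    exact hI M 0 π hM hπ.ne _ (Submodule.sub_mem _ hx hy)
      (dg 1 (Matrix.GeneralLinearGroup.det g)) (sub_eq_zero.2 (h _)) g (det_dg _).symm
  have hd : ∀ a b, v (dg a b) =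
      Vo N₂ (PowerSeries.mk fun n => algebraMap O (RR π) (c n 1)) := fun a b => by
    obtain ⟨δ, hδ, hδa⟩ := odd_rep hM a
    have hδ' : Nat.Coprime δ (2 * N₀) := hδ.coprime_dvd_right (Nat.mul_dvd_mul_left 2 lv.dvd)
    have h := hD a b δ hδ' ⟨0, by rw [hδa, mul_zero, add_zero]⟩
    ext n
    have h4 := congrArg (PowerSeries.coeff n) h
    rw [hq, PowerSeries.coeff_smul, smul_eq_mul, ← hco, Vo, PowerSeries.coeff_mk,
      PowerSeries.coeff_mk] at h4
    have h5 : (δ : AA O) ^ i * (w (dg a b)).coeff n =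
        if N₂ ∣ n then algebraMap O (AA O) (c (n / N₂) δ) else 0 := by
      apply av_inj
      rw [map_mul, map_pow, map_natCast, h4]
      split_ifs
      · rfl
      · exact (map_zero _).symm
    have h6 := congrArg (Ideal.Quotient.mk (Ideal.span {algebraMap O (AA O) π})) h5
    have h7 : (δ : RR π) = 1 := by
      obtain ⟨k, rfl⟩ := Nat.coprime_two_right.1 (hδ.coprime_dvd_right (dvd_mul_right 2 M))
      have h8 := kap_zero two
      rw [map_ofNat] at h8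
      rw [Nat.cast_add, Nat.cast_mul, Nat.cast_ofNat, h8, zero_mul, zero_add, Nat.cast_one]
    rw [map_mul, map_pow, map_natCast, h7, one_pow, one_mul] at h6
    rw [hv, h6, Vo, PowerSeries.coeff_mk, PowerSeries.coeff_mk]
    split_ifs
    · have h9 := kap_zero (hc (n / N₂) δ hδ')
      rw [map_sub] at h9
      exact sub_eq_zero.1 h9
    · exact map_zero _
  refine ⟨v, ⟨hvV, fun h hh => ?_⟩, fun p u hp hp2 hu => ?_, n₀, hn0, hn1, ?_⟩
  · obtain ⟨a, k, hk, rfl⟩ := split hM lv.dvd hh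
    have hk1 : rt O _ k v = v := by
      funext g
      ext n
      have h4 := congrArg (PowerSeries.coeff n) (congrFun (hsI k hk) g)
      rw [one_smul, rt_apply, ← hco, ← hco] at h4
      rw [rt_apply, hv, hv, av_inj h4]
    rw [one_smul, map_mul, AlgHom.mul_apply, hk1]
    refine hz _ ((h3 M π hM hπ.ne).2.2.2.1 0 _ v hvV) v hvV fun b => ?_
    rw [rt_apply, dg_mul, hd, hd]
  · have hcp : Nat.Coprime p M := (ZMod.isUnit_iff_coprime p M).1 (hu ▸ u.isUnit)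
    have hpa : ¬ p ∣ 2 * N₀ := (Nat.Prime.coprime_iff_not_dvd hp).1 (Nat.Coprime.mul_right
      ((Nat.coprime_primes hp Nat.prime_two).2 hp2) (hcp.coprime_dvd_right lv.dvd))
    have hT' : Tf O _ 0 p u v ∈ VV M 0 π := by
      rw [← par (0 + 1) π two] at hvV ⊢
      exact ((hH M 0 p u hM hp hp2 hu).1 π hπ.ne).1 v hvV
    refine hz _ hT' _ (Submodule.smul_mem _ _ hvV) fun b => ?_
    ext n
    have h4 : Tf O _ 0 p u v (dg 1 b) =
        Uo p (v (dg 1 u * dg 1 b)) + Vo p (v (dg u 1 * dg 1 b)) := by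
      rw [Tf, pow_zero, one_smul]
      rfl
    rw [h4, dg_mul, dg_mul, hd, hd, Pi.smul_apply, hd, map_add, PowerSeries.coeff_smul,
      Algebra.smul_def]
    refine uv hp.pos p2 (hcp.coprime_dvd_right d2).symm _ _ (fun m => ?_) n
    have h5 := kap_zero (hl ⟨p, hp, hpa⟩ m)
    rw [map_sub, map_add, map_mul, apply_ite (algebraMap O (RR π)), map_zero] at h5
    exact sub_eq_zero.1 h5
  · rw [← dg_one, hd, Vo, PowerSeries.coeff_mk, if_pos (Dvd.intro _ rfl),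
      Nat.mul_div_cancel_left _ p2, PowerSeries.coeff_mk]
    exact kap_ne hπ hn2

end Vale.Agent.P022D.Th
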