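import Vale.Agent.P022D.Th.Spec
import Vale.Agent.P022D.V.Cyc

/-!
# P022D, block TH: the projections of the vector (row VEC1)
-/

set_option linter.all false

open Matrix

noncomputable section

namespace Vale.Agent.P022D.Th

open Vale.Agent.P022 Vale.Agent.P027M.M Vale.Agent.P022D.V Vale.Agent.P022D.V.Cyc

namespace Vec1

section formal

variable {M : ℕ} {S : Type} [CommRing S] {R : Type} [CommRing R] [Algebra S R]

theorem tf_coeff (p : ℕ) (u : (ZMod M)ˣ) (w : FT M R) (g : GM M) (n : ℕ) :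
    (Tf S R 0 p u w g).coeff n = (w (dg 1 u * g)).coeff (p * n) +
      if p ∣ n then (w (dg u 1 * g)).coeff (n / p) else 0 := by
  simp [Tf, Uf, Vf, Uo, Vo]

theorem uf_coeff (p : ℕ) (u : (ZMod M)ˣ) (w : FT M R) (g : GM M) (n : ℕ) :
    (Uf S R p u w g).coeff n = (w (dg 1 u * g)).coeff (p * n) := by
  simp [Uf, Uo]

theorem dep_coeff (w : FT M R) (g : GM M) (n : ℕ) :
    (dep S R M w g).coeff n = if Even n then 0 else (w g).coeff n := by
  simp [dep]

theorem tf_rt (p : ℕ) (u : (ZMod M)ˣ) (h : GM M) (w : FT M R) :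
    Tf S R 0 p u (rt S R h w) = rt S R h (Tf S R 0 p u w) := by
  ext g n
  simp only [tf_coeff, rt_apply, mul_assoc]

theorem uf_rt (p : ℕ) (u : (ZMod M)ˣ) (h : GM M) (w : FT M R) :
    Uf S R p u (rt S R h w) = rt S R h (Uf S R p u w) := by
  ext g n
  simp only [uf_coeff, rt_apply, mul_assoc]

theorem tf_uf {p : ℕ} (hp : p.Prime) (h2 : p ≠ 2) (u u' : (ZMod M)ˣ) (w : FT M R) :
    Tf S R 0 p u (Uf S R 2 u' w) = Uf S R 2 u' (Tf S R 0 p u w) := by
  ext g n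
  have c : Nat.Coprime p 2 := (Nat.coprime_primes hp Nat.prime_two).2 h2
  simp only [tf_coeff, uf_coeff, ← mul_assoc, dg_comm 1 u', mul_comm 2 p]
  by_cases h : p ∣ n
  · rw [if_pos h, if_pos (h.mul_left 2), Nat.mul_div_assoc _ h]
  · rw [if_neg h, if_neg fun k => h (c.dvd_of_dvd_mul_left k)]

theorem tf_dep {p : ℕ} (hp : p.Prime) (h2 : p ≠ 2) (u : (ZMod M)ˣ) (w : FT M R) :
    Tf S R 0 p u (dep S R M w) = dep S R M (Tf S R 0 p u w) := by
  ext g n
  have o : ¬ Even p := Nat.not_even_iff_odd.2 (hp.odd_of_ne_two h2)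
  simp only [tf_coeff, dep_coeff, Nat.even_mul, o, false_or]
  by_cases h : p ∣ n
  · obtain ⟨m, rfl⟩ := h
    simp only [dvd_mul_right, if_true, Nat.mul_div_cancel_left _ hp.pos, Nat.even_mul, o,
      false_or]
    split_ifs <;> simp
  · simp only [h, if_false]
    split_ifs <;> simp

theorem un_zero : un (0 : ZMod M) = 1 := by
  apply Units.ext
  rw [un_coe]
  ext i j; fin_cases i <;> fin_cases j <;> simp

theorem tc_pow {z : R} {w : FT M R} (h : TC z w) (s : ℕ) (g : GM M) (n : ℕ) :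
    z ^ (s * n) * (w (un (s : ZMod M) * g)).coeff n = (w g).coeff n := by
  induction s with
  | zero => rw [Nat.cast_zero, un_zero, zero_mul, pow_zero, one_mul, one_mul]
  | succ s ih =>
    rw [Nat.cast_succ, add_comm (s : ZMod M), ← un_mul, mul_assoc, add_mul, one_mul, pow_add,
      mul_assoc, h, ih]

theorem dg_un (a : (ZMod M)ˣ) (s : ZMod M) : dg 1 a * un (s * (a : ZMod M)) = un s * dg 1 a := by
  apply Units.ext
  rw [Units.val_mul, Units.val_mul, un_coe, un_coe, dg_coe]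
  ext i j; fin_cases i <;> fin_cases j <;> simp [Matrix.mul_apply, Fin.sum_univ_two]

theorem dg_H1 (N₁ N₀ : ℕ) (a d : (ZMod M)ˣ) : dg a d ∈ H1 M N₁ N₀ :=
  ⟨⟨0, by simp [dg_coe]⟩, 0, by simp [dg_coe]⟩

theorem conj_H1 {N₁ N₀ : ℕ} {h : GM M} (hh : h ∈ H2 M N₁ N₀) (t : ZMod M) :
    un (-t) * h * un t ∈ H1 M N₁ N₀ := by
  obtain ⟨k, -, y, hy⟩ := hh
  obtain ⟨a, ha⟩ := k 0 0
  obtain ⟨b, hb⟩ := k 0 1
  obtain ⟨c, hc⟩ := k 1 0
  obtain ⟨d, hd⟩ := k 1 1
  refine ⟨⟨b + t * (a - d) - t * t * c, ?_⟩, y, ?_⟩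
  · simp only [Units.val_mul, un_coe, Matrix.mul_apply, Fin.sum_univ_two, ha, hb, hc, hd]
    simp
    ring
  · rw [← hy]
    simp only [Units.val_mul, un_coe, Matrix.mul_apply, Fin.sum_univ_two]
    simp

/-- the Whittaker projection -/
def wp (z : S) (w : FT M R) : FT M R := ∑ t ∈ Finset.range M, z ^ t • rt S R (un (t : ZMod M)) w

theorem wp_wh {z : S} (hz : z ^ M = 1) (w : FT M R) : wp z w ∈ Wh S R M z := fun x => by
  have h1 : ∀ n : ℕ, ∑ t ∈ Finset.range M,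
      z ^ (n + t) • rt S R (un ((n + t : ℕ) : ZMod M)) w = wp z w := fun n => by
    induction n with
    | zero => simp only [zero_add, wp]
    | succ n ih =>
      have a := Finset.sum_range_succ
        (fun t => z ^ (n + t) • rt S R (un ((n + t : ℕ) : ZMod M)) w) M
      rw [Finset.sum_range_succ', ih, pow_add _ _ M, hz, mul_one, Nat.cast_add _ M,
        ZMod.natCast_self, add_zero, add_zero] at a
      simp only [add_assoc n 1, add_comm 1]
      exact add_right_cancel a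
  conv_rhs => rw [← h1 x]
  rw [wp, map_sum, Finset.smul_sum]
  refine Finset.sum_congr rfl fun t _ => ?_
  rw [map_smul, smul_smul, rt_rt, un_mul, pow_add, Nat.cast_add]

end formal

variable {O : Type} [CommRing O] [Co O]

theorem uf_mem (h1 : VS1 O) (hH : HK O) (hR : ROOT O) {M : ℕ} (hM : Odd M) {π : O} (hπ : Unif π)
    {u : (ZMod M)ˣ} (hu : (u : ZMod M) = (2 : ℕ)) {v : FT M (RR π)} (hv : v ∈ VV M 0 π) :
    Uf O _ 2 u v ∈ VV M 0 π := by
  have d : π ∣ 2 := hπ.dvd 2 (hR M hM).2.2.2.2.2.2.2.2.1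
  obtain ⟨a, b⟩ := h1 M 2 π hM le_rfl (d.trans (dvd_pow_self _ (by norm_num)))
  obtain ⟨k, hk, hv⟩ := (b 0 v).1 hv
  obtain ⟨w, hw, rfl⟩ := (a k (k + 3 + 1) (by omega) (by
    unfold Nat.ModEq; omega)).1 hv
  refine (b 0 _).2 ⟨k + 3 + 1, by unfold Nat.ModEq at hk ⊢; omega, _,
    hH M (k + 3) 2 u hM Nat.prime_two hu w hw, ?_⟩
  have t : (2 : RR π) = 0 := by
    obtain ⟨c, hc⟩ := d
    rw [← map_ofNat (Ideal.Quotient.mk (Ideal.span {algebraMap O (AA O) π})) 2,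
      Ideal.Quotient.eq_zero_iff_mem, ← map_ofNat (algebraMap O (AA O)) 2, hc, map_mul]
    exact Ideal.mul_mem_right _ _ (Ideal.mem_span_singleton_self _)
  have t' : (2 : FT M (RR π)) = 0 := by
    rw [← map_ofNat (algebraMap (RR π) (FT M (RR π))) 2, t, map_zero]
  rw [AlgHom.toLinearMap_apply, AlgHom.toLinearMap_apply, Tf, LinearMap.add_apply, map_add,
    LinearMap.smul_apply, map_nsmul, nsmul_eq_mul, Nat.cast_pow, Nat.cast_ofNat, t',
    zero_pow (by omega), zero_mul, add_zero]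
  ext g n
  simp [red, mp, Uf, Uo]

end Vec1

open Vec1

theorem vec1 (O : Type) [CommRing O] [Co O] (h1 : VS1 O) (h3 : VS3 O) (hH : HK O) (hS : SER O)
    (hR : ROOT O) : VEC1 O := by
  intro π z M N₁ N₂ N₀ lam hπ hL hz ⟨v, hv, he, n, n0, hn, hc⟩
  have hM := hL.odd
  have : NeZero M := ⟨hM.pos.ne'⟩
  have o1 : Odd N₁ := (Nat.odd_mul.1 (hL.eq ▸ hM)).1
  have o2 : Odd N₂ := (Nat.odd_mul.1 (hL.eq ▸ hM)).2
  let u : (ZMod M)ˣ := ZMod.unitOfCoprime 2 (Nat.coprime_two_left.2 hM)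
  have at1 : ∀ w ∈ Iv O (RR π) (H1 M N₁ N₀), ∀ a, w (dg 1 a) = w 1 := fun w hw a => by
    have := congrFun (mem_Iv.1 hw _ (dg_H1 N₁ N₀ 1 a)) 1
    rwa [rt_apply, one_mul] at this
  obtain ⟨v, hv, he, n, hn, ho, hc⟩ : ∃ v ∈ VV M 0 π ⊓ Iv O _ (H1 M N₁ N₀), Ev lam v ∧
      ∃ n, Nat.Coprime n N₁ ∧ Odd n ∧ (v 1).coeff (N₂ * n) ≠ 0 := by
    induction n using Nat.strong_induction_on generalizing v with
    | _ n ih =>
      rcases Nat.even_or_odd n with ⟨m, rfl⟩ | ho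
      · refine ih m (by omega) (Uf O _ 2 u v) ⟨uf_mem h1 hH hR hM hπ rfl hv.1,
          mem_Iv.2 fun h hh => by rw [← uf_rt, mem_Iv.1 hv.2 h hh]⟩
          (fun p a hp h2 ha => by rw [tf_uf hp h2, he p a hp h2 ha, map_smul]) (by omega)
          (Nat.Coprime.coprime_dvd_left ⟨2, by ring⟩ hn) ?_
        rwa [uf_coeff, mul_one, at1 v hv.2, show 2 * (N₂ * m) = N₂ * (m + m) by ring]
      · exact ⟨v, hv, he, n, hn, ho, hc⟩
  obtain ⟨r1, -, r3, -, r5, -⟩ := hR M hM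
  have z1 : z ^ N₁ = 1 := Co.inj (by
    obtain ⟨a, b, -⟩ := hR N₁ o1
    rw [map_pow, hz, ← a, ← map_pow, b.pow, map_one, map_one])
  have zM : z ^ M = 1 := by rw [hL.eq, pow_mul, z1, one_pow]
  have zr : algebraMap O (RR π) z = zR M π ^ N₂ := by
    rw [zR, ← map_pow, show zA O M ^ N₂ = algebraMap O (AA O) z from av_inj (by
      rw [map_pow, r1, av_alg, hz, hL.eq, ze_pw o1.pos.ne' o2.pos.ne'])]
    rfl
  obtain ⟨-, -, -, s4, -, -, s7, -, s9, -⟩ := h3 M π hM hπ.ne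
  have tc := s9 0 v ((s7 0).1 hv.1)
  have iv : ∀ h, (∀ t, un (-t) * h * un t ∈ H1 M N₁ N₀) →
      rt O _ h (dep O _ M (wp z v)) = dep O _ M (wp z v) := fun h hh => by
    show dep O _ M (rt O _ h (wp z v)) = _
    rw [wp, map_sum]
    congr 1
    refine Finset.sum_congr rfl fun t _ => ?_
    rw [map_smul, rt_rt]
    conv_rhs => rw [← mem_Iv.1 hv.2 _ (hh t), rt_rt, ← mul_assoc, ← mul_assoc, un_mul,
      add_neg_cancel, un_zero, one_mul]
  refine ⟨dep O _ M (wp z v), ⟨⟨⟨⟨(hS M 0 π hM hπ.ne).1 _ (Submodule.sum_mem _ fun t _ =>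
    Submodule.smul_mem _ _ (s4 0 _ v hv.1)), fun g m hm => by rw [dep_coeff, if_pos hm]⟩,
    fun x => ?_⟩, mem_Iv.2 fun h hh => iv h (conj_H1 hh)⟩, mem_Iv.2 ?_⟩,
    fun p a hp h2 ha => ?_, fun h0 => hc ?_⟩
  · conv_rhs => rw [← wp_wh zM v x, map_smul]
    rfl
  · rintro _ ⟨a, rfl⟩
    refine iv _ fun t => ?_
    rw [mul_assoc, dg_center, ← mul_assoc, un_mul, neg_add_cancel, un_zero, one_mul]
    exact dg_H1 _ _ _ _
  · rw [tf_dep hp h2, ← map_smul, wp, map_sum, Finset.smul_sum]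
    congr 1
    refine Finset.sum_congr rfl fun t _ => ?_
    rw [map_smul, tf_rt, he p a hp h2 ha, map_smul, smul_comm]
  · obtain ⟨a, ha⟩ := ZMod.unitsMap_surjective (⟨N₂, hL.eq⟩ : N₁ ∣ M) (ZMod.unitOfCoprime n hn)
    have an : (a : ZMod M).val ≡ n [MOD N₁] := by
      rw [← ZMod.natCast_eq_natCast_iff, ZMod.natCast_val]
      exact congrArg Units.val ha
    have c := congrArg (fun w : FT M (RR π) => (w (dg 1 a)).coeff (N₂ * n)) h0
    beta_reduce at c
    rw [dep_coeff, if_neg (Nat.not_even_iff_odd.2 (o2.mul ho)), wp, Finset.sum_apply, map_sum,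
      Finset.sum_congr rfl (g := fun _ => (v 1).coeff (N₂ * n)) fun t _ => ?_, Finset.sum_const,
      Finset.card_range, nsmul_eq_mul, Pi.zero_apply, map_zero] at c
    · have un : IsUnit (M : RR π) := by
        simpa using r3.map (Ideal.Quotient.mk (Ideal.span {algebraMap O (AA O) π}))
      exact un.mul_right_eq_zero.1 c
    · obtain ⟨s, hs⟩ : ∃ s : ℕ, (t : ZMod M) = (s : ZMod M) * (a : ZMod M) :=
        ⟨((t : ZMod M) * ((a⁻¹ : (ZMod M)ˣ) : ZMod M)).val, by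
          rw [ZMod.natCast_zmod_val, Units.inv_mul_cancel_right]⟩
      have e : t ≡ s * n [MOD N₁] := by
        refine (Nat.ModEq.of_dvd ⟨N₂, hL.eq⟩ ?_).trans (an.mul_left s)
        rw [← ZMod.natCast_eq_natCast_iff, hs, Nat.cast_mul, ZMod.natCast_zmod_val]
      have e' : z ^ t = z ^ (s * n) := pow_eq_pow_of_modEq e z1
      rw [Pi.smul_apply, PowerSeries.coeff_smul, rt_apply, hs, dg_un, e', Algebra.smul_def,
        map_pow, zr, ← pow_mul, show N₂ * (s * n) = s * (N₂ * n) by ring, tc_pow tc, at1 v hv.2]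

end Vale.Agent.P022D.Th
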