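import Vale.Agent.P022D.Th.Spec
import Vale.Agent.P022D.V.TrL
import Vale.Agent.P022D.V.Hk0

/-!
# P022D, block TH: calculus of complex tuples
-/

set_option linter.all false

open UpperHalfPlane hiding I
open Matrix Filter Topology Function.Periodic
open scoped MatrixGroups Manifold ModularForm

noncomputable section

namespace Vale.Agent.P022D.Th

open Vale.Agent.P022 Vale.Agent.P022D.V Vale.Agent.P022D.V.Tr Vale.Agent.P022.H218.L3
  Vale.Agent.P022.H236.L3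

variable {M : ℕ}

theorem xb_zero : HS M 0 0 := fun τ => by simpa using hasSum_zero

theorem xb_one : HS M 1 fun _ => 1 := by
  have := hs_const (M := M) (1 : ℂ)
  rwa [map_one] at this

theorem xb_neg : rd M (-1) = dg (-1) (-1) := by
  apply Units.ext
  ext i j
  rw [rd_apply, V.dg_coe]
  fin_cases i <;> fin_cases j <;> simp

theorem xb_nv0 {s : FT M ℂ} (h : NVC s) (g : GM M) : s g ≠ 0 := by
  intro e
  obtain ⟨f, h1, h2⟩ := h g
  rw [e] at h1
  exact h2 UpperHalfPlane.I (congrFun (hs_fun h1 xb_zero) _)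

theorem xb_ng (hM : 0 < M) {k : ℕ} {s : FT M ℂ} (h : s ∈ XC M k) :
    V.rt ℂ ℂ (dg (-1) (-1)) s = (-1 : ℂ) ^ k • s := by
  obtain ⟨F, h1, h2⟩ := h
  funext g
  have e1 : F (g * dg (-1) (-1)) = (fun _ => (-1 : ℂ) ^ k) * F g := by
    rw [← h1.eqv (-1) g, xb_neg, dg_center]
    funext τ
    have e : (-1 : SL(2, ℤ)) • τ = τ := by rw [ModularGroup.SL_neg_smul, one_smul]
    rw [Pi.mul_apply, ModularForm.SL_slash_apply, ModularGroup.denom_apply, e]
    simp only [Matrix.SpecialLinearGroup.coe_neg, Matrix.SpecialLinearGroup.coe_one, neg_apply,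
      ne_eq, one_ne_zero, not_false_eq_true, one_apply_ne, neg_zero, Int.cast_zero, zero_mul,
      one_apply_eq, Int.cast_neg, Int.cast_one, zero_add, _root_.zpow_neg, zpow_natCast]
    rw [mul_left_comm, mul_inv_cancel₀ (pow_ne_zero _ (by norm_num)), mul_one]
  have e2 := hs_mul (hs_const ((-1 : ℂ) ^ k)) (h2 g)
  rw [← e1] at e2
  rw [rt_apply, hs_unique hM (h2 _) e2, Pi.smul_apply, PowerSeries.smul_eq_C_mul]

theorem xb_div (hM : 0 < M) {k l : ℕ} {u w : FT M ℂ} (h : u * w ∈ XC M (k + l))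
    (h' : w ∈ XC M l) (hw : NVC w) : u ∈ XC M k := by
  obtain ⟨F, h1, h2⟩ := h
  obtain ⟨F', h1', h2'⟩ := h'
  have n1 : ∀ g τ, F' g τ ≠ 0 := fun g => by
    obtain ⟨f, e1, e2⟩ := hw g
    rwa [hs_fun (h2' g) e1]
  have e1 : ∀ (γ : SL(2, ℤ)) g, (F (rd M γ * g) / F' (rd M γ * g)) ∣[(k : ℤ)] γ = F g / F' g := by
    intro γ g
    have a1 := h1.eqv γ g
    have a2 : F (rd M γ * g) = F (rd M γ * g) / F' (rd M γ * g) * F' (rd M γ * g) := by
      funext τ
      exact (div_mul_cancel₀ _ (n1 _ τ)).symm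
    rw [a2, Nat.cast_add, ModularForm.mul_slash_SL2, h1'.eqv] at a1
    funext τ
    rw [Pi.div_apply, ← a1, Pi.mul_apply, mul_div_cancel_right₀ _ (n1 _ τ)]
  have e2 : ∀ g, F g / F' g ∈ Hol := fun g =>
    MDifferentiable.div (h1.bdd g).1 (h1'.bdd g).1 (n1 g)
  have e3 : ∀ g, H236.Exq M 0 (u g) (F g / F' g) := by
    intro g
    have l0 : ls 0 (w g) ≠ 0 := (hs_exq (h2' g)).exL.ne_zero (h1'.bdd g).1
      fun e => n1 g UpperHalfPlane.I (congrFun e _)
    have := (hs_exq (h2 g)).exL.div hM.ne' (hs_exq (h2' g)).exL l0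
    rw [Pi.mul_apply, mul_comm (u g), ← add_zero (0 : ℤ), ← ls_mul, add_zero,
      mul_div_cancel_left₀ _ l0] at this
    exact this.exq
  have e4 : ∀ g, IsBoundedAtImInfty (F g / F' g) := fun g =>
    (P027M.M.B4.exq_tendsto hM.ne' (e3 g)).isBigO_one ℝ
  refine ⟨fun g => F g / F' g, ⟨fun g => ⟨e2 g, fun γ => ?_⟩, e1⟩, fun g => ?_⟩
  · have := e1 γ ((rd M γ)⁻¹ * g)
    rw [mul_inv_cancel_left] at this
    rw [this]
    exact e4 _
  · have a1 := e1 (ModularGroup.T ^ (M : ℤ)) g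
    rw [rd_T, one_mul] at a1
    have a2 := hs_qExp hM (e2 g) (e4 g) a1
    rwa [(hs_exq a2).unique hM.ne' (e3 g)] at a2

theorem xb : XBS := by
  intro M hM
  haveI : NeZero M := ⟨hM.ne'⟩
  refine ⟨?_, ?_, ?_, fun k s hs => xb_ng hM hs, fun k l u δ a b c => xb_div hM a b c, ?_, ?_,
    fun g => ⟨fun _ => 1, xb_one, fun _ => one_ne_zero⟩, fun s hs => xb_nv0 hs⟩
  · rintro k l s ⟨F, h1, h2⟩ t ⟨F', h1', h2'⟩
    refine ⟨F * F', ⟨fun g => ?_, fun γ g => ?_⟩, fun g => hs_mul (h2 g) (h2' g)⟩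
    · rw [Nat.cast_add]
      exact (h1.bdd g).mul (h1'.bdd g)
    · rw [Nat.cast_add, Pi.mul_apply, Pi.mul_apply, ModularForm.mul_slash_SL2, h1.eqv, h1'.eqv]
  · exact ⟨fun _ _ => 1, ⟨fun g => Bdd.const _, fun γ g => ModularForm.is_invariant_const γ _⟩,
      fun g => xb_one⟩
  · rintro k h s ⟨F, h1, h2⟩
    refine ⟨fun g => F (g * h), ⟨fun g => h1.bdd _, fun γ g => ?_⟩, fun g => h2 _⟩
    rw [mul_assoc, h1.eqv]
  · rintro k s ⟨F, h1, h2⟩ h0
    funext g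
    obtain ⟨γ, hγ⟩ := Hk.exists_rd g
    have a1 : F (dg 1 (GeneralLinearGroup.det g)) = 0 := hs_fun (h2 _) (by rw [h0]; exact xb_zero)
    have a2 := h1.eqv γ⁻¹ g
    rw [map_inv, show (rd M γ)⁻¹ * g = dg 1 (GeneralLinearGroup.det g) from
      inv_mul_eq_of_eq_mul hγ, a1, SlashAction.zero_slash] at a2
    have a3 := h2 g
    rw [← a2] at a3
    exact hs_unique hM a3 xb_zero
  · intro s t hs ht g
    obtain ⟨f, a, b⟩ := hs g
    obtain ⟨f', a', b'⟩ := ht g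
    exact ⟨f * f', hs_mul a a', fun τ => mul_ne_zero (b τ) (b' τ)⟩

end Vale.Agent.P022D.Th
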