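import Vale.Agent.P022D.V.All0
import Vale.Agent.P022D.Th.Xb
import Vale.Agent.P022D.Th.Bd
import Vale.Agent.P022D.Th.Lv1
import Vale.Agent.P022D.Th.Genq
import Vale.Agent.P022D.Th.Sepx
import Vale.Agent.P022D.Th.Dsc
import Vale.Agent.P022D.Th.Basq
import Vale.Agent.P022D.Th.Tup
import Vale.Agent.P022D.Th.Latc
import Vale.Agent.P022D.Th.Eig
import Vale.Agent.P022D.Th.Eigc
import Vale.Agent.P022D.Th.Vec0
import Vale.Agent.P022D.Th.Vec1

/-!
# P022D, block TH, part two: closed statements
-/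

set_option linter.all false

namespace Vale.Agent.P022D.Th

open Vale.Agent.P022D.V

theorem basq0 : BASQ := basq xb (sepx xb lv1 genq) dsc0

variable (O : Type) [CommRing O] [Co O]

theorem bd0 : BD O := bd xb O

theorem eigc0 : EIGC O := eigc (latc basq0 aut tup back O (bd0 O)) sepj eig O

/-- **VEC** -/
theorem vec : VEC O :=
  vec_of O (vec0 O xb (bd0 O) basq0 tup (eigc0 O) (vs1 O) (vs3 O) (par O) (All.hkv O) (All.irr O)
    (root O)) (vec1 O (vs1 O) (vs3 O) (hk O) (All.ser O) (root O))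

end Vale.Agent.P022D.Th
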