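import Vale.Agent.P022D.Th.Spec1
import Vale.Agent.P022.H724.Bas

/-!
# P022D, block TH, row 1124: the odd part of a quadratic discriminant is squarefree
-/

open NumberField

namespace Vale.Agent.P022D.Th

open Vale.Agent.P022

theorem dsq : DSQ := by
  intro K _ _ h2 l hl hl2 ⟨m, hm⟩
  obtain ⟨B⟩ := H724.exists_qb (K := K) h2
  have h1 : (l : 𝓞 K) ^ 2 ∣ B.δ ^ 2 := ⟨(m : 𝓞 K), by rw [B.δ_sq, hm]; push_cast; rfl⟩
  obtain ⟨y, hy⟩ := (IsIntegrallyClosed.pow_dvd_pow_iff two_ne_zero).1 h1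
  obtain ⟨a, b, rfl⟩ := B.gen y
  have h3 := (B.ind (-B.q - l * a) (2 - l * b) (by
    unfold H724.QB.δ at hy
    push_cast
    linear_combination hy)).2
  have h4 : (l : ℤ) ∣ (2 : ℕ) := ⟨b, by push_cast; linarith⟩
  exact hl2 ((Nat.prime_dvd_prime_iff_eq hl Nat.prime_two).1 (Int.natCast_dvd_natCast.1 h4))

end Vale.Agent.P022D.Th
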