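import Vale.Agent.P022D.Th.Spec1

/-!
# P022D, block TH: a ray class character of conductor a power of two times one real place
-/

set_option linter.all false

open NumberField

noncomputable section

namespace Vale.Agent.P022D.Th

namespace Eta

theorem cz {N : ℕ} (hN : 0 < N) (k : ℤ) :
    (((k : ℚ) / N : ℚ) : AddCircle (1 : ℚ)) = 0 ↔ (N : ℤ) ∣ k := by
  have h0 : (N : ℚ) ≠ 0 := Nat.cast_ne_zero.2 hN.ne'
  rw [AddCircle.coe_eq_zero_iff]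
  refine exists_congr fun n => ?_
  rw [zsmul_eq_mul, mul_one, eq_div_iff h0, eq_comm, mul_comm]
  exact_mod_cast Iff.rfl

theorem ex_k {N : ℕ} (hN : 0 < N) (y : AddCircle (1 : ℚ)) :
    ∃ k : ℤ, N • y = 0 → y = (((k : ℚ) / N : ℚ) : AddCircle (1 : ℚ)) := by
  have h0 : (N : ℚ) ≠ 0 := Nat.cast_ne_zero.2 hN.ne'
  by_cases h : N • y = 0
  swap
  · exact ⟨0, fun k => (h k).elim⟩
  obtain ⟨q, rfl⟩ := QuotientAddGroup.mk_surjective y
  rw [← AddCircle.coe_nsmul, AddCircle.coe_eq_zero_iff] at h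
  obtain ⟨k, hk⟩ := h
  rw [zsmul_eq_mul, mul_one, nsmul_eq_mul] at hk
  exact ⟨k, fun _ => by rw [hk, mul_div_cancel_left₀ _ h0]⟩

theorem tors {N : ℕ} (hN : 0 < N) {E : Type} [Field E] {ζ : E} (hζ : IsPrimitiveRoot ζ N) :
    ∃ e : AddCircle (1 : ℚ) → E, (∀ x y, N • x = 0 → N • y = 0 → e (x + y) = e x * e y) ∧
      (∀ x, N • x = 0 → (e x = 1 ↔ x = 0)) ∧ ∀ x, e x ^ N = 1 := by
  choose k hk using ex_k hN
  have z0 : ζ ≠ 0 := hζ.ne_zero hN.ne'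
  refine ⟨fun y => ζ ^ k y, fun x y hx hy => ?_, fun x hx => ?_, fun x => ?_⟩
  · have h1 := hk (x + y) (by rw [smul_add, hx, hy, add_zero])
    have h2 : ((((k (x + y) - (k x + k y) : ℤ) : ℚ) / N : ℚ) : AddCircle (1 : ℚ)) = 0 := by
      rw [Int.cast_sub, Int.cast_add, sub_div, add_div, AddCircle.coe_sub, AddCircle.coe_add,
        ← h1, ← hk x hx, ← hk y hy, sub_self]
    have h3 := (hζ.zpow_eq_one_iff_dvd _).2 ((cz hN _).1 h2)
    rw [zpow_sub₀ z0, div_eq_one_iff_eq (zpow_ne_zero _ z0), zpow_add₀ z0] at h3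
    exact h3
  · show ζ ^ k x = 1 ↔ x = 0
    rw [hζ.zpow_eq_one_iff_dvd, ← cz hN, ← hk x hx]
  · show (ζ ^ k x) ^ N = 1
    rw [← zpow_natCast, ← zpow_mul, hζ.zpow_eq_one_iff_dvd]
    exact dvd_mul_left _ _

/-- the abstract construction -/
theorem abs {I Q : Type} [CommMonoid I] [CommGroup Q] (C : I → Prop) (C1 : C 1)
    (Cm : ∀ a b, C (a * b) ↔ C a ∧ C b) (F : I → Q) (F1 : F 1 = 1)
    (Fm : ∀ a b, C a → C b → F (a * b) = F a * F b) {m : ℕ} (hm : m ≠ 0)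
    (Fn : ∀ a, C a → F a ^ (m * 2) = 1) {x₀ : Q} (h1 : x₀ ≠ 1) (h2 : x₀ * x₀ = 1) :
    ∃ s : ℕ, ∀ (E : Type) [Field E] (ζ : E), IsPrimitiveRoot ζ (2 ^ (s + 1)) → ∃ η : I →* E,
      ∀ a, C a → (F a = 1 → η a = 1) ∧ (F a = x₀ → η a = -1) ∧ η a ^ 2 ^ (s + 1) = 1 := by
  classical
  obtain ⟨s, n, ⟨l, rfl⟩, rfl⟩ := Nat.exists_eq_two_pow_mul_odd hm
  obtain ⟨c, hc⟩ := CharacterModule.exists_character_apply_ne_zero_of_ne_zero
    (A := Additive Q) (a := Additive.ofMul x₀) h1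
  refine ⟨s, fun E _ ζ hζ => ?_⟩
  obtain ⟨e, e1, e2, e3⟩ := tors (by positivity) hζ
  let f : I → AddCircle (1 : ℚ) := fun a => (2 * l + 1) • c (Additive.ofMul (F a))
  have ft : ∀ a, C a → 2 ^ (s + 1) • f a = 0 := fun a ha => by
    have := congrArg (fun x => c (Additive.ofMul x)) (Fn a ha)
    simp only [ofMul_pow, map_nsmul, ofMul_one, map_zero] at this
    rw [← this, ← mul_smul]
    congr 1
    ring
  have f0 : ∀ a, F a = 1 → f a = 0 := fun a ha => by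
    simp only [f, ha, ofMul_one, map_zero, smul_zero]
  have e0 : e 0 = 1 := (e2 0 (smul_zero _)).2 rfl
  have c2 : c (Additive.ofMul x₀) + c (Additive.ofMul x₀) = 0 := by
    rw [← map_add, ← ofMul_mul, h2, ofMul_one, map_zero]
  refine ⟨⟨⟨fun a => if C a then e (f a) else 0, ?_⟩, fun a b => ?_⟩, fun a ha => ?_⟩
  · rw [if_pos C1, f0 1 F1, e0]
  · dsimp only
    by_cases ha : C a
    · by_cases hb : C b
      · rw [if_pos ((Cm a b).2 ⟨ha, hb⟩), if_pos ha, if_pos hb, ← e1 _ _ (ft a ha) (ft b hb)]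
        simp only [f, Fm a b ha hb, ofMul_mul, map_add, smul_add]
      · rw [if_neg fun h => hb ((Cm a b).1 h).2, if_neg hb, mul_zero]
    · rw [if_neg fun h => ha ((Cm a b).1 h).1, if_neg ha, zero_mul]
  · simp only [MonoidHom.coe_mk, OneHom.coe_mk, if_pos ha]
    refine ⟨fun h => by rw [f0 a h, e0], fun h => ?_, e3 _⟩
    have e4 : f a = c (Additive.ofMul x₀) := by
      simp only [f, h]
      rw [add_smul, one_smul, mul_comm, mul_smul, two_smul, c2, smul_zero, zero_add]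
    have e5 := e1 _ _ (ft a ha) (ft a ha)
    rw [e4, c2, e0, eq_comm, mul_self_eq_one_iff] at e5
    rw [e4]
    exact e5.resolve_left fun k => hc ((e2 _ (e4 ▸ ft a ha)).1 k)

variable {K : Type} [Field K] [NumberField K]

/-- congruent to one and positive -/
def Ps (σ : K →+* ℝ) (d a : 𝓞 K) : Prop := d ∣ a - 1 ∧ 0 < σ (a : K)

theorem dmul {R : Type} [CommRing R] {d a b : R} (h : d ∣ a - 1) (h' : d ∣ b - 1) :
    d ∣ a * b - 1 := by
  rw [show a * b - 1 = (a - 1) * b + (b - 1) by ring]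
  exact dvd_add (h.mul_right _) h'

theorem smul' (σ : K →+* ℝ) (a b : 𝓞 K) : σ ((a * b : 𝓞 K) : K) = σ (a : K) * σ (b : K) := by
  rw [← map_mul]
  rfl

theorem Ps.one {σ : K →+* ℝ} {d : 𝓞 K} : Ps σ d 1 := ⟨by simp, by simp⟩

theorem Ps.mul {σ : K →+* ℝ} {d a b : 𝓞 K} (h : Ps σ d a) (h' : Ps σ d b) : Ps σ d (a * b) :=
  ⟨dmul h.1 h'.1, by rw [smul']; exact mul_pos h.2 h'.2⟩

/-- the principal ideal -/
def sp (a : 𝓞 K) : FractionalIdeal (nonZeroDivisors (𝓞 K)) K := (Ideal.span {a} : Ideal (𝓞 K))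

theorem sp_mul (a b : 𝓞 K) : sp (a * b) = sp a * sp b := by
  rw [sp, sp, sp, ← FractionalIdeal.coeIdeal_mul, Ideal.span_singleton_mul_span_singleton]

/-- the ray -/
def Ray (σ : K →+* ℝ) (d : 𝓞 K) : Subgroup (FractionalIdeal (nonZeroDivisors (𝓞 K)) K)ˣ where
  carrier := {x | ∃ a b, Ps σ d a ∧ Ps σ d b ∧ x * sp b = sp a}
  one_mem' := ⟨1, 1, Ps.one, Ps.one, by simp⟩
  mul_mem' := by
    rintro x y ⟨a, b, ha, hb, e⟩ ⟨a', b', ha', hb', e'⟩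
    refine ⟨_, _, ha.mul ha', hb.mul hb', ?_⟩
    rw [sp_mul, sp_mul, Units.val_mul, mul_mul_mul_comm, e, e']
  inv_mem' := by
    rintro x ⟨a, b, ha, hb, e⟩
    exact ⟨b, a, hb, ha, by rw [← e, Units.inv_mul_cancel_left]⟩

open Classical in
/-- the ray class of an ideal -/
def cl (σ : K →+* ℝ) (d : 𝓞 K) (𝔞 : Ideal (𝓞 K)) :
    (FractionalIdeal (nonZeroDivisors (𝓞 K)) K)ˣ ⧸ Ray σ d :=
  if h : 𝔞 ∈ nonZeroDivisors (Ideal (𝓞 K)) then
    QuotientGroup.mk' _ (FractionalIdeal.mk0 K ⟨𝔞, h⟩) else 1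

theorem cl_mul {σ : K →+* ℝ} {d : 𝓞 K} {𝔞 𝔟 : Ideal (𝓞 K)} (h : 𝔞 ≠ 0) (h' : 𝔟 ≠ 0) :
    cl σ d (𝔞 * 𝔟) = cl σ d 𝔞 * cl σ d 𝔟 := by
  have m := mem_nonZeroDivisors_of_ne_zero h
  have m' := mem_nonZeroDivisors_of_ne_zero h'
  rw [cl, cl, cl, dif_pos m, dif_pos m', dif_pos (mul_mem m m'), ← map_mul, ← map_mul]
  rfl

theorem cl_iff {σ : K →+* ℝ} {d : 𝓞 K} {𝔞 : Ideal (𝓞 K)} (h : 𝔞 ≠ 0) : cl σ d 𝔞 = 1 ↔
    ∃ a b, Ps σ d a ∧ Ps σ d b ∧ 𝔞 * Ideal.span {b} = Ideal.span {a} := by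
  rw [cl, dif_pos (mem_nonZeroDivisors_of_ne_zero h), QuotientGroup.mk'_apply,
    QuotientGroup.eq_one_iff]
  refine exists₂_congr fun a b => and_congr_right fun _ => and_congr_right fun _ => ?_
  rw [FractionalIdeal.coe_mk0, sp, sp, ← FractionalIdeal.coeIdeal_mul,
    FractionalIdeal.coeIdeal_inj]

theorem sp_ne {a : 𝓞 K} (h : a ≠ 0) : (Ideal.span {a} : Ideal (𝓞 K)) ≠ 0 :=
  fun e => h (Ideal.span_singleton_eq_bot.1 e)

theorem cl_ps {σ : K →+* ℝ} {d a : 𝓞 K} (h : Ps σ d a) : cl σ d (Ideal.span {a}) = 1 :=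
  (cl_iff (sp_ne fun e => by simpa [e] using h.2)).2 ⟨a, 1, h, Ps.one, by simp⟩

theorem cl_pow {σ : K →+* ℝ} {d : 𝓞 K} {𝔞 : Ideal (𝓞 K)} (h : 𝔞 ≠ 0) (n : ℕ) :
    cl σ d (𝔞 ^ n) = cl σ d 𝔞 ^ n := by
  induction n with
  | zero => simpa using cl_ps (σ := σ) (d := d) Ps.one
  | succ n ih => rw [pow_succ, pow_succ, cl_mul (pow_ne_zero _ h) h, ih]

theorem two_nu : ¬ IsUnit ((2 : ℕ) : 𝓞 K) := fun h => by
  have := IsUnit.of_map (algebraMap ℤ (𝓞 K)) ((2 : ℕ) : ℤ) (by rwa [map_natCast])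
  rw [Int.isUnit_iff] at this
  omega

theorem sg_ne (σ : K →+* ℝ) {a : 𝓞 K} (h : a ≠ 0) : σ (a : K) ≠ 0 :=
  (map_ne_zero σ).2 (RingOfIntegers.coe_ne_zero_iff.2 h)

end Eta

open Eta in
theorem eta (hU : UPOS) : ETA := by
  intro K _ _ hK σ σ₂ hσ
  obtain ⟨r, hr⟩ := hU K hK σ σ₂ hσ
  set d : 𝓞 K := ((2 ^ (r + 1) : ℕ) : 𝓞 K) with hd
  have d2 : d = ((2 : ℕ) : 𝓞 K) ^ (r + 1) := Nat.cast_pow _ _
  have d0 : d ≠ 0 := Nat.cast_ne_zero.2 (by positivity)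
  have cne : ∀ 𝔞 : Ideal (𝓞 K), IsCoprime 𝔞 (Ideal.span {((2 : ℕ) : 𝓞 K)}) → 𝔞 ≠ 0 := by
    rintro _ h rfl
    rw [isCoprime_zero_left, Ideal.isUnit_iff, Ideal.span_singleton_eq_top] at h
    exact two_nu h
  have cop : ∀ α : 𝓞 K, d ∣ α - 1 →
      IsCoprime (Ideal.span {α}) (Ideal.span {((2 : ℕ) : 𝓞 K)}) := by
    rintro α ⟨t, ht⟩
    rw [Ideal.isCoprime_span_singleton_iff]
    exact ⟨1, -(((2 : ℕ) : 𝓞 K) ^ r * t), by rw [d2] at ht; linear_combination ht⟩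
  have ne0 : ∀ α : 𝓞 K, d ∣ α - 1 → α ≠ 0 := fun α h e =>
    cne _ (cop α h) (Ideal.span_singleton_eq_bot.2 e)
  have a1 : d ∣ (1 - d) - 1 := ⟨-1, by ring⟩
  have a2 : σ ((1 - d : 𝓞 K) : K) < 0 := by
    have e : ((1 - d : 𝓞 K) : K) = 1 - ((2 ^ (r + 1) : ℕ) : K) := by
      rw [hd]
      exact (map_sub (algebraMap (𝓞 K) K) _ _).trans (by rw [map_one, map_natCast])
    rw [e, map_sub, map_one, map_natCast, sub_neg]
    exact_mod_cast Nat.one_lt_two_pow (Nat.succ_ne_zero r)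
  have ng : ∀ α : 𝓞 K, d ∣ α - 1 → σ (α : K) < 0 →
      cl σ d (Ideal.span {α}) * cl σ d (Ideal.span {1 - d}) = 1 := fun α h1 h2 => by
    rw [← cl_mul (sp_ne (ne0 _ h1)) (sp_ne (ne0 _ a1)), Ideal.span_singleton_mul_span_singleton]
    exact cl_ps ⟨dmul h1 a1, by rw [smul']; exact mul_pos_of_neg_of_neg h2 a2⟩
  haveI := Ideal.finiteQuotientOfFreeOfNeBot (Ideal.span {d}) (sp_ne d0)
  obtain ⟨s, hs⟩ := Eta.abs (fun 𝔞 => IsCoprime 𝔞 (Ideal.span {((2 : ℕ) : 𝓞 K)}))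
    isCoprime_one_left (fun a b => IsCoprime.mul_left_iff) (cl σ d)
    (by simpa using cl_ps (σ := σ) (d := d) Ps.one) (fun a b ha hb => cl_mul (cne a ha) (cne b hb))
    (m := Nat.card (ClassGroup (𝓞 K)) * Nat.card (𝓞 K ⧸ Ideal.span {d})ˣ)
    (mul_ne_zero Nat.card_pos.ne' Nat.card_pos.ne') (fun 𝔞 h => by
      have m := mem_nonZeroDivisors_of_ne_zero (cne 𝔞 h)
      have p1 : ClassGroup.mk0 (⟨𝔞, m⟩ ^ Nat.card (ClassGroup (𝓞 K))) = 1 := by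
        rw [map_pow, pow_card_eq_one']
      obtain ⟨β, hβ⟩ := (ClassGroup.mk0_eq_one_iff (pow_mem m _)).1 p1
      have hβ' : 𝔞 ^ Nat.card (ClassGroup (𝓞 K)) = Ideal.span {β} := hβ
      have c1 : IsCoprime β d := by
        rw [d2]
        refine IsCoprime.pow_right ((Ideal.isCoprime_span_singleton_iff _ _).1 ?_)
        rw [← hβ']
        exact h.pow_left
      obtain ⟨u, hu⟩ : IsUnit (Ideal.Quotient.mk (Ideal.span {d}) β) := by
        obtain ⟨x, y, e⟩ := c1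
        refine IsUnit.of_mul_eq_one (Ideal.Quotient.mk _ x) ?_
        rw [← map_mul, ← map_one (Ideal.Quotient.mk (Ideal.span {d})), Ideal.Quotient.eq,
          Ideal.mem_span_singleton]
        exact ⟨-y, by linear_combination e⟩
      have c2 : d ∣ β ^ Nat.card (𝓞 K ⧸ Ideal.span {d})ˣ - 1 := by
        rw [← Ideal.mem_span_singleton, ← Ideal.Quotient.eq, map_pow, ← hu,
          ← Units.val_pow_eq_pow_val, pow_card_eq_one', map_one, Units.val_one]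
      rw [← cl_pow (cne 𝔞 h), pow_mul, pow_mul, hβ', Ideal.span_singleton_pow,
        Ideal.span_singleton_pow, pow_two]
      exact cl_ps ⟨dmul c2 c2, by rw [smul']; exact mul_self_pos.2 (sg_ne σ (ne0 _ c2))⟩)
    (x₀ := cl σ d (Ideal.span {1 - d})) (fun h => by
      obtain ⟨a, b, ha, hb, e⟩ := (cl_iff (sp_ne (ne0 _ a1))).1 h
      rw [Ideal.span_singleton_mul_span_singleton, Ideal.span_singleton_eq_span_singleton] at e
      obtain ⟨u, hu⟩ := e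
      have u1 : d ∣ (u : 𝓞 K) - 1 := by
        rw [show (u : 𝓞 K) - 1 = (a - 1) - ((1 - d) * b - 1) * u by rw [← hu]; ring]
        exact dvd_sub ha.1 ((dmul a1 hb.1).mul_right _)
      have u2 := hr u ((Nat.cast_dvd_cast (pow_dvd_pow 2 (Nat.le_succ r))).trans u1)
      have u3 := ha.2
      rw [← hu, smul', smul'] at u3
      exact absurd u3 (not_lt.2 (mul_neg_of_neg_of_pos (mul_neg_of_neg_of_pos a2 hb.2) u2).le))
    (ng _ a1 a2)
  refine ⟨r + 1, s, fun E _ ζ hζ => ?_⟩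
  obtain ⟨η, hη⟩ := hs E ζ hζ
  refine ⟨η, fun α hα => ?_, fun 𝔞 h => (hη 𝔞 h).2.2⟩
  obtain ⟨k1, k2, -⟩ := hη _ (cop α hα)
  split_ifs with h
  · exact k1 (cl_ps ⟨hα, h⟩)
  · exact k2 ((eq_inv_of_mul_eq_one_left (ng α hα (lt_of_le_of_ne (not_lt.1 h)
      (sg_ne σ (ne0 α hα))))).trans (eq_inv_of_mul_eq_one_left (ng _ a1 a2)).symm)

end Vale.Agent.P022D.Th
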