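import Vale.Agent.P022D.Th.Spec1

/-!
# P022D, block TH: multiplicative representatives
-/

set_option linter.all false

open Matrix NumberField

noncomputable section

namespace Vale.Agent.P022D.Th

open Vale.Agent.P022 Vale.Agent.P022D.Dk Vale.Agent.P022D.Top IsUltrametricDist

namespace Tei

variable {E : Type} [NormedField E] [IsUltrametricDist E]

theorem add_lt {x y : E} (hx : ‖x‖ < 1) (hy : ‖y‖ < 1) : ‖x + y‖ < 1 :=
  (norm_add_le_max x y).trans_lt (max_lt hx hy)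

theorem mul_lt {x y : E} (hx : ‖x‖ ≤ 1) (hy : ‖y‖ < 1) : ‖x * y‖ < 1 := by
  rw [norm_mul]
  exact (mul_le_of_le_one_left (norm_nonneg _) hx).trans_lt hy

theorem one_of {x y : E} (hx : ‖x‖ = 1) (h : ‖y - x‖ < 1) : ‖y‖ = 1 := by
  have h1 := norm_add_le_max (y - x) x
  have h2 := norm_add_le_max y (-(y - x))
  rw [sub_add_cancel] at h1
  rw [neg_sub, add_sub_cancel, norm_sub_rev, hx] at h2
  rw [hx] at h1
  exact le_antisymm (h1.trans (max_le h.le le_rfl)) ((le_max_iff.1 h2).resolve_right h.not_ge)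

theorem pow_sub {u : E} (hu : ‖u‖ ≤ 1) (m : ℕ) : ‖u ^ m - 1‖ ≤ ‖u - 1‖ := by
  induction m with
  | zero => simp
  | succ m ih =>
    rw [show u ^ (m + 1) - 1 = u * (u ^ m - 1) + (u - 1) by ring]
    refine (norm_add_le_max _ _).trans (max_le ?_ le_rfl)
    rw [norm_mul]
    exact (mul_le_of_le_one_left (norm_nonneg _) hu).trans ih

theorem geom {u : E} (hu : ‖u - 1‖ < 1) (m : ℕ) : ‖∑ i ∈ Finset.range m, u ^ i - m‖ < 1 := by
  induction m with
  | zero => simp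
  | succ m ih =>
    rw [Finset.sum_range_succ, Nat.cast_succ, show ∑ i ∈ Finset.range m, u ^ i + u ^ m - (m + 1) =
      (∑ i ∈ Finset.range m, u ^ i - m) + (u ^ m - 1) by ring]
    exact add_lt ih ((pow_sub (one_of norm_one hu).le m).trans_lt hu)

theorem uniq (h2 : ‖(2 : E)‖ < 1) {n : ℕ} (hn : Odd n) {x y : E} (hx : x ^ n = 1) (hy : y ^ n = 1)
    (h : ‖x - y‖ < 1) : x = y := by
  have y1 : ‖y‖ = 1 := (pow_eq_one_iff_of_nonneg (norm_nonneg _) hn.pos.ne').1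
    (by rw [← norm_pow, hy, norm_one])
  have y0 : y ≠ 0 := norm_ne_zero_iff.1 (by rw [y1]; exact one_ne_zero)
  have h1 : ‖x / y - 1‖ < 1 := by rwa [div_sub_one y0, norm_div, y1, div_one]
  have h3 : ‖(n : E)‖ = 1 := by
    obtain ⟨k, rfl⟩ := hn
    refine one_of norm_one ?_
    push_cast
    rw [add_sub_cancel_right, mul_comm]
    exact mul_lt (norm_natCast_le_one E k) h2
  have h4 := one_of h3 (geom h1 n)
  have h5 := geom_sum_mul (x / y) n
  rw [div_pow, hx, hy, div_one, sub_self, mul_eq_zero, sub_eq_zero, div_eq_one_iff_eq y0] at h5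
  exact h5.resolve_left fun o => by rw [o, norm_zero] at h4; exact zero_ne_one h4

theorem exi [ProperSpace E] (h2 : ‖(2 : E)‖ < 1) {n : ℕ} (hn : Odd n) {x : E} (hx : ‖x‖ = 1)
    (h : ‖x ^ n - 1‖ < 1) : ∃ y : E, y ^ n = 1 ∧ ‖y - x‖ < 1 := by
  obtain ⟨y, hy, hm⟩ := (isCompact_closedBall x ‖x ^ n - 1‖).exists_isMinOn
    ⟨x, Metric.mem_closedBall_self (norm_nonneg _)⟩ (f := fun y => ‖y ^ n - 1‖) (by fun_prop)
  have a1 : ‖y ^ n - 1‖ ≤ ‖x ^ n - 1‖ := hm (Metric.mem_closedBall_self (norm_nonneg _))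
  rw [mem_closedBall_iff_norm] at hy
  have y1 := one_of hx (hy.trans_lt h)
  refine ⟨y, by_contra fun o => ?_, hy.trans_lt h⟩
  have a2 : ‖y ^ n - 1‖ ≤ ‖(y ^ (n + 1)) ^ n - 1‖ := hm (mem_closedBall_iff_norm.2 (by
    rw [show y ^ (n + 1) - x = y * (y ^ n - 1) + (y - x) by ring]
    refine (norm_add_le_max _ _).trans (max_le ?_ hy)
    rwa [norm_mul, y1, one_mul]))
  obtain ⟨k, hk⟩ := hn.add_one
  have a3 := pow_sub (u := y ^ n) (by rw [norm_pow, y1, one_pow]) k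
  have a4 : ‖(y ^ n) ^ k - 1 + 2‖ < 1 := add_lt (a3.trans_lt (a1.trans_lt h)) h2
  rw [← pow_mul, mul_comm, pow_mul, hk, show (y ^ n) ^ (k + k) - 1 =
    ((y ^ n) ^ k - 1) * ((y ^ n) ^ k - 1 + 2) by ring, norm_mul] at a2
  have a5 : 0 < ‖y ^ n - 1‖ := norm_pos_iff.2 (sub_ne_zero.2 o)
  nlinarith [norm_nonneg ((y ^ n) ^ k - 1), norm_nonneg ((y ^ n) ^ k - 1 + 2)]

theorem half (h2 : ‖(2 : E)‖ < 1) {v : E} (hv : ‖v‖ = 1) (a : ℕ) (h : ‖v ^ 2 ^ a - 1‖ < 1) :
    ‖v - 1‖ < 1 := by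
  induction a with
  | zero => simpa using h
  | succ a ih =>
    refine ih ?_
    have a1 : ‖1 - v ^ 2 ^ a‖ ≤ 1 := by
      rw [sub_eq_add_neg]
      exact (norm_add_le_max _ _).trans (by simp [hv])
    have a2 := add_lt h (mul_lt a1 h2)
    rw [pow_succ, pow_mul, show (v ^ 2 ^ a) ^ 2 - 1 + (1 - v ^ 2 ^ a) * 2 = (v ^ 2 ^ a - 1) ^ 2 by
      ring, norm_pow] at a2
    exact lt_of_pow_lt_pow_left₀ 2 zero_le_one (by rwa [one_pow])

theorem odd [ProperSpace E] (h2 : ‖(2 : E)‖ < 1) :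
    ∃ n : ℕ, Odd n ∧ ∀ x : E, ‖x‖ = 1 → ‖x ^ n - 1‖ < 1 := by
  classical
  obtain ⟨t, -, ht, hc⟩ := finite_cover_balls_of_compact (isCompact_sphere (0 : E) 1) one_pos
  obtain ⟨a, n, hn, e⟩ := Nat.exists_eq_two_pow_mul_odd (Nat.factorial_ne_zero ht.toFinset.card)
  refine ⟨n, hn, fun x hx => half h2 (by rw [norm_pow, hx, one_pow]) a ?_⟩
  have h1 : ∀ i : ℕ, ∃ c ∈ ht.toFinset, ‖x ^ i - c‖ < 1 := fun i => by
    simpa [dist_eq_norm] using hc (show x ^ i ∈ Metric.sphere 0 1 by simp [hx])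
  choose c c1 c2 using h1
  have key : ∀ i j, i < j → j ≤ ht.toFinset.card → c i = c j → ‖(x ^ n) ^ 2 ^ a - 1‖ < 1 := by
    intro i j hij hj o
    obtain ⟨d, rfl⟩ := Nat.exists_eq_add_of_le hij.le
    obtain ⟨m, hm⟩ := Nat.dvd_factorial (m := d) (n := ht.toFinset.card) (by omega) (by omega)
    have a1 := add_lt (c2 (i + d)) ((norm_neg _).trans_lt (c2 i))
    rw [o, show x ^ (i + d) - c (i + d) + -(x ^ i - c (i + d)) = x ^ i * (x ^ d - 1) by ring,
      norm_mul, norm_pow, hx, one_pow, one_mul] at a1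
    rw [← pow_mul, mul_comm, ← e, hm, pow_mul]
    exact (pow_sub (by rw [norm_pow, hx, one_pow]) m).trans_lt a1
  obtain ⟨i, hi, j, hj, hij, o⟩ := Finset.exists_ne_map_eq_of_card_lt_of_maps_to
    (s := Finset.range (ht.toFinset.card + 1)) (t := ht.toFinset) (by simp) (f := c)
    fun i _ => c1 i
  rw [Finset.mem_range] at hi hj
  rcases lt_or_gt_of_ne hij with h | h
  · exact key i j h (by omega) o
  · exact key j i h (by omega) o.symm

end Tei

open Tei in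
theorem tei0 : TEI0 := by
  classical
  intro E _ _ _ _
  haveI : ProperSpace E := FiniteDimensional.proper ℚ_[2] E
  have h2 : ‖(2 : E)‖ < 1 := by
    rw [← map_ofNat (algebraMap ℚ_[2] E) 2, norm_algebraMap']
    exact_mod_cast Padic.norm_p_lt_one (p := 2)
  obtain ⟨n, hn, h⟩ := odd h2
  choose s s1 s2 using fun (x : E) (hx : ‖x‖ = 1) => exi h2 hn hx (h x hx)
  have sn : ∀ x hx, ‖s x hx‖ = 1 := fun x hx => one_of hx (s2 x hx)
  refine ⟨n, fun x => if hx : ‖x‖ = 1 then s x hx else 0, hn, fun x hx => ?_,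
    fun x hx => dif_neg hx.ne, fun x hx => by beta_reduce; rw [dif_pos hx, s1],
    fun x y hx hy hxy => ?_, fun x y hx hy => ?_, ?_⟩ <;> beta_reduce
  · split_ifs with c
    · exact s2 x c
    · rw [zero_sub, norm_neg]
      exact lt_of_le_of_ne hx c
  · by_cases c : ‖y‖ = 1
    · have c' := one_of c hxy
      rw [dif_pos c, dif_pos c']
      refine uniq h2 hn (s1 _ _) (s1 _ _) ?_
      rw [show s x c' - s y c = (s x c' - x) + (x - y) + -(s y c - y) by ring]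
      exact add_lt (add_lt (s2 _ _) hxy) ((norm_neg _).trans_lt (s2 _ _))
    · rw [dif_neg c, dif_neg fun c' => c (one_of c' (by rwa [norm_sub_rev]))]
  · by_cases c : ‖x‖ = 1
    · by_cases c' : ‖y‖ = 1
      · have c'' : ‖x * y‖ = 1 := by rw [norm_mul, c, c', one_mul]
        rw [dif_pos c, dif_pos c', dif_pos c'']
        refine uniq h2 hn (s1 _ _) (by rw [mul_pow, s1, s1, one_mul]) ?_
        rw [show s _ c'' - s x c * s y c' =
          (s _ c'' - x * y) + -(y * (s x c - x) + s x c * (s y c' - y)) by ring]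
        exact add_lt (s2 _ _) ((norm_neg _).trans_lt
          (add_lt (mul_lt hy (s2 _ _)) (mul_lt (sn _ _).le (s2 _ _))))
      · rw [dif_neg c', mul_zero, dif_neg (mul_lt hx (lt_of_le_of_ne hy c')).ne]
    · rw [dif_neg c, zero_mul, mul_comm, dif_neg (mul_lt hy (lt_of_le_of_ne hx c)).ne]
  · rw [dif_pos norm_one]
    exact uniq h2 hn (s1 _ _) (one_pow n) (s2 _ _)

open Tei in
theorem tei (h0 : TEI0) : TEI := by
  intro E _ _ _ _ r M h
  obtain ⟨n, t, hn, t1, t2, t3, t4, t5, t6⟩ := h0 E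
  have t0 : t 0 = 0 := t2 0 (by simp)
  have key : ∀ a b c d : E, ‖a‖ ≤ 1 → ‖b‖ ≤ 1 → ‖c‖ < 1 → ‖d‖ ≤ 1 →
      t (a * b + c * d) = t a * t b + t c * t d := fun a b c d ha hb hc hd => by
    have a1 : ‖a * b‖ ≤ 1 := by rw [norm_mul]; exact mul_le_one₀ ha (norm_nonneg _) hb
    have a2 : ‖c * d‖ < 1 := by rw [mul_comm]; exact mul_lt hd hc
    rw [t2 c hc, zero_mul, add_zero, ← t5 a b ha hb]
    exact t4 _ _ ((norm_add_le_max _ _).trans (max_le a1 a2.le)) a1 (by rwa [add_sub_cancel_left])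
  have row : ∀ g i, ‖(r g : Matrix (Fin 2) (Fin 2) E) i 0‖ < 1 ∨
      ‖(r g : Matrix (Fin 2) (Fin 2) E) i 1‖ < 1 := fun g i => by
    by_cases c : g ∈ M
    · fin_cases i
      exacts [Or.inr (h.dia g c).1, Or.inl (h.dia g c).2]
    · fin_cases i
      exacts [Or.inl (h.ant g c).1, Or.inr (h.ant g c).2]
  have one : (1 : Matrix (Fin 2) (Fin 2) E).map t = 1 := Matrix.map_one t t0 t6
  let f : GQ →* Matrix (Fin 2) (Fin 2) E :=
    { toFun := fun g => (r g : Matrix (Fin 2) (Fin 2) E).map t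
      map_one' := by rw [map_one, Units.val_one, one]
      map_mul' := fun g g' => by
        ext i j
        simp only [map_mul, Units.val_mul, Matrix.map_apply, Matrix.mul_apply, Fin.sum_univ_two]
        rcases row g i with c | c
        · rw [add_comm, key _ _ _ _ (h.int _ _ _) (h.int _ _ _) c (h.int _ _ _), add_comm]
        · exact key _ _ _ _ (h.int _ _ _) (h.int _ _ _) c (h.int _ _ _) }
  have e : ∀ g i j, (f.toHomUnits g : Matrix (Fin 2) (Fin 2) E) i j =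
      t ((r g : Matrix (Fin 2) (Fin 2) E) i j) := fun _ _ _ => rfl
  refine ⟨f.toHomUnits, n, hn, fun g i j => ?_, fun g i j => ?_, fun g c => ⟨t2 _ (h.dia g c).1,
    t2 _ (h.dia g c).2, t3 _ (le_antisymm (h.int _ _ _) (not_lt.1 fun o => ?_))⟩,
    fun g c => t2 _ (h.ant g c).1, fun g c => Units.ext ?_⟩
  · rw [Matrix.sub_apply, e, norm_sub_rev]
    exact t1 _ (h.int _ _ _)
  · have := norm_add_le_max (t ((r g : Matrix (Fin 2) (Fin 2) E) i j) -
      (r g : Matrix (Fin 2) (Fin 2) E) i j) ((r g : Matrix (Fin 2) (Fin 2) E) i j)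
    rw [sub_add_cancel] at this
    exact this.trans (max_le (t1 _ (h.int _ _ _)).le (h.int _ _ _))
  · have a2 : ((r g⁻¹ : Matrix (Fin 2) (Fin 2) E) * (r g : Matrix (Fin 2) (Fin 2) E)) 0 0 = 1 := by
      rw [← Units.val_mul, ← map_mul, inv_mul_cancel, map_one, Units.val_one, Matrix.one_apply_eq]
    rw [Matrix.mul_apply, Fin.sum_univ_two] at a2
    have a3 := add_lt (mul_lt (h.int g⁻¹ 0 0) o) (mul_lt (h.int g⁻¹ 0 1) (h.dia g c).2)
    rw [a2, norm_one] at a3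
    exact lt_irrefl _ a3
  · rw [Units.val_one, ← one]
    ext i j
    refine t4 _ _ (h.int _ _ _) ?_ (c i j)
    rw [Matrix.one_apply]
    split_ifs <;> simp

end Vale.Agent.P022D.Th
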