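import Vale.Agent.P022D.Th.Spec1
import Vale.Agent.P022.H626.Unit

/-!
# P022D, block TH: units which are close to one at `2` are positive
-/

set_option linter.all false

open NumberField

noncomputable section

namespace Vale.Agent.P022D.Th

namespace Upos

variable {R : Type} [CommRing R]

/-- the units congruent to one -/
def H (x : R) : Subgroup Rˣ :=
  (Units.map (Ideal.Quotient.mk (Ideal.span {x}) : R →* R ⧸ Ideal.span {x})).ker

theorem mem_H {x : R} {u : Rˣ} : u ∈ H x ↔ x ∣ (u : R) - 1 := by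
  rw [H, MonoidHom.mem_ker, Units.ext_iff, Units.coe_map, Units.val_one, MonoidHom.coe_coe,
    ← map_one (Ideal.Quotient.mk (Ideal.span {x})), Ideal.Quotient.eq, Ideal.mem_span_singleton]

/-- units close to one are squares if the squares lie in a cyclic group -/
theorem sq [IsDomain R] [WfDvdMonoid R] (h2 : ¬ IsUnit (2 : R)) (h0 : (2 : R) ≠ 0) (η : Rˣ)
    (hη : ∀ u : Rˣ, u ^ 2 ∈ Subgroup.zpowers η) :
    ∃ r : ℕ, ∀ u : Rˣ, (2 : R) ^ r ∣ (u : R) - 1 → ∃ v : Rˣ, u = v ^ 2 := by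
  let f : H (4 : R) →* Subgroup.zpowers η :=
    ((powMonoidHom 2).comp (H (4 : R)).subtype).codRestrict _ fun u => hη u
  have hf : Function.Injective f := by
    rw [injective_iff_map_eq_one]
    intro u hu
    have h1 : (u : Rˣ) ^ 2 = 1 := congrArg Subtype.val hu
    have h3 : ((u : Rˣ) : R) ^ 2 = 1 := by rw [← Units.val_pow_eq_pow_val, h1, Units.val_one]
    obtain ⟨c, hc⟩ := mem_H.1 u.2
    rcases sq_eq_one_iff.1 h3 with h | h
    · exact Subtype.ext (Units.ext h)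
    · refine (h2 (IsUnit.of_mul_eq_one (-c) (mul_left_cancel₀ h0 ?_))).elim
      rw [h] at hc
      linear_combination hc
  haveI : IsCyclic (H (4 : R)) := isCyclic_of_injective f hf
  obtain ⟨ε, hε⟩ := IsCyclic.exists_generator (α := H (4 : R))
  have hg : ∀ u : Rˣ, (4 : R) ∣ (u : R) - 1 → ∃ n : ℤ, u = (ε : Rˣ) ^ n := by
    intro u hu
    obtain ⟨n, hn⟩ := hε ⟨u, mem_H.2 hu⟩
    exact ⟨n, (congrArg Subtype.val hn).symm⟩
  obtain ⟨c, hc⟩ := mem_H.1 ε.2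
  by_cases hc0 : c = 0
  · refine ⟨2, fun u hu => ⟨1, ?_⟩⟩
    obtain ⟨n, hn⟩ := hg u (by rwa [show (4 : R) = 2 ^ 2 by norm_num])
    have : (ε : Rˣ) = 1 := Units.ext (by rw [hc0] at hc; simpa [sub_eq_zero] using hc)
    rw [hn, this, one_zpow, one_pow]
  obtain ⟨a, b, hb, hab⟩ := WfDvdMonoid.max_power_factor' hc0 h2
  refine ⟨a + 3, fun u hu => ?_⟩
  obtain ⟨n, hn⟩ := hg u (dvd_trans ⟨2 ^ (a + 1), by ring⟩ hu)
  rcases Int.even_or_odd' n with ⟨m, rfl | rfl⟩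
  · exact ⟨(ε : Rˣ) ^ m, by rw [hn, mul_comm, zpow_mul, zpow_ofNat]⟩
  · exfalso
    have e1 : (ε : Rˣ) ^ 2 ∈ H ((2 : R) ^ (a + 3)) := mem_H.2 ⟨b + 2 ^ (a + 1) * b ^ 2, by
      rw [Units.val_pow_eq_pow_val, show ((ε : Rˣ) : R) = 1 + 4 * (2 ^ a * b) by
        rw [← hab, ← hc]; ring]
      ring⟩
    have e2 : (ε : Rˣ) ∈ H ((2 : R) ^ (a + 3)) := by
      have e3 := mem_H.2 hu
      rw [hn, zpow_add, zpow_one, zpow_mul, zpow_ofNat] at e3
      exact (Subgroup.mul_mem_cancel_left _ (Subgroup.zpow_mem _ e1 m)).1 e3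
    obtain ⟨d, hd⟩ := mem_H.1 e2
    refine hb ⟨d, mul_left_cancel₀ (pow_ne_zero (a + 2) h0) ?_⟩
    rw [hc, hab] at hd
    linear_combination hd

end Upos

theorem upos : UPOS := by
  intro K _ _ h2 σ₁ σ₂ hne
  obtain ⟨η, -, -, hη⟩ := P022.H626.exists_gen h2 hne
  have pos : ∀ (σ : K →+* ℝ) (v : (𝓞 K)ˣ), 0 < σ (((v ^ 2 : (𝓞 K)ˣ) : 𝓞 K) : K) := by
    intro σ v
    have := P022.H626.emb_ne σ v.ne_zero
    rw [Units.val_pow_eq_pow_val]
    push_cast
    rw [map_pow]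
    positivity
  have hu : ¬ IsUnit (2 : 𝓞 K) := by
    intro h
    have h1 : IsUnit (algebraMap ℤ (𝓞 K) 2) := by simpa using h
    rw [isUnit_map_iff, Int.isUnit_iff] at h1
    omega
  obtain ⟨r, hr⟩ := Upos.sq hu two_ne_zero η fun u => by
    obtain ⟨n, hn⟩ := hη (u ^ 2) (pos σ₁ u) (pos σ₂ u)
    exact ⟨n, hn.symm⟩
  refine ⟨r, fun u hu => ?_⟩
  obtain ⟨v, rfl⟩ := hr u (by simpa using hu)
  exact pos σ₁ v

end Vale.Agent.P022D.Th
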