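import Vale.Agent.P022D.Th.Main1
import Vale.Agent.P022D.Th.Tei
import Vale.Agent.P022D.Th.Upos
import Vale.Agent.P022D.Th.Eta
import Vale.Agent.P022D.Th.Dsq

/-!
# P022D, block TH: the closed statement
-/

set_option linter.all false

namespace Vale.Agent.P022D.Th

/-- **TH** -/
theorem th0 : Top.TH := th (tei tei0) (eta upos) dsq

end Vale.Agent.P022D.Th
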