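import Vale.Agent.P022D.Th.SpecE
import Vale.Agent.P022D.V.TrOne
import Vale.Agent.P022.H811.L3.Up
import Vale.Agent.P022.H783.HAc

/-!
# P022D, block TH, row EIGC: tools
-/

set_option linter.all false

open UpperHalfPlane hiding I
open Matrix
open scoped MatrixGroups ModularForm

noncomputable section

namespace Vale.Agent.P022D.Th.Eigc

open Vale.Agent.P022 Vale.Agent.P027M.M Vale.Agent.P022D.V Vale.Agent.P022.H353

variable {N : ℕ} [NeZero N] {i : ℕ}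

theorem rep_smul {G : MF N (i + 1)} {c : ℕ → ℕ → ℂ} (z : ℂ) (h : Rep N i G c) :
    Rep N i (z • G) (z • c) := by
  intro δ hδ
  refine Hs.congr (Hs.smul z (h δ hδ)) (fun τ => ?_) (fun n => rfl)
  rw [FunLike.coe_smul, ModularForm.SL_smul_slash]
  simp only [Pi.smul_apply, smul_eq_mul]
  ring

theorem rep_zero : Rep N i 0 0 := by
  obtain ⟨c, hc⟩ := exists_rep (0 : MF N (i + 1))
  simpa using rep_smul 0 hc

theorem rep_congr {G : MF N (i + 1)} {c c' : ℕ → ℕ → ℂ} (h : Rep N i G c)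
    (e : ∀ n δ, Nat.Coprime δ (2 * N) → c' n δ = c n δ) : Rep N i G c' := fun δ hδ =>
  Hs.congr (h δ hδ) (fun _ => rfl) fun n => e n δ hδ

theorem rep_sum {ι : Type} (s : Finset ι) {G : ι → MF N (i + 1)} {c : ι → ℕ → ℕ → ℂ}
    (h : ∀ j, Rep N i (G j) (c j)) : Rep N i (∑ j ∈ s, G j) (∑ j ∈ s, c j) := by
  classical
  induction s using Finset.induction_on with
  | empty => simpa using rep_zero
  | insert a s ha ih =>
    rw [Finset.sum_insert ha, Finset.sum_insert ha]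
    exact (h a).add ih

theorem rep_uniq {G : MF N (i + 1)} {c c' : ℕ → ℕ → ℂ} (h : Rep N i G c) (h' : Rep N i G c')
    (n : ℕ) {δ : ℕ} (hδ : Nat.Coprime δ (2 * N)) : c n δ = c' n δ :=
  Hs.unique (h δ hδ) (h' δ hδ) n

theorem rep_eq_zero {G : MF N (i + 1)} (h : Rep N i G 0) : G = 0 := by
  have c1 : Nat.Coprime 1 (2 * N) := Nat.coprime_one_left _
  have e : (G : ℍ → ℂ) ∣[((i + 1 : ℕ) : ℤ)] gd N 1 (cop_N c1) = 0 := by
    funext τ
    have := (h 1 c1 τ).unique (Hs.zero τ)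
    simpa using this
  apply DFunLike.coe_injective
  have e2 := congrArg (fun f : ℍ → ℂ => f ∣[((i + 1 : ℕ) : ℤ)] (gd N 1 (cop_N c1))⁻¹) e
  simp only [← SlashAction.slash_mul, mul_inv_cancel, SlashAction.slash_one,
    SlashAction.zero_slash] at e2
  exact e2

theorem rep_Up {p : ℕ} (hp : p.Prime) (hN : p ∣ N) {G : MF N (i + 1)} {c : ℕ → ℕ → ℂ}
    (h : Rep N i G c) : Rep N i (H811.L3.Up hp hN (i + 1) G) fun n δ => c (p * n) δ := by
  intro δ hδ τ
  have k := H811.L3.hasSum_Up hp hN (i + 1)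
    (f := (δ : ℂ) ^ i • H783.slG0 (H783.gd_mem (cop_N hδ)) (i + 1) G) (c := fun n => c n δ)
    (fun τ => by
      have := h δ hδ τ
      rw [FunLike.coe_smul, H783.slG0_coe]
      exact H220.hs_congr' this fun n => by rw [← H220.qq_eq]) τ
  rw [map_smul, H811.L3.Up_slG0, FunLike.coe_smul, H783.slG0_coe] at k
  exact H220.hs_congr' k fun n => by rw [← H220.qq_eq]

theorem sg_comm (X Y : G.Wd N) : G.sg N i X * G.sg N i Y = G.sg N i Y * G.sg N i X := by
  have h1 : ∀ (s : Gen N) (Y : G.Wd N), Commute (gHk N s i) (G.sg N i Y) := fun s Y => by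
    induction Y using FreeAlgebra.induction with
    | grade0 r => rw [AlgHom.commutes]; exact (Algebra.commutes r _).symm
    | grade1 t => rw [G.sg, FreeAlgebra.lift_ι_apply]; exact H783.gHk_comm s t i
    | mul x y hx hy => rw [map_mul]; exact hx.mul_right hy
    | add x y hx hy => rw [map_add]; exact hx.add_right hy
  show Commute _ _
  induction X using FreeAlgebra.induction with
  | grade0 r => rw [AlgHom.commutes]; exact Algebra.commutes r _
  | grade1 s => rw [G.sg, FreeAlgebra.lift_ι_apply]; exact h1 s Y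
  | mul x y hx hy => rw [map_mul]; exact hx.mul_left hy
  | add x y hx hy => rw [map_add]; exact hx.add_left hy

/-- rational systems as complex systems -/
def cst : (ℕ → ℕ → ℚ) →+ (ℕ → ℕ → ℂ) where
  toFun v := fun n δ => (v n δ : ℂ)
  map_zero' := by ext; simp
  map_add' v w := by ext; simp

theorem cst_apply (v : ℕ → ℕ → ℚ) (n δ : ℕ) : cst v n δ = (v n δ : ℂ) := rfl

theorem cst_inj : Function.Injective cst := fun v w h => by
  funext n δ
  exact Rat.cast_injective (α := ℂ) (congrFun (congrFun h n) δ)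

omit [NeZero N] in
theorem cst_wd (X : G.Wd N) : ∀ v, cst (H761.Wd ℚ N X v) = H761.Wd ℂ N X (cst v) := by
  induction X using FreeAlgebra.induction with
  | grade0 r =>
    intro v
    rw [AlgHom.commutes, AlgHom.commutes]
    simp only [Algebra.algebraMap_eq_smul_one, LinearMap.smul_apply, Module.End.one_apply,
      map_zsmul]
  | grade1 s =>
    intro v
    rw [H761.Wd, H761.Wd, FreeAlgebra.lift_ι_apply, FreeAlgebra.lift_ι_apply]
    cases s with
    | inl ℓ =>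
      funext n δ
      change ((v (ℓ.1 * n) δ + (if ℓ.1 ∣ n then v (n / ℓ.1) (ℓ.1 * δ) else 0) : ℚ) : ℂ) =
        (v (ℓ.1 * n) δ : ℂ) + (if ℓ.1 ∣ n then (v (n / ℓ.1) (ℓ.1 * δ) : ℂ) else 0)
      split_ifs <;> simp
    | inr ℓ => rfl
  | mul x y hx hy =>
    intro v
    rw [map_mul, map_mul, Module.End.mul_apply, Module.End.mul_apply, hx, hy]
  | add x y hx hy =>
    intro v
    rw [map_add, map_add, LinearMap.add_apply, LinearMap.add_apply, map_add, hx, hy]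

omit [NeZero N] in
theorem wd_inv (A : AddSubgroup ℚ) (D : ℕ → Prop) (hD : ∀ (ℓ : PA N) δ, D δ → D (ℓ.1 * δ))
    (X : G.Wd N) : ∀ v : ℕ → ℕ → ℚ, (∀ n δ, D δ → v n δ ∈ A) →
      ∀ n δ, D δ → H761.Wd ℚ N X v n δ ∈ A := by
  induction X using FreeAlgebra.induction with
  | grade0 r =>
    intro c hc n δ hδ
    rw [AlgHom.commutes]
    simp only [Algebra.algebraMap_eq_smul_one, LinearMap.smul_apply, Module.End.one_apply,
      Pi.smul_apply]
    exact A.zsmul_mem (hc n δ hδ) r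
  | grade1 s =>
    intro c hc n δ hδ
    rw [H761.Wd, FreeAlgebra.lift_ι_apply]
    cases s with
    | inl ℓ =>
      change c (ℓ.1 * n) δ + (if ℓ.1 ∣ n then c (n / ℓ.1) (ℓ.1 * δ) else 0) ∈ A
      refine A.add_mem (hc _ _ hδ) ?_
      split_ifs
      · exact hc _ _ (hD ℓ δ hδ)
      · exact A.zero_mem
    | inr ℓ => exact hc _ _ (hD ℓ δ hδ)
  | mul x y hx hy =>
    intro c hc
    rw [map_mul]
    exact hx _ (hy c hc)
  | add x y hx hy =>
    intro c hc n δ hδ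
    rw [map_add]
    exact A.add_mem (hx c hc n δ hδ) (hy c hc n δ hδ)

/-- the rationals with odd denominator -/
def Z2 : AddSubgroup ℚ where
  carrier := {q | Odd q.den}
  zero_mem' := by simp
  add_mem' {a b} ha hb := Odd.of_dvd_nat (Odd.mul ha hb) (Rat.add_den_dvd a b)
  neg_mem' {a} ha := by simpa using ha

variable (N i) in
/-- the rational systems -/
def VQ : Submodule ℚ (ℕ → ℕ → ℚ) where
  carrier := {v | (∃ f, Rep N i f (cst v)) ∧ ∀ n δ, ¬ Nat.Coprime δ (2 * N) → v n δ = 0}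
  zero_mem' := ⟨⟨0, by rw [map_zero]; exact rep_zero⟩, fun _ _ _ => rfl⟩
  add_mem' := by
    rintro v w ⟨⟨f, hf⟩, h1⟩ ⟨⟨g, hg⟩, h2⟩
    exact ⟨⟨f + g, by rw [map_add]; exact hf.add hg⟩, fun n δ h => by
      rw [Pi.add_apply, Pi.add_apply, h1 n δ h, h2 n δ h, add_zero]⟩
  smul_mem' := by
    rintro q v ⟨⟨f, hf⟩, h1⟩
    exact ⟨⟨(q : ℂ) • f, rep_congr (rep_smul q hf) fun n δ _ => by simp [cst_apply]⟩,
      fun n δ h => by rw [Pi.smul_apply, Pi.smul_apply, h1 n δ h, smul_zero]⟩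

theorem rep_wd (X : G.Wd N) {f : MF N (i + 1)} {v : ℕ → ℕ → ℚ} (h : Rep N i f (cst v)) :
    Rep N i (G.sg N i X f) (cst (H761.Wd ℚ N X v)) := by
  rw [cst_wd]
  exact h.wd X

theorem VQ_wd (X : G.Wd N) {v : ℕ → ℕ → ℚ} (h : v ∈ VQ N i) : H761.Wd ℚ N X v ∈ VQ N i :=
  let ⟨⟨_, hf⟩, h1⟩ := h
  ⟨⟨_, rep_wd X hf⟩, wd_inv ⊥ (fun δ => ¬ Nat.Coprime δ (2 * N))
    (fun ℓ δ k k' => k (Nat.Coprime.coprime_mul_left k')) X v h1⟩

theorem VQ_comm (X Y : G.Wd N) {v : ℕ → ℕ → ℚ} (h : v ∈ VQ N i) :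
    H761.Wd ℚ N X (H761.Wd ℚ N Y v) = H761.Wd ℚ N Y (H761.Wd ℚ N X v) := by
  funext n δ
  by_cases hδ : Nat.Coprime δ (2 * N)
  · obtain ⟨f, hf⟩ := h.1
    have h1 := rep_wd X (rep_wd Y hf)
    have h2 := rep_wd Y (rep_wd X hf)
    rw [← Module.End.mul_apply, ← sg_comm, Module.End.mul_apply] at h2
    exact Rat.cast_injective (α := ℂ) (rep_uniq h1 h2 n hδ)
  · rw [(VQ_wd X (VQ_wd Y h)).2 n δ hδ, (VQ_wd Y (VQ_wd X h)).2 n δ hδ]

/-- the lattice -/
theorem lat (hL : LATC) (hN : Odd N) : ∃ t : Finset (MF N (i + 1)),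
    Submodule.span ℂ (t : Set (MF N (i + 1))) = ⊤ ∧ ∀ f ∈ t, ∃ v ∈ VQ N i, Rep N i f (cst v) ∧
      ∀ n δ, Odd (v n δ).den := by
  obtain ⟨t, h1, h2⟩ := hL N i hN
  refine ⟨t, h1, fun f hf => ?_⟩
  obtain ⟨c, hc, ho⟩ := h2 f hf
  have k : Rep N i f (cst fun n δ => if Nat.Coprime δ (2 * N) then c n δ else 0) :=
    rep_congr hc fun n δ h => by rw [cst_apply, if_pos h]
  refine ⟨_, ⟨⟨f, k⟩, fun n δ h => if_neg h⟩, k, fun n δ => ?_⟩
  split_ifs
  exacts [ho n δ, Z2.zero_mem]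

theorem VQ_kill (hL : LATC) (hN : Odd N) (X : G.Wd N)
    (h : ∀ v ∈ VQ N i, (∀ n δ, Odd (v n δ).den) → H761.Wd ℚ N X v = 0) : G.sg N i X = 0 := by
  obtain ⟨t, h1, h2⟩ := lat (i := i) hL hN
  refine LinearMap.ext_on h1 fun f hf => ?_
  obtain ⟨v, hv, k, ho⟩ := h2 f hf
  have := rep_wd X k
  rw [h v hv ho, map_zero] at this
  exact rep_eq_zero this

theorem VQ_sep (hL : LATC) (hS : SEPJ) (hN : Odd N) : ∃ J : Finset (ℕ × ℕ),
    ∀ v ∈ VQ N i, (∀ j ∈ J, v j.1 j.2 = 0) → v = 0 := by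
  obtain ⟨t, h1, h2⟩ := lat (i := i) hL hN
  choose w w1 w2 w3 using fun f : t => h2 f.1 f.2
  let W : Submodule ℂ (ℕ → ℕ → ℂ) := Submodule.span ℂ (Set.range fun f => cst (w f))
  haveI : FiniteDimensional ℂ W := FiniteDimensional.span_of_finite ℂ (Set.finite_range _)
  have key : ∀ f : MF N (i + 1), ∃ c ∈ W, Rep N i f c ∧
      ∀ n δ, ¬ Nat.Coprime δ (2 * N) → c n δ = 0 := fun f => by
    have hf : f ∈ Submodule.span ℂ (t : Set (MF N (i + 1))) := h1 ▸ Submodule.mem_top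
    induction hf using Submodule.span_induction with
    | mem x hx =>
      exact ⟨cst (w ⟨x, hx⟩), Submodule.subset_span ⟨⟨x, hx⟩, rfl⟩, w2 ⟨x, hx⟩, fun n δ h => by
        rw [cst_apply, (w1 _).2 n δ h, Rat.cast_zero]⟩
    | zero => exact ⟨0, W.zero_mem, rep_zero, fun _ _ _ => rfl⟩
    | add x y _ _ hx hy =>
      obtain ⟨a, a1, a2, a3⟩ := hx
      obtain ⟨b, b1, b2, b3⟩ := hy
      exact ⟨a + b, W.add_mem a1 b1, a2.add b2, fun n δ h => by
        rw [Pi.add_apply, Pi.add_apply, a3 n δ h, b3 n δ h, add_zero]⟩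
    | smul z x _ hx =>
      obtain ⟨a, a1, a2, a3⟩ := hx
      exact ⟨z • a, W.smul_mem z a1, rep_smul z a2, fun n δ h => by
        rw [Pi.smul_apply, Pi.smul_apply, a3 n δ h, smul_zero]⟩
  obtain ⟨J, hJ⟩ := hS ℂ W (ℕ × ℕ) fun j =>
    (LinearMap.proj j.2 ∘ₗ LinearMap.proj (φ := fun _ : ℕ => ℕ → ℂ) j.1) ∘ₗ W.subtype
  refine ⟨J, fun v ⟨⟨f, hf⟩, hv⟩ h0 => ?_⟩
  obtain ⟨c, c1, c2, c3⟩ := key f
  have e : ∀ n δ, c n δ = (v n δ : ℂ) := fun n δ => by
    by_cases hδ : Nat.Coprime δ (2 * N)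
    · exact rep_uniq c2 hf n hδ
    · rw [c3 n δ hδ, hv n δ hδ, Rat.cast_zero]
  funext n δ
  have := hJ ⟨c, c1⟩ (fun j hj => by
    show c j.1 j.2 = 0
    rw [e, h0 j hj, Rat.cast_zero]) (n, δ)
  exact Rat.cast_eq_zero.1 ((e n δ).symm.trans this)

end Vale.Agent.P022D.Th.Eigc
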