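import Vale.Agent.P022D.Th.Spec1
import Vale.Agent.P022D.End.Cg
import Vale.Agent.P022D.Dh.Ndh
import Vale.Agent.P022.H20.Top
import Vale.Agent.P022.H933.Main2F
import Vale.Agent.P022.H353.Main3F

/-!
# P022D, block TH, part one: the base case from theta series
-/

set_option linter.all false

open Matrix NumberField

noncomputable section

namespace Vale.Agent.P022D.Th

open Vale.Agent.P022 Vale.Agent.P022D.Dk Vale.Agent.P022D.Top Vale.Agent.P022D.End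
  Vale.Agent.P022.H567.Tw

section

variable {E : Type} [NontriviallyNormedField E] [IsUltrametricDist E]

theorem lt_add {x y : E} (hx : ‖x‖ < 1) (hy : ‖y‖ < 1) : ‖x + y‖ < 1 :=
  (IsUltrametricDist.norm_add_le_max _ _).trans_lt (max_lt hx hy)

theorem lt_sub {x y : E} (hx : ‖x‖ < 1) (hy : ‖y‖ < 1) : ‖x - y‖ < 1 := by
  rw [sub_eq_add_neg]
  exact lt_add hx (by rwa [norm_neg])

theorem lt_mul {x y : E} (hx : ‖x‖ < 1) (hy : ‖y‖ ≤ 1) : ‖x * y‖ < 1 := by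
  rw [norm_mul]
  exact (mul_le_of_le_one_right (norm_nonneg _) hy).trans_lt hx

theorem lt_sum {ι : Type} (s : Finset ι) (f : ι → E) (h : ∀ i ∈ s, ‖f i‖ < 1) :
    ‖∑ i ∈ s, f i‖ < 1 :=
  Finset.sum_induction f (fun x => ‖x‖ < 1) (fun _ _ => lt_add) (by simp) h

variable {r r₀ : GQ →* GL (Fin 2) E}

theorem cg_tr (h : Cg r r₀) (g : GQ) : ‖(r g : Matrix (Fin 2) (Fin 2) E).trace -
    (r₀ g : Matrix (Fin 2) (Fin 2) E).trace‖ < 1 := by
  rw [← Matrix.trace_sub, Matrix.trace_fin_two]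
  exact lt_add (h g 0 0) (h g 1 1)

theorem cg_det (h : Cg r r₀) (hi : ∀ g i j, ‖(r g : Matrix (Fin 2) (Fin 2) E) i j‖ ≤ 1)
    (hi₀ : ∀ g i j, ‖(r₀ g : Matrix (Fin 2) (Fin 2) E) i j‖ ≤ 1) (g : GQ) :
    ‖(r g : Matrix (Fin 2) (Fin 2) E).det - (r₀ g : Matrix (Fin 2) (Fin 2) E).det‖ < 1 := by
  have h' : ∀ i j, ‖(r g : Matrix (Fin 2) (Fin 2) E) i j -
      (r₀ g : Matrix (Fin 2) (Fin 2) E) i j‖ < 1 := h g
  rw [Matrix.det_fin_two, Matrix.det_fin_two, show ∀ a b c d a' b' c' d' : E,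
    a * d - b * c - (a' * d' - b' * c') =
      ((a - a') * d + (d - d') * a') - ((b - b') * c + (c - c') * b') from
    fun _ _ _ _ _ _ _ _ => by ring]
  exact lt_sub (lt_add (lt_mul (h' _ _) (hi g _ _)) (lt_mul (h' _ _) (hi₀ g _ _)))
    (lt_add (lt_mul (h' _ _) (hi g _ _)) (lt_mul (h' _ _) (hi₀ g _ _)))

variable [NormedAlgebra ℚ_[2] E]

theorem two_lt : ‖(2 : E)‖ < 1 := by
  rw [← map_ofNat (algebraMap ℚ_[2] E) 2, norm_algebraMap']
  have := Padic.norm_p_lt_one (p := 2)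
  exact_mod_cast this

theorem lt_of_sq {x : E} (h : ‖x ^ 2‖ < 1) : ‖x‖ < 1 := by
  rw [norm_pow] at h
  exact lt_of_pow_lt_pow_left₀ 2 zero_le_one (by rwa [one_pow])

theorem odd_norm {n : ℕ} (hn : Odd n) : ¬ ‖(n : E)‖ < 1 := by
  obtain ⟨k, rfl⟩ := hn
  intro h
  have h2 : ‖(2 : E) * (k : E)‖ < 1 := lt_mul two_lt (IsUltrametricDist.norm_natCast_le_one E k)
  have := lt_sub h h2
  push_cast at this
  rw [add_sub_cancel_left, norm_one] at this
  exact lt_irrefl _ this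

/-- roots of unity of odd order are distinct modulo the maximal ideal -/
theorem eq_one_of {a : E} {n : ℕ} (hn : Odd n) (h : a ^ n = 1) (h1 : ‖a - 1‖ < 1) : a = 1 := by
  by_contra hne
  have h2 : ∑ i ∈ Finset.range n, a ^ i = 0 := by
    have := mul_geom_sum a n
    rw [h, sub_self] at this
    exact (mul_eq_zero.1 this).resolve_left (sub_ne_zero.2 hne)
  have ha : ‖a‖ ≤ 1 := by
    rw [show a = (a - 1) + 1 by ring]
    exact (IsUltrametricDist.norm_add_le_max _ _).trans (max_le h1.le norm_one.le)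
  have h3 := lt_sum (Finset.range n) (fun i => a ^ i - 1) fun i _ => by
    have := norm_pow_sub_le ha norm_one.le i
    rw [one_pow] at this
    exact this.trans_lt h1
  rw [Finset.sum_sub_distrib, h2, zero_sub, norm_neg] at h3
  simp only [Finset.sum_const, Finset.card_range, nsmul_eq_mul, mul_one] at h3
  exact odd_norm hn h3

theorem near_of_pow {a : E} (s : ℕ) (h : a ^ 2 ^ s = 1) : ‖a - 1‖ < 1 := by
  have key : ∀ (s : ℕ) (a : E), ‖a ^ 2 ^ s - 1‖ < 1 → ‖a - 1‖ < 1 := by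
    intro s
    induction s with
    | zero => intro a h; simpa using h
    | succ s ih =>
      intro a h
      rw [pow_succ', pow_mul] at h
      have h1 := ih _ h
      have ha : ‖a‖ ≤ 1 := by
        have : ‖a ^ 2‖ ≤ 1 := by
          rw [show a ^ 2 = (a ^ 2 - 1) + 1 by ring]
          exact (IsUltrametricDist.norm_add_le_max _ _).trans (max_le h1.le norm_one.le)
        rw [norm_pow] at this
        exact (pow_le_one_iff_of_nonneg (norm_nonneg _) two_ne_zero).1 this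
      refine lt_of_sq ?_
      rw [show (a - 1) ^ 2 = (a ^ 2 - 1) + 2 * (1 - a) by ring]
      refine lt_add h1 (lt_mul two_lt ?_)
      rw [sub_eq_add_neg]
      exact (IsUltrametricDist.norm_add_le_max _ _).trans
        (max_le norm_one.le (by rwa [norm_neg]))
  exact key s a (by rw [h, sub_self, norm_zero]; exact one_pos)

end

section

variable {K : Type} [Field K] [NumberField K]

theorem cop_of {𝔭 : Ideal (𝓞 K)} {l n : ℕ} (h : (l : 𝓞 K) ∈ 𝔭) (hc : Nat.Coprime l n) :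
    IsCoprime 𝔭 (Ideal.span {(n : 𝓞 K)}) := by
  rw [Ideal.isCoprime_iff_sup_eq, Ideal.eq_top_iff_one]
  obtain ⟨a, b, hab⟩ := Nat.Coprime.cast (R := 𝓞 K) hc
  rw [← hab]
  exact add_mem (Ideal.mem_sup_left (𝔭.mul_mem_left a h))
    (Ideal.mem_sup_right (Ideal.mul_mem_left _ b (Ideal.mem_span_singleton_self _)))

/-- from a point of the Hecke algebra to the residual system -/
theorem res_of [Algebra.IsQuadraticExtension ℚ K] (j : K →+* Qb) {E E' : Type}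
    [NontriviallyNormedField E] [NormedAlgebra ℚ_[2] E] [IsUltrametricDist E]
    [NontriviallyNormedField E'] [NormedAlgebra ℚ_[2] E'] [IsUltrametricDist E']
    [NormedAlgebra E E'] {r r₀ : GQ →* GL (Fin 2) E} (hcg : Cg r r₀)
    (hi : ∀ g i j, ‖(r g : Matrix (Fin 2) (Fin 2) E) i j‖ ≤ 1)
    (hi₀ : ∀ g i j, ‖(r₀ g : Matrix (Fin 2) (Fin 2) E) i j‖ ≤ 1) {χ : GK j →* Eˣ}
    (hr : IsInd j χ r₀) {D₁ e m : ℕ} (hD : (discr K).natAbs = D₁ * 2 ^ e) [NeZero (D₁ * m ^ 2)]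
    (ψ : Ideal (𝓞 K) →* E) (hatt : Attached j χ ψ (2 * m))
    (hψ : ∀ 𝔞, IsCoprime 𝔞 (Ideal.span {((2 * m : ℕ) : 𝓞 K)}) → ‖ψ 𝔞‖ = 1)
    (ψ' : Ideal (𝓞 K) →* E') (hψ' : ∀ 𝔞, IsCoprime 𝔞 (Ideal.span {((2 * m : ℕ) : 𝓞 K)}) →
      ‖ψ' 𝔞 - algebraMap E E' (ψ 𝔞)‖ < 1) (s : ℕ → ℤ)
    (hs : ∀ ℓ : PA (D₁ * m ^ 2), s ℓ.1 = jacobiSym (discr K) ℓ.1)
    (c : ContHom (gHk (D₁ * m ^ 2)) E')
    (hc : ∀ ℓ : PA (D₁ * m ^ 2), c.val (Sum.inl ℓ) =
        (∑ᶠ 𝔭 ∈ {𝔭 : Ideal (𝓞 K) | Ideal.absNorm 𝔭 = ℓ.1}, ψ' 𝔭) ∧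
      c.val (Sum.inr ℓ) = s ℓ.1 * ψ' (Ideal.span {(ℓ.1 : 𝓞 K)})) : ResR (D₁ * m ^ 2) r := by
  have hK : Module.finrank ℚ K = 2 := Algebra.IsQuadraticExtension.finrank_eq_two ℚ K
  obtain ⟨k, hk⟩ := lim_of_contHom c 1 one_pos
  refine ⟨k, fun φ hφ X hX => ?_⟩
  rw [← norm_algebraMap' E', ← lift_bc]
  refine near (lift_near (a := sys (bc E' r) φ) (b := c.val) ?_
    (fun s => c.lam_le _) ?_ X) (hk X hX)
  · refine sys_le (fun g a b => ?_) φ
    rw [H20.bc_coe, Matrix.map_apply, norm_algebraMap']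
    exact hi g a b
  have hnd : ∀ ℓ : PA (D₁ * m ^ 2), ¬ ℓ.1 ∣ 2 * m := fun ℓ h =>
    ℓ.2.2 (h.trans (mul_dvd_mul_left 2 ⟨D₁ * m, by ring⟩))
  have hg := fun ℓ : PA (D₁ * m ^ 2) => (H20.gal' hK j χ ψ (2 * m)
    (fun 𝔭 𝔮 _ _ _ _ => map_mul ψ 𝔭 𝔮) hatt r₀ hr ℓ.2.1 (hnd ℓ) (H20.pa_disc hD ℓ).2).2
    (φ ℓ) (hφ ℓ)
  have hcop : ∀ (ℓ : PA (D₁ * m ^ 2)) (𝔭 : Ideal (𝓞 K)), (ℓ.1 : 𝓞 K) ∈ 𝔭 →
      IsCoprime 𝔭 (Ideal.span {((2 * m : ℕ) : 𝓞 K)}) := fun ℓ 𝔭 h =>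
    cop_of h ((Nat.Prime.coprime_iff_not_dvd ℓ.2.1).2 (hnd ℓ))
  rintro (ℓ | ℓ)
  · change ‖(bc E' r (φ ℓ) : Matrix (Fin 2) (Fin 2) E').trace - c.val (Sum.inl ℓ)‖ < 1
    have hf : {𝔭 : Ideal (𝓞 K) | Ideal.absNorm 𝔭 = ℓ.1}.Finite :=
      Ideal.finite_setOf_absNorm_eq _
    have h1 := cg_tr hcg (φ ℓ)
    rw [(hg ℓ).1, finsum_mem_eq_finite_toFinset_sum _ hf, ← norm_algebraMap' E', map_sub,
      map_sum] at h1
    rw [(hc ℓ).1, finsum_mem_eq_finite_toFinset_sum _ hf, H20.bc_trace]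
    have h2 := lt_sum hf.toFinset (fun 𝔭 => ψ' 𝔭 - algebraMap E E' (ψ 𝔭)) fun 𝔭 h =>
      hψ' 𝔭 (hcop ℓ 𝔭 (by
        have h3 : Ideal.absNorm 𝔭 = ℓ.1 := hf.mem_toFinset.1 h
        rw [← h3]
        exact Ideal.absNorm_mem 𝔭))
    rw [Finset.sum_sub_distrib] at h2
    have := lt_sub h1 h2
    rwa [sub_sub_sub_cancel_right] at this
  · change ‖(bc E' r (φ ℓ) : Matrix (Fin 2) (Fin 2) E').det - c.val (Sum.inr ℓ)‖ < 1
    have h1 := cg_det hcg hi hi₀ (φ ℓ)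
    have hco := hcop ℓ _ (Ideal.mem_span_singleton_self _)
    have h2 := hψ' _ hco
    have h3 : ‖algebraMap E E' (ψ (Ideal.span {(ℓ.1 : 𝓞 K)}))‖ ≤ 1 := by
      rw [norm_algebraMap', hψ _ hco]
    have hsg := H20.sign_of_jac hK ℓ.2.1
      (H20.jacG (K := K) ℓ.2.1 (H20.pa_disc hD ℓ).1 (H20.pa_disc hD ℓ).2)
    rw [(hc ℓ).2, H20.bc_det, hs]
    rcases (hg ℓ).2 with ⟨a, b⟩ | ⟨a, b⟩
    · rw [b, ← norm_algebraMap' E', map_sub] at h1
      rw [hsg.1 a, Int.cast_one, one_mul]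
      have := lt_sub h1 h2
      rwa [sub_sub_sub_cancel_right] at this
    · rw [b, ← norm_algebraMap' E', map_sub, map_neg] at h1
      rw [hsg.2 a]
      have := lt_add h1 h2
      rwa [show ∀ x y z : E', x - -y + (z - y) = x - ((-1 : ℤ) : E') * z from
        fun x y z => by push_cast; ring] at this

end

/-- **TH** -/
theorem th (hT : TEI) (hE : ETA) (hQ : DSQ) : TH := by
  classical
  intro E _ _ _ _ r M hc hS hM hd
  obtain ⟨r₀, n, hn, hcg, hi₀, hdia, hant, hker⟩ := hT E r M hM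
  obtain ⟨K, _, _, j, hK, rfl, -⟩ := Dh.Nd.quad M hM.opn hM.idx
  have hq : Algebra.IsQuadraticExtension ℚ K := ⟨hK⟩
  have hn0 : n ≠ 0 := hn.pos.ne'
  let χ₀ : GK j →* E :=
    { toFun := fun g => (r₀ g : Matrix (Fin 2) (Fin 2) E) 0 0
      map_one' := by simp
      map_mul' := fun g h => by
        rw [Subgroup.coe_mul, map_mul, Units.val_mul, Matrix.mul_apply, Fin.sum_univ_two,
          (hdia g g.2).1, zero_mul, add_zero] }
  let χ : GK j →* Eˣ := χ₀.toHomUnits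
  have hχ : ∀ g : GK j, (χ g : E) = (r₀ g : Matrix (Fin 2) (Fin 2) E) 0 0 := fun _ => rfl
  have hle : ∀ g : GK j, r₀ g = 1 → χ g = 1 := fun g h => Units.ext (by rw [hχ, h]; simp)
  have hr1 : ∀ g, r g = 1 → r₀ g = 1 := fun g h => hker g fun a b => by rw [h]; simp
  have hr : IsInd j χ r₀ := by
    obtain ⟨c, hc, -⟩ := hM.out
    refine ⟨![1, 0], fun h => ?_, c, fun a ha => ?_⟩
    · funext i
      fin_cases i <;> simp [Matrix.mulVec, dotProduct, hχ, (hdia h h.2).2.1]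
    · have h1 := congrFun ha 1
      have h2 : (r₀ c : Matrix (Fin 2) (Fin 2) E) 1 0 = 0 := by
        simpa [Matrix.mulVec, dotProduct] using h1
      have h3 := (r₀ c).det_ne_zero
      rw [Matrix.det_fin_two, hant c hc, h2] at h3
      simp at h3
  have hχc : Continuous χ := by
    refine continuous_of_continuousAt_one χ (continuousAt_const.congr (f := fun _ => 1) ?_)
    have ho : IsOpen {g : GK j | ∀ a b, ‖((r g : Matrix (Fin 2) (Fin 2) E) - 1) a b‖ < 1} := by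
      simp only [Set.setOf_forall]
      refine isOpen_iInter_of_finite fun a => isOpen_iInter_of_finite fun b => ?_
      refine isOpen_lt (Continuous.norm ?_) continuous_const
      exact (((Units.continuous_val.comp hc).comp continuous_subtype_val).sub
        continuous_const).matrix_elem a b
    filter_upwards [ho.mem_nhds (fun a b => by simp)] with g hg
    exact (hle g (hker g hg)).symm
  obtain ⟨m, ψ, hm, hmp, hatt, hrec⟩ := C.GCHF K j E χ hχc hS.toFinset (by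
    intro p hp hpS P hP hpP g hg
    have hu : UnrAt r p := by
      by_contra hn
      exact hpS (hS.mem_toFinset.2 ⟨hp, hn⟩)
    exact hle g (hr1 g (hu P hP hpP g hg)))
  have hc2 : X.Cont2 m ψ := by
    intro ε hε
    obtain ⟨t, ht⟩ := hrec (fun _ => 1) (fun φ g hg => by
      rcases H20.sign_sq j χ hg with h | h
      · exact h
      · have h1 := (hdia g g.2).2.2
        rw [← hχ, h, hn.neg_one_pow] at h1
        have h2 : (2 : E) = 0 := by linear_combination -h1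
        have h3 : CharZero E := charZero_of_injective_algebraMap (algebraMap ℚ_[2] E).injective
        exact absurd h2 two_ne_zero) ε hε
    refine ⟨t + 1, fun α hα => ?_⟩
    have := ht α (H20.ne_zero_of_dvd hα)
      (dvd_trans (Nat.cast_dvd_cast (Dvd.intro_left 2 (by ring))) hα)
    simpa using this
  have hnr := H576.X2.NRM2 K E m hm ψ hc2
  have hd0 : (discr K).natAbs ≠ 0 := Int.natAbs_ne_zero.2 (NumberField.discr_ne_zero K)
  obtain ⟨e, D₁, hD₁, hD⟩ := Nat.exists_eq_two_pow_mul_odd hd0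
  rw [mul_comm] at hD
  have hne : NeZero (D₁ * m ^ 2) := ⟨(Nat.mul_pos hD₁.pos (pow_pos hm.pos 2)).ne'⟩
  have hdv : ∀ a : ℕ, a ∣ D₁ → (a : ℤ) ∣ discr K := fun a h => Int.natCast_dvd.2 (by
    rw [hD]
    exact h.mul_right _)
  refine ⟨D₁ * m ^ 2, hne, hD₁.mul hm.pow, ?_, fun l hl hdl hu => ?_, fun l hl hu hdl => ?_⟩
  · by_cases hσ : Nonempty (K →+* ℝ)
    · obtain ⟨σ₁⟩ := hσ
      obtain ⟨σ₂, hσ⟩ := H20.exists_real hK σ₁
      obtain ⟨t, s, hη⟩ := hE K hK σ₁ σ₂ hσ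
      obtain ⟨E', i1, i2, i3, i4, i5, i6, hp⟩ :=
        ext_split E (Polynomial.cyclotomic (2 ^ (s + 1)) E)
      haveI : CharZero E' := charZero_of_injective_algebraMap (algebraMap ℚ_[2] E').injective
      rw [Polynomial.map_cyclotomic] at hp
      obtain ⟨ζ, hζ⟩ := hp.exists_eval_eq_zero (by
        rw [Polynomial.degree_cyclotomic]
        exact_mod_cast (Nat.totient_pos.2 (by positivity)).ne')
      haveI : NeZero (((2 ^ (s + 1) : ℕ)) : E') := ⟨by exact_mod_cast (by positivity)⟩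
      obtain ⟨η, hη1, hη2⟩ := hη E' ζ (Polynomial.isRoot_cyclotomic_iff.1 hζ)
      let ψ' : Ideal (𝓞 K) →* E' := ((algebraMap E E' : E →* E').comp ψ) * η
      have hψ' : ∀ 𝔞, ψ' 𝔞 = algebraMap E E' (ψ 𝔞) * η 𝔞 := fun _ => rfl
      have hdd : discr K = ((D₁ * 2 ^ e : ℕ) : ℤ) := by
        have := H20.discr_pos hK σ₁
        rw [← hD]; omega
      obtain ⟨c, hcc⟩ := H353.main3 K D₁ e m σ₁ σ₂ hσ hdd hD₁ hm E' ψ' (by
        intro ε hε
        obtain ⟨u, hu⟩ := hc2 ε hε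
        refine ⟨u + t, fun α hα => ?_⟩
        have h1 := hu α (dvd_trans (Nat.cast_dvd_cast (Dvd.intro (2 ^ t) (by ring))) hα)
        rw [hψ', hη1 α (dvd_trans (Nat.cast_dvd_cast (Dvd.intro (2 ^ u * m) (by ring))) hα)]
        rw [← norm_algebraMap' E', map_sub, map_one] at h1
        split_ifs
        · rwa [mul_one]
        · rwa [show ∀ x : E', x * -1 - -1 = -(x - 1) from fun x => by ring, norm_neg])
      refine res_of j hcg hM.int hi₀ hr hD ψ hatt hnr ψ' (fun 𝔞 h => ?_)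
        (fun ℓ => jacobiSym ((D₁ * 2 ^ e : ℕ) : ℤ) ℓ) (fun ℓ => by simp only [hdd]) c hcc
      rw [hψ', mul_comm]
      refine near_mul (near_of_pow (s + 1) (hη2 𝔞 ?_)) (by rw [norm_algebraMap', hnr 𝔞 h])
      refine h.of_isCoprime_of_dvd_right ?_
      exact ⟨Ideal.span {(m : 𝓞 K)}, by
        rw [Ideal.span_singleton_mul_span_singleton, Nat.cast_mul]⟩
    · have hcx : NumberField.IsTotallyComplex K := by
        refine ⟨fun w => ?_⟩
        rw [← NumberField.InfinitePlace.not_isReal_iff_isComplex]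
        intro hw
        exact hσ ⟨NumberField.InfinitePlace.embedding_of_isReal hw⟩
      obtain ⟨E', i1, i2, i3, i4, i5, i6, ι, -⟩ := H20.ext2 K E 0
      let ψ' : Ideal (𝓞 K) →* E' := (algebraMap E E' : E →* E').comp ψ
      have hψ' : ∀ 𝔞, ψ' 𝔞 = algebraMap E E' (ψ 𝔞) := fun _ => rfl
      have hdd : discr K = -((D₁ * 2 ^ e : ℕ) : ℤ) := by
        have := H20.discr_neg hK
        rw [← hD]; omega
      obtain ⟨c, hcc⟩ := X.MAIN2 K D₁ e hdd hD₁ E' ι m hm ψ' (by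
        intro ε hε
        obtain ⟨u, hu⟩ := hc2 ε hε
        refine ⟨u, fun α hα => ?_⟩
        rw [hψ', ← map_one (algebraMap E E'), ← map_sub, norm_algebraMap']
        exact hu α hα)
      refine res_of j hcg hM.int hi₀ hr hD ψ hatt hnr ψ' (fun 𝔞 h => by rw [hψ']; simp)
        (fun ℓ => X.chiD (D₁ * 2 ^ e) ℓ) (fun ℓ => ?_) c hcc
      have h1 : (0 : ℤ) < ((ℓ.1 : ℕ) : ℤ) := by exact_mod_cast ℓ.2.1.pos
      simp only [X.chiD, Int.sign_eq_one_of_pos h1, Int.natAbs_natCast, one_mul, hdd]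
  · have hu₀ : UnrAt r₀ l := fun P hP hlP g hg => hker g (hu g ⟨P, hP, hlP, hg⟩)
    rcases (Nat.Prime.dvd_mul hl).1 hdl with h | h
    · exact H916.ramified_of_dvd_discr j hK hr hl (hdv l h) hu₀
    · obtain ⟨P, hP, hpP, g, hg, hne⟩ := hmp l hl (hl.dvd_of_dvd_pow h)
      exact hne (hle g (hu₀ P hP hpP g hg))
  · have hlm : ¬ l ∣ m := by
      intro h
      obtain ⟨P, hP, hpP, g, hg, hne⟩ := hmp l hl h
      have h1 := hu P hP hpP g fun x hx => by simpa using P.add_mem (hg x) hx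
      have h2 := lt_sub h1 (cg_tr hcg g)
      have h3 := lt_sub (hd g) (cg_det hcg hM.int hi₀ g)
      rw [sub_sub_cancel, Matrix.trace_fin_two] at h2
      rw [sub_sub_sub_cancel_left, Matrix.det_fin_two, (hdia g g.2).1, zero_mul, sub_zero] at h3
      refine hne (Units.ext ?_)
      rw [hχ]
      refine eq_one_of hn (hdia g g.2).2.2 (lt_of_sq ?_)
      rw [show ∀ a : E, (a - 1) ^ 2 = (a + (r₀ g : Matrix (Fin 2) (Fin 2) E) 1 1) * a -
        (a * (r₀ g : Matrix (Fin 2) (Fin 2) E) 1 1 - 1) - 2 * a from fun a => by ring]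
      exact lt_sub (lt_sub (lt_mul h2 (hi₀ g 0 0)) h3) (lt_mul two_lt (hi₀ g 0 0))
    have h1 : l ^ 2 ∣ D₁ := (Nat.Coprime.pow 2 2
      ((Nat.Prime.coprime_iff_not_dvd hl).2 hlm)).dvd_of_dvd_mul_right hdl
    refine hQ K hK l hl ?_ (by exact_mod_cast hdv _ h1)
    rintro rfl
    exact (Nat.not_even_iff_odd.2 hD₁) (even_iff_two_dvd.2 ((dvd_pow_self 2 two_ne_zero).trans h1))

end Vale.Agent.P022D.Th
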