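import Vale.Agent.P022D.Th.P3

/-!
# P022D: weight one forms congruent to `1` modulo two at every cusp

`Af N v w = (P_v - P_w) / (x_v - x_w)` is `1 + 2 λ`, `λ` the slope of the line through the two
points in the Tate coordinates.
-/

set_option autoImplicit false
set_option linter.all false

open UpperHalfPlane hiding I
open Matrix Filter Topology Function.Periodic
open scoped MatrixGroups Manifold ModularForm Real

noncomputable section

namespace Vale.Agent.P022D.Th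

open Vale.Agent.P022 Vale.Agent.P022.H218.L3 Vale.Agent.P022.H231.L3 Vale.Agent.P022.H236.L3
  Vale.Agent.P022.H542.L3 Vale.Agent.P027H Vale.Agent.P027M.M Vale.Agent.P027M.M.A3
  Vale.Agent.P022D.V

open Complex (I)

theorem periodic_of_hasSum {N : ℕ} (hN : 0 < N) {a : ℕ → ℂ} {f : ℍ → ℂ}
    (hf : ∀ τ : ℍ, HasSum (fun k : ℕ => a k * qParam N τ ^ k) (f τ)) :
    Function.Periodic (f ∘ ofComplex) ((N : ℝ) : ℂ) := by
  have hC : ((N : ℝ) : ℂ) ≠ 0 := by exact_mod_cast hN.ne'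
  intro z
  by_cases hz : 0 < z.im
  · have hz' : 0 < (z + ((N : ℝ) : ℂ)).im := by simpa using hz
    rw [Function.comp_apply, Function.comp_apply, ofComplex_apply_of_im_pos hz,
      ofComplex_apply_of_im_pos hz']
    refine (hf _).unique ?_
    have e : qParam N (z + ((N : ℝ) : ℂ)) = qParam N z := by
      rw [qParam, qParam, mul_add, add_div, mul_div_assoc (2 * π * I), mul_div_assoc (2 * π * I),
        div_self hC, mul_one, Complex.exp_add, Complex.exp_two_pi_mul_I, mul_one]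
    have := hf ⟨z, hz⟩
    simpa only [coe_mk, e] using this
  · exact comp_ofComplex_of_im_le_zero f _ _ (by simpa using hz) (by simpa using hz)

/-- the expansion is unique -/
theorem ps_unique {N : ℕ} (hN : 0 < N) {A B : PowerSeries ℂ} {f : ℍ → ℂ}
    (hA : ∀ τ : ℍ, HasSum (fun k : ℕ => A.coeff k * qParam N τ ^ k) (f τ))
    (hB : ∀ τ : ℍ, HasSum (fun k : ℕ => B.coeff k * qParam N τ ^ k) (f τ)) : A = B := by
  have hr : (0 : ℝ) < N := by exact_mod_cast hN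
  have han := analyticAt_cuspFunction_zero hr (periodic_of_hasSum hN hA) (hol_of_hasSum hN hA)
    (isBoundedAtImInfty_of_hasSum_qExpansion hr hA)
  have h := (hasFPowerSeriesOnBall_cuspFunction hr han hA).hasFPowerSeriesAt.eq_formalMultilinearSeries
    (hasFPowerSeriesOnBall_cuspFunction hr han hB).hasFPowerSeriesAt
  ext m
  simpa using congr_arg (FormalMultilinearSeries.coeff · m) h

/-- the weight one form -/
def Af1 (N : ℕ) (v w : Fin 2 → ℤ) : ℍ → ℂ := fun τ => (Pf N v τ - Pf N w τ) / Wf N v w τ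

theorem Af1_slash (N : ℕ) (v w : Fin 2 → ℤ) (γ : SL(2, ℤ)) :
    Af1 N v w ∣[(1 : ℤ)] γ = Af1 N (v ᵥ* (γ : M2)) (w ᵥ* (γ : M2)) := by
  funext τ
  have hd : ((γ 1 0 : ℂ) * τ + γ 1 1) ≠ 0 := by
    have := denom_ne_zero (γ : GL (Fin 2) ℝ) τ
    rwa [ModularGroup.denom_apply] at this
  rw [ModularForm.SL_slash_apply, ModularGroup.denom_apply, Af1, Af1, Wf, Wf, xv_smul, xv_smul,
    Pf_smul, Pf_smul, ← mul_sub, ← mul_sub, _root_.zpow_neg, zpow_one]
  by_cases h : xv N (v ᵥ* (γ : M2)) τ - xv N (w ᵥ* (γ : M2)) τ = 0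
  · simp [h]
  · field_simp

theorem Af1_congr {N : ℕ} (hN : 0 < N) {v v' w w' : Fin 2 → ℤ} (h : ¬ NZ N (v - v'))
    (h' : ¬ NZ N (w - w')) : Af1 N v w = Af1 N v' w' := by
  funext τ
  rw [Af1, Af1, Wf, Wf, xv_congr hN h, xv_congr hN h', Pf_congr hN h, Pf_congr hN h']

theorem Af1_neg {N : ℕ} (hN : 0 < N) {v v' w w' : Fin 2 → ℤ} (h : ¬ NZ N (v + v'))
    (h' : ¬ NZ N (w + w')) : Af1 N v w = -Af1 N v' w' := by
  funext τ
  rw [Pi.neg_apply, Af1, Af1, Wf, Wf, xv_congr' hN h, xv_congr' hN h', Pf_congr' hN h,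
    Pf_congr' hN h', Pi.neg_apply, Pi.neg_apply]
  ring

/-- two points which are non zero and not equal up to sign -/
structure Pair (N : ℕ) (v w : Fin 2 → ℤ) : Prop where
  v0 : NZ N v
  w0 : NZ N w
  sub : NZ N (v - w)
  add : NZ N (v + w)

theorem Pair.vecMul {N : ℕ} {v w : Fin 2 → ℤ} (h : Pair N v w) (γ : SL(2, ℤ)) :
    Pair N (v ᵥ* (γ : M2)) (w ᵥ* (γ : M2)) :=
  ⟨h.v0.vecMul γ, h.w0.vecMul γ, Matrix.sub_vecMul (γ : M2) v w ▸ h.sub.vecMul γ,
    Matrix.add_vecMul (γ : M2) v w ▸ h.add.vecMul γ⟩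

variable {N : ℕ} {v w : Fin 2 → ℤ}

theorem Af1_mul (hN : 0 < N) (h : Pair N v w) (τ : ℍ) :
    Af1 N v w τ * Wf N v w τ = Pf N v τ - Pf N w τ :=
  div_mul_cancel₀ _ (Wf_ne hN h.v0 h.w0 h.sub h.add τ)

/-- the addition theorem -/
theorem Af1_sq (hN : 0 < N) (h : Pair N v w) (τ : ℍ) :
    Af1 N v w τ ^ 2 = 4 * (xv N v τ + xv N w τ + xv N (v + w) τ) := by
  have hp := Complex.two_pi_I_ne_zero
  have h0 := Wf_ne hN h.v0 h.w0 h.sub h.add τ
  rw [Wf, xv, xv, ← mul_sub] at h0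
  have h1 := right_ne_zero_of_mul h0
  have h2 := ((isLat τ).add (fun k => (zt_mem hN).1 k h.v0) (fun k => (zt_mem hN).1 k h.w0)
    (sub_ne_zero.1 h1)).2.1
  rw [Af1, Wf, Pf, Pf, xv, xv, xv, zt_add, h2, aX, P027H.sl, ← mul_sub, ← mul_sub]
  field_simp
  ring

theorem Wf_hasSum' (hN : 0 < N) (h : Pair N v w) (τ : ℍ) :
    HasSum (fun k : ℕ => (Xt N v - Xt N w).coeff k * qParam N τ ^ k) (Wf N v w τ) := by
  refine (Wf_hasSum hN h.v0 h.w0 τ).congr_fun fun k => ?_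
  simp [Xt]

theorem Af1_hol (hN : 0 < N) (h : Pair N v w) : Af1 N v w ∈ Hol := by
  have h1 := Pf_hol hN h.v0
  have h2 := Pf_hol hN h.w0
  have h3 := hol_of_hasSum hN (Wf_hasSum hN h.v0 h.w0)
  rw [mem_Hol, UpperHalfPlane.mdifferentiable_iff] at h1 h2 h3 ⊢
  exact (h1.sub h2).div h3 fun z _ => Wf_ne hN h.v0 h.w0 h.sub h.add _

theorem Af1_bdd0 (hN : 0 < N) (h : Pair N v w) : IsBoundedAtImInfty (Af1 N v w) := by
  have hr : (0 : ℝ) < N := by exact_mod_cast hN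
  obtain ⟨M1, A1, h1⟩ := isBoundedAtImInfty_iff.1
    (isBoundedAtImInfty_of_hasSum_qExpansion hr (xv_hasSum hN h.v0))
  obtain ⟨M2, A2, h2⟩ := isBoundedAtImInfty_iff.1
    (isBoundedAtImInfty_of_hasSum_qExpansion hr (xv_hasSum hN h.w0))
  obtain ⟨M3, A3, h3⟩ := isBoundedAtImInfty_iff.1
    (isBoundedAtImInfty_of_hasSum_qExpansion hr (xv_hasSum hN h.add))
  refine isBoundedAtImInfty_iff.2 ⟨4 * (M1 + M2 + M3) + 2, max A1 (max A2 A3), fun z hz => ?_⟩
  have k1 := h1 z (le_trans (le_max_left _ _) hz)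
  have k2 := h2 z (le_trans ((le_max_left _ _).trans (le_max_right _ _)) hz)
  have k3 := h3 z (le_trans ((le_max_right _ _).trans (le_max_right _ _)) hz)
  have e : Af1 N v w z ^ 2 = 4 * ((xv N v z - 1 / 12) + (xv N w z - 1 / 12) +
      (xv N (v + w) z - 1 / 12)) + 1 := by
    rw [Af1_sq hN h]
    ring
  have k4 : ‖Af1 N v w z‖ ^ 2 ≤ 4 * (M1 + M2 + M3) + 1 := by
    rw [← norm_pow, e]
    refine (norm_add_le _ _).trans ?_
    rw [norm_mul, norm_one, Complex.norm_ofNat]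
    have := (norm_add₃_le (a := xv N v z - 1 / 12) (b := xv N w z - 1 / 12)
      (c := xv N (v + w) z - 1 / 12))
    linarith
  nlinarith [norm_nonneg (Af1 N v w z), sq_nonneg (‖Af1 N v w z‖ - 1)]

theorem Af1_bdd (hN : 0 < N) (h : Pair N v w) : Bdd 1 (Af1 N v w) :=
  ⟨Af1_hol hN h, fun γ => by rw [Af1_slash]; exact Af1_bdd0 hN (h.vecMul γ)⟩

/-- the expansion of the weight one form -/
def As1 (N : ℕ) (v w : Fin 2 → ℤ) : PowerSeries ℂ := qExpansion N (Af1 N v w)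

theorem Af1_hasSum (hN : 0 < N) (h : Pair N v w) (τ : ℍ) :
    HasSum (fun k : ℕ => (As1 N v w).coeff k * qParam N τ ^ k) (Af1 N v w τ) := by
  have hr : (0 : ℝ) < N := by exact_mod_cast hN
  refine hasSum_qExpansion hr (fun z => ?_) (Af1_hol hN h) (Af1_bdd0 hN h) τ
  have h1 := periodic_of_hasSum hN (Pf_hasSum hN h.v0) z
  have h2 := periodic_of_hasSum hN (Pf_hasSum hN h.w0) z
  have h3 := periodic_of_hasSum hN (Wf_hasSum hN h.v0 h.w0) z
  simp only [Function.comp_apply] at h1 h2 h3 ⊢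
  rw [Af1, Af1, h1, h2, h3]

theorem As1_mul (hN : 0 < N) (h : Pair N v w) :
    As1 N v w * (Xt N v - Xt N w) = Ps N v - Ps N w := by
  refine ps_unique hN (fun τ => hasSum_mul (Af1_hasSum hN h τ) (Wf_hasSum' hN h τ)) fun τ => ?_
  rw [Af1_mul hN h]
  simpa only [map_sub, sub_mul] using (Pf_hasSum hN h.v0 τ).sub (Pf_hasSum hN h.w0 τ)

theorem Xt_sub_int (hN : 0 < N) (S : Subring ℂ) (hζ : ze N 1 ∈ S) (hi : (N : ℂ)⁻¹ ∈ S)
    (h : Pair N v w) : ∃ (n : ℕ) (U : PowerSeries S), IsUnit U ∧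
      Xt N v - Xt N w = PowerSeries.X ^ n * U.map S.subtype := by
  have : NeZero N := ⟨hN.ne'⟩
  have adm : P027M.M.A.Adm N (⟨ze N 1, hζ⟩ : S) :=
    P027M.M.A.adm_subring (ze_prim hN) (by exact_mod_cast hN.ne') _ hζ hi
  have h1 := h.sub
  have h2 := h.add
  rw [NZ_iff, red_sub, sub_ne_zero] at h1
  rw [NZ_iff, red_add, Ne, add_eq_zero_iff_eq_neg] at h2
  obtain ⟨U, hU, e⟩ := P027M.M.A.exists_unit adm ((NZ_iff v).1 h.v0) ((NZ_iff w).1 h.w0) h1 h2
  refine ⟨P027M.M.A.eo (red N v) (red N w), U, hU, ?_⟩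
  have e1 := congrArg (PowerSeries.map S.subtype) e
  rw [map_sub, P027M.M.A.map_Xr adm _ ((NZ_iff v).1 h.v0),
    P027M.M.A.map_Xr adm _ ((NZ_iff w).1 h.w0), map_mul, map_pow, PowerSeries.map_X] at e1
  rw [← e1, Subring.subtype_apply, ← mk_Xc hN v, ← mk_Xc hN w]
  ext k
  simp [Xt]

theorem ps_div (S : Subring ℂ) {A : PowerSeries ℂ} {n : ℕ} {U Y : PowerSeries S} (hU : IsUnit U)
    (e3 : PowerSeries.X ^ n * (A * U.map S.subtype) = 2 * Y.map S.subtype) :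
    ∃ L : PowerSeries S, A = 2 * L.map S.subtype := by
  obtain ⟨Z, hZ⟩ : (PowerSeries.X : PowerSeries S) ^ n ∣ Y := by
    rw [PowerSeries.X_pow_dvd_iff]
    intro m hm
    have := congrArg (PowerSeries.coeff m) e3
    rw [PowerSeries.coeff_X_pow_mul', if_neg (by omega), two_mul, map_add, ← two_mul,
      PowerSeries.coeff_map] at this
    have h3 := (mul_eq_zero.1 this.symm).resolve_left two_ne_zero
    exact Subtype.ext h3
  obtain ⟨V, hV⟩ := hU.exists_right_inv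
  refine ⟨Z * V, ?_⟩
  rw [hZ, map_mul, map_pow, PowerSeries.map_X, mul_left_comm (2 : PowerSeries ℂ)] at e3
  have e4 := mul_left_cancel₀ (pow_ne_zero n PowerSeries.X_ne_zero) e3
  have e5 := congrArg (PowerSeries.map S.subtype) hV
  rw [map_mul, map_one] at e5
  rw [map_mul]
  linear_combination (V.map S.subtype) * e4 - A * e5

/-- **the lift of the Hasse invariant**: the expansion is `1 + 2 L` -/
theorem As1_int (hN : 0 < N) (S : Subring ℂ) (hζ : ze N 1 ∈ S) (hi : (N : ℂ)⁻¹ ∈ S)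
    (h : Pair N v w) : ∃ L : PowerSeries S, As1 N v w = 1 + 2 * L.map S.subtype := by
  obtain ⟨Y, hY⟩ := Ps_int hN S hζ hi h.v0
  obtain ⟨Y', hY'⟩ := Ps_int hN S hζ hi h.w0
  obtain ⟨n, U, hU, e2⟩ := Xt_sub_int hN S hζ hi h
  obtain ⟨L, hL⟩ := ps_div S (A := As1 N v w - 1) (n := n) (Y := Y - Y') hU (by
    have := As1_mul hN h
    rw [hY, hY'] at this
    rw [map_sub]
    linear_combination this - (As1 N v w - 1) * e2)
  exact ⟨L, by rw [← hL]; ring⟩

theorem pair_std (hN : 3 ≤ N) : Pair N ![1, 0] ![0, 1] := by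
  have h : ¬ (N : ℤ) ∣ 1 := fun h => by
    have := Int.le_of_dvd one_pos h
    omega
  exact ⟨fun k => h (by simpa using k 0), fun k => h (by simpa using k 1),
    fun k => h (by simpa using k 0), fun k => h (by simpa using k 0)⟩

/-- **summary**: a form of weight one and level `Γ(N)` all of whose translates are `1` modulo two -/
theorem exists_one (hN : 3 ≤ N) : ∃ a : ℍ → ℂ, Bdd 1 a ∧
    (∀ γ : SL(2, ℤ), (∀ i j, (N : ℤ) ∣ ((γ : M2) - 1) i j) → a ∣[(1 : ℤ)] γ = a) ∧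
    ∀ (γ : SL(2, ℤ)) (S : Subring ℂ), ze N 1 ∈ S → (N : ℂ)⁻¹ ∈ S → ∃ L : PowerSeries S,
      qExpansion N (a ∣[(1 : ℤ)] γ) = 1 + 2 * L.map S.subtype ∧
      ∀ τ : ℍ, HasSum (fun k : ℕ => (1 + 2 * L.map S.subtype : PowerSeries ℂ).coeff k *
        qParam N τ ^ k) ((a ∣[(1 : ℤ)] γ) τ) := by
  have h0 : 0 < N := by omega
  have key : ∀ (γ : SL(2, ℤ)) (u : Fin 2 → ℤ), (∀ i j, (N : ℤ) ∣ ((γ : M2) - 1) i j) →
      ¬ NZ N (u ᵥ* (γ : M2) - u) := by
    intro γ u hγ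
    refine not_not.2 fun i => ?_
    rw [show u ᵥ* (γ : M2) - u = u ᵥ* ((γ : M2) - 1) by rw [Matrix.vecMul_sub, Matrix.vecMul_one]]
    simp only [Matrix.vecMul, dotProduct]
    exact Finset.dvd_sum fun j _ => (hγ j i).mul_left _
  refine ⟨Af1 N ![1, 0] ![0, 1], Af1_bdd h0 (pair_std hN), fun γ hγ => ?_, fun γ S h1 h2 => ?_⟩
  · rw [Af1_slash]
    exact Af1_congr h0 (key γ _ hγ) (key γ _ hγ)
  · obtain ⟨L, hL⟩ := As1_int h0 S h1 h2 ((pair_std hN).vecMul γ)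
    rw [Af1_slash]
    exact ⟨L, hL, fun τ => hL ▸ Af1_hasSum h0 ((pair_std hN).vecMul γ) τ⟩

end Vale.Agent.P022D.Th
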