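import Vale.Agent.P022D.Top.Spec

/-!
# P022D, block TH, part one: the base case from theta series (statements)
-/

set_option linter.all false

open Matrix NumberField

noncomputable section

namespace Vale.Agent.P022D.Th

open Vale.Agent.P022 Vale.Agent.P022D.Dk Vale.Agent.P022D.Top

/-- multiplicative representatives -/
def TEI0 : Prop := ∀ (E : Type) [NontriviallyNormedField E] [NormedAlgebra ℚ_[2] E]
  [IsUltrametricDist E] [FiniteDimensional ℚ_[2] E], ∃ (n : ℕ) (t : E → E), Odd n ∧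
  (∀ x, ‖x‖ ≤ 1 → ‖t x - x‖ < 1) ∧ (∀ x, ‖x‖ < 1 → t x = 0) ∧ (∀ x, ‖x‖ = 1 → t x ^ n = 1) ∧
  (∀ x y, ‖x‖ ≤ 1 → ‖y‖ ≤ 1 → ‖x - y‖ < 1 → t x = t y) ∧
  (∀ x y, ‖x‖ ≤ 1 → ‖y‖ ≤ 1 → t (x * y) = t x * t y) ∧ t 1 = 1

/-- the multiplicative lift of a residually monomial representation -/
def TEI : Prop := ∀ (E : Type) [NontriviallyNormedField E] [NormedAlgebra ℚ_[2] E]
  [IsUltrametricDist E] [FiniteDimensional ℚ_[2] E] (r : GQ →* GL (Fin 2) E) (M : Subgroup GQ),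
  Mono r M → ∃ (r₀ : GQ →* GL (Fin 2) E) (n : ℕ), Odd n ∧ Cg r r₀ ∧
    (∀ g i j, ‖(r₀ g : Matrix (Fin 2) (Fin 2) E) i j‖ ≤ 1) ∧
    (∀ g ∈ M, (r₀ g : Matrix (Fin 2) (Fin 2) E) 0 1 = 0 ∧ (r₀ g : Matrix (Fin 2) (Fin 2) E) 1 0 = 0 ∧
      (r₀ g : Matrix (Fin 2) (Fin 2) E) 0 0 ^ n = 1) ∧
    (∀ g, g ∉ M → (r₀ g : Matrix (Fin 2) (Fin 2) E) 0 0 = 0) ∧
    ∀ g, (∀ i j, ‖((r g : Matrix (Fin 2) (Fin 2) E) - 1) i j‖ < 1) → r₀ g = 1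

/-- units which are close to one at `2` are positive -/
def UPOS : Prop := ∀ (K : Type) [Field K] [NumberField K], Module.finrank ℚ K = 2 →
  ∀ σ₁ σ₂ : K →+* ℝ, σ₁ ≠ σ₂ → ∃ r : ℕ, ∀ u : (𝓞 K)ˣ,
    ((2 ^ r : ℕ) : 𝓞 K) ∣ (u : 𝓞 K) - 1 → 0 < σ₁ ((u : 𝓞 K) : K)

/-- a ray class character of conductor a power of two times one real place -/
def ETA : Prop := ∀ (K : Type) [Field K] [NumberField K], Module.finrank ℚ K = 2 →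
  ∀ σ₁ σ₂ : K →+* ℝ, σ₁ ≠ σ₂ → ∃ r s : ℕ, ∀ (E : Type) [Field E] (ζ : E),
    IsPrimitiveRoot ζ (2 ^ (s + 1)) → ∃ η : Ideal (𝓞 K) →* E,
      (∀ α : 𝓞 K, ((2 ^ r : ℕ) : 𝓞 K) ∣ α - 1 →
        η (Ideal.span {α}) = if 0 < σ₁ (α : K) then 1 else -1) ∧
      ∀ 𝔞 : Ideal (𝓞 K), IsCoprime 𝔞 (Ideal.span {((2 : ℕ) : 𝓞 K)}) → η 𝔞 ^ 2 ^ (s + 1) = 1

/-- the odd part of a quadratic discriminant is squarefree -/
def DSQ : Prop := ∀ (K : Type) [Field K] [NumberField K], Module.finrank ℚ K = 2 →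
  ∀ l : ℕ, l.Prime → l ≠ 2 → ¬ (l : ℤ) ^ 2 ∣ discr K

end Vale.Agent.P022D.Th
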