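import Vale.Agent.P022D.Th.Spec

/-!
# P022D, block TH: the corrected statement of the abstract eigenvector lemma
-/

set_option linter.all false

noncomputable section

namespace Vale.Agent.P022D.Th

/-- the abstract eigenvector modulo two (the last hypothesis only uses the integral vectors) -/
def EIG2 : Prop := ∀ (H F : Type) [Ring H] [Field F] [CharP F 2]
  (V : Submodule ℚ (ℕ → ℕ → ℚ)) (ρ : H →+* Module.End ℤ (ℕ → ℕ → ℚ)) (lam : H →+* F)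
  (J : Finset (ℕ × ℕ)), (∀ v ∈ V, (∀ i ∈ J, v i.1 i.2 = 0) → v = 0) →
  (∀ X, ∀ v ∈ V, ρ X v ∈ V) → (∀ X Y, ∀ v ∈ V, ρ X (ρ Y v) = ρ Y (ρ X v)) →
  (∀ X, ∀ v ∈ V, (∀ n δ, Odd (v n δ).den) → ∀ n δ, Odd (ρ X v n δ).den) →
  (∀ X, (∀ v ∈ V, (∀ n δ, Odd (v n δ).den) → ρ X v = 0) → lam X = 0) →
  ∃ (m : ℕ) (c : Fin m → F) (v : Fin m → ℕ → ℕ → ℚ), (∀ j, v j ∈ V ∧ ∀ n δ, Odd (v j n δ).den) ∧
    (∃ n δ, ∑ j, c j * ((v j n δ).num : F) ≠ 0) ∧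
    ∀ X n δ, ∑ j, c j * ((ρ X (v j) n δ).num : F) = lam X * ∑ j, c j * ((v j n δ).num : F)

end Vale.Agent.P022D.Th
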